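import Mathlib

/-!
# Grand partition functions with a pair kernel

Internal tools: `expo`, `zint`, `G` and the factorisation over disjoint regions.
-/

open MeasureTheory
open scoped ENNReal

namespace Vale.Agent.P171

/-- Euclidean three-space (internal abbreviation). -/
abbrev V3 : Type := EuclideanSpace ℝ (Fin 3)

/-- The exponent `μ N + (1/2) ∑_{i,j} g(x_i,x_j)` (diagonal terms included). -/
noncomputable def expo (μ : ℝ) (g : V3 → V3 → ℝ) {ι : Type} [Fintype ι] (x : ι → V3) : ℝ :=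
  μ * Fintype.card ι + (1 / 2) * ∑ i, ∑ j, g (x i) (x j)

/-- Weight of a configuration in the region `A`. -/
noncomputable def wt (A : Set V3) (μ : ℝ) (g : V3 → V3 → ℝ) {ι : Type} [Fintype ι]
    (x : ι → V3) : ℝ≥0∞ :=
  (∏ i, A.indicator 1 (x i)) * ENNReal.ofReal (Real.exp (expo μ g x))

/-- Canonical integral. -/
noncomputable def zint (A : Set V3) (μ : ℝ) (g : V3 → V3 → ℝ) (ι : Type) [Fintype ι] : ℝ≥0∞ :=
  ∫⁻ x : ι → V3, wt A μ g x

/-- Grand partition function. -/
noncomputable def G (A : Set V3) (μ : ℝ) (g : V3 → V3 → ℝ) : ℝ≥0∞ :=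
  ∑' N : ℕ, (N.factorial : ℝ≥0∞)⁻¹ * zint A μ g (Fin N)

variable {A B : Set V3} {μ : ℝ} {g : V3 → V3 → ℝ}

lemma expo_comp_equiv {ι κ : Type} [Fintype ι] [Fintype κ] (e : ι ≃ κ) (x : κ → V3) :
    expo μ g (fun i => x (e i)) = expo μ g x := by
  unfold expo
  rw [Fintype.card_congr e]
  congr 2
  rw [← Equiv.sum_comp e]
  refine Finset.sum_congr rfl fun i _ => ?_
  rw [← Equiv.sum_comp e]

lemma wt_comp_equiv {ι κ : Type} [Fintype ι] [Fintype κ] (e : ι ≃ κ) (x : κ → V3) :
    wt A μ g (fun i => x (e i)) = wt A μ g x := by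
  unfold wt
  rw [expo_comp_equiv e]
  congr 1
  exact Equiv.prod_comp e (fun i => A.indicator (1 : V3 → ℝ≥0∞) (x i))

lemma zint_equiv {ι κ : Type} [Fintype ι] [Fintype κ] (e : ι ≃ κ) :
    zint A μ g ι = zint A μ g κ := by
  unfold zint
  have h := volume_measurePreserving_piCongrLeft (fun _ : κ => V3) e
  rw [← h.lintegral_comp_emb (MeasurableEquiv.measurableEmbedding _)]
  refine lintegral_congr fun x => ?_
  rw [← wt_comp_equiv e]
  congr 1
  ext1 i
  simp [MeasurableEquiv.piCongrLeft, Equiv.piCongrLeft_apply]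

lemma zint_card {ι : Type} [Fintype ι] : zint A μ g ι = zint A μ g (Fin (Fintype.card ι)) :=
  zint_equiv (Fintype.equivFin ι)


lemma measurable_expo (hg : Measurable (Function.uncurry g)) {ι : Type} [Fintype ι] :
    Measurable (fun x : ι → V3 => expo μ g x) := by
  unfold expo
  refine Measurable.const_add (Measurable.const_mul ?_ _) _
  refine Finset.measurable_sum _ fun i _ => Finset.measurable_sum _ fun j _ => ?_
  have h := hg.comp (Measurable.prodMk (measurable_pi_apply (X := fun _ : ι => V3) i)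
    (measurable_pi_apply (X := fun _ : ι => V3) j))
  exact h

lemma measurable_wt (hA : MeasurableSet A) (hg : Measurable (Function.uncurry g))
    {ι : Type} [Fintype ι] : Measurable (fun x : ι → V3 => wt A μ g x) := by
  unfold wt
  refine Measurable.mul ?_ ?_
  · refine Finset.measurable_prod _ fun i _ => ?_
    exact (measurable_one.indicator hA).comp (measurable_pi_apply i)
  · exact ENNReal.measurable_ofReal.comp (Real.measurable_exp.comp (measurable_expo hg))

/-- Exponent splitting along a subset when cross terms vanish. -/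
lemma expo_split {ι : Type} [Fintype ι] (p : ι → Prop) [DecidablePred p] (x : ι → V3)
    (h1 : ∀ i j, p i → ¬ p j → g (x i) (x j) = 0) (h2 : ∀ i j, ¬ p i → p j → g (x i) (x j) = 0) :
    expo μ g x = expo μ g (fun i : {i // p i} => x i) + expo μ g (fun i : {i // ¬ p i} => x i) := by
  have hcard : (Fintype.card ι : ℝ) = Fintype.card {i // p i} + Fintype.card {i // ¬ p i} := by
    rw [← Nat.cast_add, Fintype.card_subtype_compl, Nat.add_sub_cancel' (Fintype.card_subtype_le p)]
  have hs : ∑ i, ∑ j, g (x i) (x j) =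
      ∑ i : {i // p i}, ∑ j : {i // p i}, g (x i) (x j) +
      ∑ i : {i // ¬ p i}, ∑ j : {i // ¬ p i}, g (x i) (x j) := by
    rw [← Fintype.sum_subtype_add_sum_subtype p]
    congr 1
    · refine Finset.sum_congr rfl fun i _ => ?_
      rw [← Fintype.sum_subtype_add_sum_subtype p]
      rw [Finset.sum_eq_zero (s := (Finset.univ : Finset {i // ¬ p i}))
        (fun j _ => h1 i j i.2 j.2), add_zero]
    · refine Finset.sum_congr rfl fun i _ => ?_
      rw [← Fintype.sum_subtype_add_sum_subtype p]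
      rw [Finset.sum_eq_zero (s := (Finset.univ : Finset {i // p i}))
        (fun j _ => h2 i j i.2 j.2), zero_add]
  unfold expo
  rw [hcard, hs]
  ring

lemma wt_split {ι : Type} [Fintype ι] [DecidableEq ι] (t : Finset ι) (p : ι → Prop)
    [DecidablePred p] (hp : ∀ i, p i ↔ i ∈ t) (x : ι → V3)
    (h1 : ∀ x ∈ A, ∀ y ∈ B, g x y = 0) (h2 : ∀ x ∈ B, ∀ y ∈ A, g x y = 0) :
    (∏ i ∈ t, A.indicator (1 : V3 → ℝ≥0∞) (x i)) * (∏ i ∈ Finset.univ \ t, B.indicator 1 (x i)) *
      ENNReal.ofReal (Real.exp (expo μ g x)) =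
    wt A μ g (fun i : {i // p i} => x i) * wt B μ g (fun i : {i // ¬ p i} => x i) := by
  have e1 : ∏ i ∈ t, A.indicator (1 : V3 → ℝ≥0∞) (x i) =
      ∏ i : {i // p i}, A.indicator (1 : V3 → ℝ≥0∞) (x i) := by
    exact Finset.prod_subtype _ (fun i => (hp i).symm) _
  have e2 : ∏ i ∈ Finset.univ \ t, B.indicator (1 : V3 → ℝ≥0∞) (x i) =
      ∏ i : {i // ¬ p i}, B.indicator (1 : V3 → ℝ≥0∞) (x i) := by
    exact Finset.prod_subtype _ (by simp [hp]) _
  unfold wt
  rw [e1, e2]
  by_cases hA : ∀ i, p i → x i ∈ A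
  · by_cases hB : ∀ i, ¬ p i → x i ∈ B
    · have hx := expo_split (μ := μ) (g := g) p x
        (fun i j hi hj => h1 _ (hA i hi) _ (hB j hj)) (fun i j hi hj => h2 _ (hB i hi) _ (hA j hj))
      rw [hx, Real.exp_add, ENNReal.ofReal_mul (Real.exp_pos _).le]
      ring
    · push Not at hB
      obtain ⟨i, hi, hxi⟩ := hB
      have : ∏ i : {i // ¬ p i}, B.indicator (1 : V3 → ℝ≥0∞) (x i) = 0 :=
        Finset.prod_eq_zero (Finset.mem_univ (⟨i, hi⟩ : {i // ¬ p i})) (by simp [hxi])
      rw [this]; simp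
  · push Not at hA
    obtain ⟨i, hi, hxi⟩ := hA
    have : ∏ i : {i // p i}, A.indicator (1 : V3 → ℝ≥0∞) (x i) = 0 :=
      Finset.prod_eq_zero (Finset.mem_univ (⟨i, hi⟩ : {i // p i})) (by simp [hxi])
    rw [this]; simp

lemma zint_piece (hA : MeasurableSet A) (hB : MeasurableSet B)
    (hg : Measurable (Function.uncurry g)) {N : ℕ} (p : Fin N → Prop) [DecidablePred p]
    (k : ℕ) (hk : Fintype.card {i // p i} = k) :
    ∫⁻ x : Fin N → V3, wt A μ g (fun i : {i // p i} => x i) *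
        wt B μ g (fun i : {i // ¬ p i} => x i) =
      zint A μ g (Fin k) * zint B μ g (Fin (N - k)) := by
  have h := volume_preserving_piEquivPiSubtypeProd (fun _ : Fin N => V3) p
  have h' := h.lintegral_comp_emb (MeasurableEquiv.measurableEmbedding _)
    (fun y : ({i // p i} → V3) × ({i // ¬ p i} → V3) => wt A μ g y.1 * wt B μ g y.2)
  have h3 : ∫⁻ x : Fin N → V3, wt A μ g (fun i : {i // p i} => x i) *
      wt B μ g (fun i : {i // ¬ p i} => x i) =
      ∫⁻ y : ({i // p i} → V3) × ({i // ¬ p i} → V3), wt A μ g y.1 * wt B μ g y.2 := by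
    rw [← h']
    rfl
  rw [h3, Measure.volume_eq_prod, lintegral_prod_mul (measurable_wt hA hg).aemeasurable
    (measurable_wt hB hg).aemeasurable]
  have c2 : Fintype.card {i // ¬ p i} = N - k := by
    rw [Fintype.card_subtype_compl, hk]; simp
  have z1 : zint A μ g {i // p i} = zint A μ g (Fin k) := by
    rw [zint_card, hk]
  have z2 : zint B μ g {i // ¬ p i} = zint B μ g (Fin (N - k)) := by
    rw [zint_card, c2]
  rw [← z1, ← z2]
  rfl

lemma zint_union (hA : MeasurableSet A) (hB : MeasurableSet B) (hAB : Disjoint A B)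
    (hg : Measurable (Function.uncurry g))
    (h1 : ∀ x ∈ A, ∀ y ∈ B, g x y = 0) (h2 : ∀ x ∈ B, ∀ y ∈ A, g x y = 0) (N : ℕ) :
    zint (A ∪ B) μ g (Fin N) =
      ∑ k ∈ Finset.range (N + 1), (N.choose k) • (zint A μ g (Fin k) * zint B μ g (Fin (N - k))) := by
  classical
  have hsplit : ∀ x : Fin N → V3, wt (A ∪ B) μ g x =
      ∑ t ∈ (Finset.univ : Finset (Fin N)).powerset,
        (∏ i ∈ t, A.indicator (1 : V3 → ℝ≥0∞) (x i)) * (∏ i ∈ Finset.univ \ t, B.indicator 1 (x i)) *
      ENNReal.ofReal (Real.exp (expo μ g x)) := by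
    intro x
    have : ∏ i, (A ∪ B).indicator (1 : V3 → ℝ≥0∞) (x i) =
        ∏ i, (A.indicator (1 : V3 → ℝ≥0∞) (x i) + B.indicator (1 : V3 → ℝ≥0∞) (x i)) := by
      refine Finset.prod_congr rfl fun i _ => ?_
      rw [Set.indicator_union_of_disjoint hAB]
    unfold wt
    rw [this, Finset.prod_add, Finset.sum_mul]
  have hmeas : ∀ t ∈ (Finset.univ : Finset (Fin N)).powerset, Measurable (fun x : Fin N → V3 =>
      (∏ i ∈ t, A.indicator (1 : V3 → ℝ≥0∞) (x i)) * (∏ i ∈ Finset.univ \ t, B.indicator 1 (x i)) *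
      ENNReal.ofReal (Real.exp (expo μ g x))) := by
    intro t _
    refine Measurable.mul (Measurable.mul ?_ ?_) ?_
    · exact Finset.measurable_prod _ fun i _ =>
        (measurable_one.indicator hA).comp (measurable_pi_apply i)
    · exact Finset.measurable_prod _ fun i _ =>
        (measurable_one.indicator hB).comp (measurable_pi_apply i)
    · exact ENNReal.measurable_ofReal.comp (Real.measurable_exp.comp (measurable_expo hg))
  have hint : ∀ t ∈ (Finset.univ : Finset (Fin N)).powerset,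
      ∫⁻ x : Fin N → V3, (∏ i ∈ t, A.indicator (1 : V3 → ℝ≥0∞) (x i)) *
        (∏ i ∈ Finset.univ \ t, B.indicator 1 (x i)) *
        ENNReal.ofReal (Real.exp (expo μ g x)) =
      zint A μ g (Fin t.card) * zint B μ g (Fin (N - t.card)) := by
    intro t _
    obtain ⟨p, hp⟩ : ∃ p : Fin N → Prop, ∀ i, p i ↔ i ∈ t := ⟨fun i => i ∈ t, fun i => Iff.rfl⟩
    rw [lintegral_congr (fun x => wt_split t p hp x h1 h2)]
    refine zint_piece hA hB hg p t.card ?_
    rw [Fintype.card_subtype]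
    congr 1
    ext i
    simp [hp]
  unfold zint at hint ⊢
  rw [lintegral_congr hsplit, lintegral_finsetSum _ hmeas, Finset.sum_congr rfl hint]
  rw [Finset.sum_powerset_apply_card
    (fun k => (∫⁻ x : Fin k → V3, wt A μ g x) * ∫⁻ x : Fin (N - k) → V3, wt B μ g x)]
  simp

/-- Cauchy product in `ℝ≥0∞`. -/
lemma ennreal_cauchy (a b : ℕ → ℝ≥0∞) :
    ∑' N : ℕ, ∑ k ∈ Finset.range (N + 1), a k * b (N - k) = (∑' n, a n) * ∑' n, b n := by
  rw [← ENNReal.tsum_mul_right]
  simp_rw [← ENNReal.tsum_mul_left]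
  rw [← ENNReal.tsum_prod (f := fun i j => a i * b j)]
  rw [← (Finset.HasAntidiagonal.sigmaAntidiagonalEquivProd (A := ℕ)).tsum_eq]
  rw [ENNReal.tsum_sigma']
  refine tsum_congr fun N => ?_
  rw [← Finset.Nat.sum_antidiagonal_eq_sum_range_succ (fun i j => a i * b j) N]
  rw [tsum_fintype]
  simp only [Finset.HasAntidiagonal.sigmaAntidiagonalEquivProd_apply]
  exact (Finset.sum_coe_sort (Finset.HasAntidiagonal.antidiagonal N)
    (fun x : ℕ × ℕ => a x.1 * b x.2)).symm

theorem G_union (hA : MeasurableSet A) (hB : MeasurableSet B) (hAB : Disjoint A B)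
    (hg : Measurable (Function.uncurry g))
    (h1 : ∀ x ∈ A, ∀ y ∈ B, g x y = 0) (h2 : ∀ x ∈ B, ∀ y ∈ A, g x y = 0) :
    G (A ∪ B) μ g = G A μ g * G B μ g := by
  unfold G
  rw [← ennreal_cauchy]
  refine tsum_congr fun N => ?_
  rw [zint_union hA hB hAB hg h1 h2, Finset.mul_sum]
  refine Finset.sum_congr rfl fun k hk => ?_
  have hk' : k ≤ N := Nat.lt_succ_iff.mp (Finset.mem_range.mp hk)
  have hf : (N.factorial : ℝ≥0∞)⁻¹ * (N.choose k : ℝ≥0∞) =
      (k.factorial : ℝ≥0∞)⁻¹ * ((N - k).factorial : ℝ≥0∞)⁻¹ := by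
    have h : (N.choose k : ℝ≥0∞) * (k.factorial * (N - k).factorial) = N.factorial := by
      rw [← mul_assoc]
      exact_mod_cast Nat.choose_mul_factorial_mul_factorial hk'
    have hk0 : (k.factorial : ℝ≥0∞) ≠ 0 := by exact_mod_cast (Nat.factorial_ne_zero k)
    have hk1 : ((N - k).factorial : ℝ≥0∞) ≠ 0 := by exact_mod_cast (Nat.factorial_ne_zero (N-k))
    have hN0 : (N.factorial : ℝ≥0∞) ≠ 0 := by exact_mod_cast (Nat.factorial_ne_zero N)
    have hkt : (k.factorial : ℝ≥0∞) ≠ ∞ := ENNReal.natCast_ne_top _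
    have hk1t : ((N - k).factorial : ℝ≥0∞) ≠ ∞ := ENNReal.natCast_ne_top _
    have hNt : (N.factorial : ℝ≥0∞) ≠ ∞ := ENNReal.natCast_ne_top _
    rw [← ENNReal.mul_inv (Or.inl hk0) (Or.inl hkt)]
    rw [← h, ENNReal.mul_inv (Or.inr (ENNReal.mul_ne_top hkt hk1t)) (Or.inr (mul_ne_zero hk0 hk1))]
    have hc0 : (N.choose k : ℝ≥0∞) ≠ 0 := by exact_mod_cast (Nat.choose_pos hk').ne'
    rw [mul_comm, ← mul_assoc, ENNReal.mul_inv_cancel hc0 (ENNReal.natCast_ne_top _), one_mul]
  rw [nsmul_eq_mul, ← mul_assoc, hf]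
  ring

end Vale.Agent.P171
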