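import Mathlib
import Vale.Agent.Lib.P171.Grand

/-!
# Monotonicity, convexity, translation invariance, labelled factorisation
-/

open MeasureTheory
open scoped ENNReal

namespace Vale.Agent.P171

variable {A B : Set V3} {μ μ' : ℝ} {g g' : V3 → V3 → ℝ}

lemma wt_eq_zero {ι : Type} [Fintype ι] {x : ι → V3} {i : ι} (h : x i ∉ A) : wt A μ g x = 0 := by
  unfold wt
  rw [Finset.prod_eq_zero (Finset.mem_univ i) (by simp [h]), zero_mul]

lemma wt_of_mem {ι : Type} [Fintype ι] {x : ι → V3} (h : ∀ i, x i ∈ A) :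
    wt A μ g x = ENNReal.ofReal (Real.exp (expo μ g x)) := by
  unfold wt
  rw [Finset.prod_eq_one (fun i _ => by simp [h i]), one_mul]

lemma zint_zero : zint A μ g (Fin 0) = 1 := by
  unfold zint wt expo
  simp [volume_pi, Measure.pi_univ]

lemma one_le_G : 1 ≤ G A μ g := by
  unfold G
  refine le_trans ?_ (ENNReal.le_tsum 0)
  simp [zint_zero]

lemma term_le_G (N : ℕ) : (N.factorial : ℝ≥0∞)⁻¹ * zint A μ g (Fin N) ≤ G A μ g :=
  ENNReal.le_tsum (f := fun N : ℕ => (N.factorial : ℝ≥0∞)⁻¹ * zint A μ g (Fin N)) N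

lemma G_mono_set (h : A ⊆ B) : G A μ g ≤ G B μ g := by
  unfold G
  refine ENNReal.tsum_le_tsum fun N => ?_
  gcongr
  unfold zint
  refine lintegral_mono fun x => ?_
  by_cases hx : ∀ i, x i ∈ A
  · rw [wt_of_mem hx, wt_of_mem fun i => h (hx i)]
  · push Not at hx
    obtain ⟨i, hi⟩ := hx
    rw [wt_eq_zero hi]
    exact zero_le

/-- Comparison of grand partition functions from a comparison of exponents. -/
lemma G_le_of_expo_le (c : ℝ)
    (h : ∀ (N : ℕ) (x : Fin N → V3), (∀ i, x i ∈ A) → expo μ g x ≤ c + expo μ' g' x) :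
    G A μ g ≤ ENNReal.ofReal (Real.exp c) * G A μ' g' := by
  unfold G
  rw [← ENNReal.tsum_mul_left]
  refine ENNReal.tsum_le_tsum fun N => ?_
  rw [mul_left_comm]
  gcongr
  unfold zint
  rw [← lintegral_const_mul' _ _ ENNReal.ofReal_ne_top]
  refine lintegral_mono fun x => ?_
  by_cases hx : ∀ i, x i ∈ A
  · rw [wt_of_mem hx, wt_of_mem hx, ← ENNReal.ofReal_mul (Real.exp_pos _).le, ← Real.exp_add]
    exact ENNReal.ofReal_le_ofReal (Real.exp_le_exp.mpr (h N x hx))
  · push Not at hx
    obtain ⟨i, hi⟩ := hx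
    rw [wt_eq_zero hi]
    exact zero_le

lemma G_mono_expo
    (h : ∀ (N : ℕ) (x : Fin N → V3), (∀ i, x i ∈ A) → expo μ g x ≤ expo μ' g' x) :
    G A μ g ≤ G A μ' g' := by
  have := G_le_of_expo_le (A := A) (μ := μ) (μ' := μ') (g := g) (g' := g') 0
    (fun N x hx => by rw [zero_add]; exact h N x hx)
  simpa using this

lemma expo_mono {ι : Type} [Fintype ι] {x : ι → V3} (hx : ∀ i, x i ∈ A)
    (h : ∀ x ∈ A, ∀ y ∈ A, g x y ≤ g' x y) : expo μ g x ≤ expo μ g' x := by
  unfold expo
  have : ∑ i, ∑ j, g (x i) (x j) ≤ ∑ i, ∑ j, g' (x i) (x j) :=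
    Finset.sum_le_sum fun i _ => Finset.sum_le_sum fun j _ => h _ (hx i) _ (hx j)
  linarith

lemma G_mono_kernel (h : ∀ x ∈ A, ∀ y ∈ A, g x y ≤ g' x y) : G A μ g ≤ G A μ g' :=
  G_mono_expo fun _ _ hx => expo_mono hx h

lemma G_congr_kernel (h : ∀ x ∈ A, ∀ y ∈ A, g x y = g' x y) : G A μ g = G A μ g' :=
  le_antisymm (G_mono_kernel fun x hx y hy => (h x hx y hy).le)
    (G_mono_kernel fun x hx y hy => (h x hx y hy).ge)

lemma G_mono_mu (h : μ ≤ μ') : G A μ g ≤ G A μ' g := by
  refine G_mono_expo fun N x _ => ?_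
  unfold expo
  have : μ * (Fintype.card (Fin N) : ℝ) ≤ μ' * (Fintype.card (Fin N) : ℝ) := by gcongr
  linarith

/-- Log-convexity (Hölder) in a form convenient for bounds. -/
lemma G_convex {g1 g2 : V3 → V3 → ℝ} {μ1 μ2 α β θ : ℝ} (hθ0 : 0 ≤ θ) (hθ1 : θ ≤ 1)
    (h : ∀ (N : ℕ) (x : Fin N → V3), (∀ i, x i ∈ A) →
      expo μ g x ≤ (1 - θ) * expo μ1 g1 x + θ * expo μ2 g2 x)
    (hA : MeasurableSet A) (hg1 : Measurable (Function.uncurry g1))
    (h1 : G A μ1 g1 ≤ ENNReal.ofReal (Real.exp α)) (h2 : G A μ2 g2 ≤ ENNReal.ofReal (Real.exp β)) :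
    G A μ g ≤ ENNReal.ofReal (Real.exp ((1 - θ) * α + θ * β)) := by
  set c := (1 - θ) * α + θ * β with hc
  set c1 := Real.exp c * ((1 - θ) * Real.exp (-α)) with hc1
  set c2 := Real.exp c * (θ * Real.exp (-β)) with hc2
  have hc1n : 0 ≤ c1 := by
    have : 0 ≤ 1 - θ := by linarith
    positivity
  have hc2n : 0 ≤ c2 := by positivity
  have key : G A μ g ≤ ENNReal.ofReal c1 * G A μ1 g1 + ENNReal.ofReal c2 * G A μ2 g2 := by
    unfold G
    rw [← ENNReal.tsum_mul_left, ← ENNReal.tsum_mul_left, ← ENNReal.tsum_add]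
    refine ENNReal.tsum_le_tsum fun N => ?_
    rw [mul_left_comm, mul_left_comm (ENNReal.ofReal c2), ← mul_add]
    gcongr
    unfold zint
    rw [← lintegral_const_mul' _ _ ENNReal.ofReal_ne_top,
      ← lintegral_const_mul' _ _ ENNReal.ofReal_ne_top,
      ← lintegral_add_left ((measurable_wt hA hg1).const_mul _)]
    refine lintegral_mono fun x => ?_
    by_cases hx : ∀ i, x i ∈ A
    · rw [wt_of_mem hx, wt_of_mem hx, wt_of_mem hx, ← ENNReal.ofReal_mul hc1n,
        ← ENNReal.ofReal_mul hc2n, ← ENNReal.ofReal_add (by positivity) (by positivity)]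
      refine ENNReal.ofReal_le_ofReal ?_
      have hcx := convexOn_exp.2 (Set.mem_univ (expo μ1 g1 x - α)) (Set.mem_univ (expo μ2 g2 x - β))
        (by linarith : 0 ≤ 1 - θ) hθ0 (by ring)
      simp only [smul_eq_mul] at hcx
      have h3 : Real.exp (expo μ g x) ≤
          Real.exp c * Real.exp ((1 - θ) * (expo μ1 g1 x - α) + θ * (expo μ2 g2 x - β)) := by
        rw [← Real.exp_add]
        refine Real.exp_le_exp.mpr ?_
        have := h N x hx
        rw [hc]
        linarith
      refine h3.trans ?_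
      calc Real.exp c * Real.exp ((1 - θ) * (expo μ1 g1 x - α) + θ * (expo μ2 g2 x - β))
          ≤ Real.exp c * ((1 - θ) * Real.exp (expo μ1 g1 x - α) +
            θ * Real.exp (expo μ2 g2 x - β)) := by gcongr
        _ = c1 * Real.exp (expo μ1 g1 x) + c2 * Real.exp (expo μ2 g2 x) := by
            rw [Real.exp_sub, Real.exp_sub, hc1, hc2, Real.exp_neg, Real.exp_neg]; ring
    · push Not at hx
      obtain ⟨i, hi⟩ := hx
      rw [wt_eq_zero hi]
      exact zero_le
  refine key.trans ?_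
  calc ENNReal.ofReal c1 * G A μ1 g1 + ENNReal.ofReal c2 * G A μ2 g2
      ≤ ENNReal.ofReal c1 * ENNReal.ofReal (Real.exp α) +
        ENNReal.ofReal c2 * ENNReal.ofReal (Real.exp β) := by gcongr
    _ = ENNReal.ofReal (Real.exp c) := by
        rw [← ENNReal.ofReal_mul hc1n, ← ENNReal.ofReal_mul hc2n,
          ← ENNReal.ofReal_add (by positivity) (by positivity)]
        congr 1
        rw [hc1, hc2, Real.exp_neg, Real.exp_neg]
        have := Real.exp_ne_zero α
        have := Real.exp_ne_zero β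
        field_simp
        ring

/-- Translation invariance. -/
lemma G_translate (w : V3) (hAB : ∀ x, x + w ∈ B ↔ x ∈ A)
    (hg : ∀ x y, g (x + w) (y + w) = g x y) : G B μ g = G A μ g := by
  unfold G
  refine tsum_congr fun N => ?_
  congr 1
  unfold zint
  rw [← lintegral_add_right_eq_self (fun x : Fin N → V3 => wt B μ g x) (fun _ => w)]
  refine lintegral_congr fun x => ?_
  unfold wt expo
  congr 1
  · refine Finset.prod_congr rfl fun i _ => ?_
    by_cases hx : x i ∈ A
    · rw [Set.indicator_of_mem hx, Set.indicator_of_mem]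
      · rfl
      · exact (hAB (x i)).mpr hx
    · rw [Set.indicator_of_notMem hx, Set.indicator_of_notMem]
      exact fun h => hx ((hAB (x i)).mp h)
  · simp only [Pi.add_apply, hg]

/-- Factorisation over finitely many labels. -/
lemma G_labels {Λ : Type} [DecidableEq Λ] (lab : V3 → Λ)
    (hg : Measurable (Function.uncurry g)) (hlab : ∀ x y, lab x ≠ lab y → g x y = 0)
    (hmeas : ∀ l, MeasurableSet {x | lab x = l}) (s : Finset Λ) :
    ∀ A : Set V3, MeasurableSet A → (∀ x ∈ A, lab x ∈ s) →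
      G A μ g = ∏ l ∈ s, G (A ∩ {x | lab x = l}) μ g := by
  induction s using Finset.induction_on with
  | empty =>
    intro A hA hs
    have : A = ∅ := by
      ext x
      constructor
      · intro hx; simpa using hs x hx
      · intro hx; exact absurd hx (by simp)
    subst this
    simp only [Finset.prod_empty]
    refine le_antisymm ?_ one_le_G
    unfold G
    rw [tsum_eq_single 0]
    · simp [zint_zero]
    · intro N hN
      have : zint ∅ μ g (Fin N) = 0 := by
        unfold zint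
        rw [lintegral_eq_zero_iff' ?_]
        · refine Filter.Eventually.of_forall fun x => ?_
          exact wt_eq_zero (i := ⟨0, Nat.pos_of_ne_zero hN⟩) (by simp)
        · exact (measurable_wt MeasurableSet.empty hg).aemeasurable
      rw [this, mul_zero]
  | insert l s hl ih =>
    intro A hA hs
    rw [Finset.prod_insert hl]
    have hsplit : A = (A ∩ {x | lab x = l}) ∪ (A ∩ {x | lab x ≠ l}) := by
      ext x
      by_cases h : lab x = l <;> simp [h]
    have hne : MeasurableSet {x | lab x ≠ l} := (hmeas l).compl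
    have h2 : G A μ g = G (A ∩ {x | lab x = l}) μ g * G (A ∩ {x | lab x ≠ l}) μ g := by
      conv_lhs => rw [hsplit]
      refine G_union (hA.inter (hmeas l)) (hA.inter hne) ?_ hg ?_ ?_
      · rw [Set.disjoint_left]
        rintro x ⟨_, hx⟩ ⟨_, hx'⟩
        exact hx' hx
      · rintro x ⟨_, hx⟩ y ⟨_, hy⟩
        refine hlab x y ?_
        simp only [Set.mem_ofPred_eq] at hx hy
        rw [hx]; exact fun h => hy h.symm
      · rintro x ⟨_, hx⟩ y ⟨_, hy⟩
        refine hlab x y ?_
        simp only [Set.mem_ofPred_eq] at hx hy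
        rw [hy]; exact hx
    rw [h2, ih (A ∩ {x | lab x ≠ l}) (hA.inter hne) ?_]
    · congr 1
      refine Finset.prod_congr rfl fun l' hl' => ?_
      congr 1
      ext x
      simp only [Set.mem_inter_iff, Set.mem_ofPred_eq]
      constructor
      · rintro ⟨⟨h1, _⟩, h3⟩; exact ⟨h1, h3⟩
      · rintro ⟨h1, h3⟩
        refine ⟨⟨h1, ?_⟩, h3⟩
        rw [h3]; rintro rfl; exact hl hl'
    · rintro x ⟨hx, hx'⟩
      have := hs x hx
      rw [Finset.mem_insert] at this
      exact this.resolve_left hx'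

/-- The Laplace-type bound for an additional mean-field attraction `τ/V`. -/
lemma G_meanfield {τ V ξ Q : ℝ} (hV : 0 < V) (hξ : 0 < ξ)
    (h : ∀ s : ℝ, 0 ≤ s → G A (μ + ξ + τ * s) g ≤ ENNReal.ofReal (Real.exp (Q + τ * V * s ^ 2 / 2))) :
    G A μ (fun x y => g x y + τ / V) ≤
      ENNReal.ofReal (Real.exp (Q + Real.log (1 / (1 - Real.exp (-ξ))))) := by
  have hexp1 : Real.exp (-ξ) < 1 := by
    rw [Real.exp_lt_one_iff]; linarith
  have hterm : ∀ N : ℕ, (N.factorial : ℝ≥0∞)⁻¹ * zint A μ (fun x y => g x y + τ / V) (Fin N) ≤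
      ENNReal.ofReal (Real.exp Q * Real.exp (-ξ) ^ N) := by
    intro N
    set s : ℝ := N / V with hs
    have hs0 : 0 ≤ s := by positivity
    have h1 : zint A μ (fun x y => g x y + τ / V) (Fin N) =
        ENNReal.ofReal (Real.exp (-ξ * N - τ * V * s ^ 2 / 2)) *
          zint A (μ + ξ + τ * s) g (Fin N) := by
      unfold zint
      rw [← lintegral_const_mul' _ _ ENNReal.ofReal_ne_top]
      refine lintegral_congr fun x => ?_
      unfold wt
      rw [mul_left_comm, ← ENNReal.ofReal_mul (Real.exp_pos _).le, ← Real.exp_add]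
      congr 3
      unfold expo
      simp only [Finset.sum_add_distrib, Finset.sum_const, Finset.card_univ, Fintype.card_fin,
        nsmul_eq_mul]
      rw [hs]
      field_simp
      ring
    rw [h1, mul_left_comm]
    calc ENNReal.ofReal (Real.exp (-ξ * N - τ * V * s ^ 2 / 2)) *
          ((N.factorial : ℝ≥0∞)⁻¹ * zint A (μ + ξ + τ * s) g (Fin N))
        ≤ ENNReal.ofReal (Real.exp (-ξ * N - τ * V * s ^ 2 / 2)) *
          ENNReal.ofReal (Real.exp (Q + τ * V * s ^ 2 / 2)) := by
          gcongr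
          exact (term_le_G N).trans (h s hs0)
      _ = ENNReal.ofReal (Real.exp Q * Real.exp (-ξ) ^ N) := by
          rw [← ENNReal.ofReal_mul (Real.exp_pos _).le, ← Real.exp_add, ← Real.exp_nat_mul,
            ← Real.exp_add]
          congr 2
          ring
  unfold G
  calc ∑' N : ℕ, (N.factorial : ℝ≥0∞)⁻¹ * zint A μ (fun x y => g x y + τ / V) (Fin N)
      ≤ ∑' N : ℕ, ENNReal.ofReal (Real.exp Q * Real.exp (-ξ) ^ N) := ENNReal.tsum_le_tsum hterm
    _ = ENNReal.ofReal (∑' N : ℕ, Real.exp Q * Real.exp (-ξ) ^ N) := by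
        rw [ENNReal.ofReal_tsum_of_nonneg]
        · intro N; positivity
        · exact (summable_geometric_of_lt_one (Real.exp_pos _).le hexp1).mul_left _
    _ = ENNReal.ofReal (Real.exp (Q + Real.log (1 / (1 - Real.exp (-ξ))))) := by
        rw [tsum_mul_left, tsum_geometric_of_lt_one (Real.exp_pos _).le hexp1, Real.exp_add,
          Real.exp_log (by rw [one_div]; exact inv_pos.mpr (by linarith)), one_div]

end Vale.Agent.P171
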