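import Mathlib

/-!
# A Schur test for finite configurations, and superstability of `r^{-6}`
-/

namespace Vale.Agent.P171

/-- Schur test. -/
lemma schur {ι Q : Type} [Fintype ι] [DecidableEq Q] (c : ι → Q) (V : Q → Q → ℝ) (ω S : Q → ℝ)
    (hV : ∀ q q', 0 ≤ V q q') (hsymm : ∀ q q', V q q' = V q' q) (hω : ∀ q, 0 < ω q)
    (hS : ∀ (T : Finset Q) (q : Q), ∑ q' ∈ T, V q q' * ω q' ≤ S q * ω q) :
    ∑ i, ∑ j, V (c i) (c j) ≤ ∑ i, ∑ j, if c i = c j then S (c i) else 0 := by
  classical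
  set T := (Finset.univ : Finset ι).image c with hT
  set n : Q → ℝ := fun q => ((Finset.univ.filter (fun i => c i = q)).card : ℝ) with hn
  have hn0 : ∀ q, 0 ≤ n q := fun q => Nat.cast_nonneg _
  have key : ∀ F : Q → Q → ℝ, ∑ i, ∑ j, F (c i) (c j) =
      ∑ q ∈ T, ∑ q' ∈ T, n q * n q' * F q q' := by
    intro F
    have h1 : ∀ q, ∑ j, F q (c j) = ∑ q' ∈ T, n q' * F q q' := by
      intro q
      rw [Finset.sum_comp (fun q' => F q q') c]
      refine Finset.sum_congr rfl fun q' _ => ?_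
      rw [nsmul_eq_mul]
    simp_rw [h1]
    rw [Finset.sum_comp (fun q => ∑ q' ∈ T, n q' * F q q') c]
    refine Finset.sum_congr rfl fun q _ => ?_
    rw [nsmul_eq_mul, Finset.mul_sum]
    refine Finset.sum_congr rfl fun q' _ => ?_
    ring
  rw [key V, key (fun q q' => if q = q' then S q else 0)]
  have hR : ∑ q ∈ T, ∑ q' ∈ T, n q * n q' * (if q = q' then S q else 0) =
      ∑ q ∈ T, n q ^ 2 * S q := by
    refine Finset.sum_congr rfl fun q hq => ?_
    rw [Finset.sum_eq_single q]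
    · rw [if_pos rfl]; ring
    · intro q' _ hne
      rw [if_neg (fun h => hne h.symm), mul_zero]
    · intro h; exact absurd hq h
  rw [hR]
  have hpt : ∀ q q', n q * n q' * V q q' ≤
      (1 / 2) * (n q ^ 2 * (V q q' * ω q' / ω q)) + (1 / 2) * (n q' ^ 2 * (V q' q * ω q / ω q')) := by
    intro q q'
    have h1 := hω q
    have h2 := hω q'
    have h3 : n q * n q' ≤ (1 / 2) * (n q ^ 2 * (ω q' / ω q)) + (1 / 2) * (n q' ^ 2 * (ω q / ω q')) := by
      have h4 : 0 ≤ (n q * ω q' - n q' * ω q) ^ 2 / (ω q * ω q') := by positivity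
      have h5 : (n q * ω q' - n q' * ω q) ^ 2 / (ω q * ω q') =
          n q ^ 2 * (ω q' / ω q) + n q' ^ 2 * (ω q / ω q') - 2 * (n q * n q') := by
        field_simp
        ring
      linarith
    calc n q * n q' * V q q' ≤ ((1 / 2) * (n q ^ 2 * (ω q' / ω q)) +
          (1 / 2) * (n q' ^ 2 * (ω q / ω q'))) * V q q' :=
          mul_le_mul_of_nonneg_right h3 (hV q q')
      _ = _ := by rw [hsymm q' q]; ring
  calc ∑ q ∈ T, ∑ q' ∈ T, n q * n q' * V q q'
      ≤ ∑ q ∈ T, ∑ q' ∈ T, ((1 / 2) * (n q ^ 2 * (V q q' * ω q' / ω q)) +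
        (1 / 2) * (n q' ^ 2 * (V q' q * ω q / ω q'))) :=
        Finset.sum_le_sum fun q _ => Finset.sum_le_sum fun q' _ => hpt q q'
    _ = ∑ q ∈ T, ∑ q' ∈ T, n q ^ 2 * (V q q' * ω q' / ω q) := by
        simp_rw [Finset.sum_add_distrib]
        rw [Finset.sum_comm (f := fun q q' => (1 / 2) * (n q' ^ 2 * (V q' q * ω q / ω q')))]
        rw [← Finset.sum_add_distrib]
        refine Finset.sum_congr rfl fun q _ => ?_
        rw [← Finset.sum_add_distrib]
        refine Finset.sum_congr rfl fun q' _ => ?_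
        ring
    _ ≤ ∑ q ∈ T, n q ^ 2 * S q := by
        refine Finset.sum_le_sum fun q _ => ?_
        rw [← Finset.mul_sum]
        refine mul_le_mul_of_nonneg_left ?_ (sq_nonneg _)
        rw [← Finset.sum_div, div_le_iff₀ (hω q)]
        exact hS T q

/-- The unweighted version with a constant bound. -/
lemma schur_const {ι Q : Type} [Fintype ι] [DecidableEq Q] (c : ι → Q) (V : Q → Q → ℝ) (s : ℝ)
    (hV : ∀ q q', 0 ≤ V q q') (hsymm : ∀ q q', V q q' = V q' q)
    (hS : ∀ (T : Finset Q) (q : Q), ∑ q' ∈ T, V q q' ≤ s) :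
    ∑ i, ∑ j, V (c i) (c j) ≤ s * ∑ i, ∑ j, if c i = c j then (1 : ℝ) else 0 := by
  have := schur c V (fun _ => 1) (fun _ => s) hV hsymm (fun _ => one_pos)
    (fun T q => by simpa using hS T q)
  refine this.trans (le_of_eq ?_)
  rw [Finset.mul_sum]
  refine Finset.sum_congr rfl fun i _ => ?_
  rw [Finset.mul_sum]
  refine Finset.sum_congr rfl fun j _ => ?_
  split_ifs <;> simp

end Vale.Agent.P171
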