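import Mathlib
import Vale.Agent.Lib.P171.Grand2
import Vale.Agent.Lib.P171.Schur

/-!
# The potentials, cells, and superstability
-/

open MeasureTheory
open scoped ENNReal

namespace Vale.Agent.P171

/-- Unit cell index. -/
noncomputable def cell (x : V3) : Fin 3 → ℤ := fun i => ⌊x i⌋

/-- Cell index at scale `1/k`. -/
noncomputable def subcell (k : ℕ) (x : V3) : Fin 3 → ℤ := fun i => ⌊(k : ℝ) * x i⌋

/-- Repulsive part. -/
noncomputable def phi0 (r : ℝ) : ℝ := if r < 2 then (r ^ 6)⁻¹ else 0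

lemma phi0_nonneg {r : ℝ} : 0 ≤ phi0 r := by
  unfold phi0
  split_ifs
  · positivity
  · exact le_rfl

lemma phi0_zero : phi0 0 = 0 := by simp [phi0]

lemma phi0_of_two_le {r : ℝ} (h : 2 ≤ r) : phi0 r = 0 := by
  unfold phi0; rw [if_neg (not_lt.mpr h)]

/-- Same-cell kernel. -/
noncomputable def dl (x y : V3) : ℝ := if cell x = cell y then 1 else 0

lemma dl_nonneg (x y : V3) : 0 ≤ dl x y := by unfold dl; split_ifs <;> norm_num

lemma dist_sq (x y : V3) : dist x y ^ 2 = ∑ i, (x i - y i) ^ 2 := by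
  rw [EuclideanSpace.dist_eq, Real.sq_sqrt (Finset.sum_nonneg fun i _ => sq_nonneg _)]
  refine Finset.sum_congr rfl fun i _ => ?_
  rw [Real.dist_eq, sq_abs]

lemma abs_sub_le_dist (x y : V3) (i : Fin 3) : |x i - y i| ≤ dist x y := by
  have h : (x i - y i) ^ 2 ≤ dist x y ^ 2 := by
    rw [dist_sq]
    exact Finset.single_le_sum (f := fun i => (x i - y i) ^ 2) (fun i _ => sq_nonneg _)
      (Finset.mem_univ i)
  exact abs_le_of_sq_le_sq h dist_nonneg

lemma phi0_subcell {k : ℕ} (hk : 1 ≤ k) {x y : V3} (hne : x ≠ y) (h : subcell k x = subcell k y) :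
    (k : ℝ) ^ 6 / 27 ≤ phi0 (dist x y) := by
  have hk0 : (0 : ℝ) < k := by exact_mod_cast hk
  have hk1 : (1 : ℝ) ≤ k := by exact_mod_cast hk
  have h1 : ∀ i, (x i - y i) ^ 2 ≤ 1 / (k : ℝ) ^ 2 := by
    intro i
    have h2 : ⌊(k : ℝ) * x i⌋ = ⌊(k : ℝ) * y i⌋ := congrFun h i
    have h3 := Int.abs_sub_lt_one_of_floor_eq_floor h2
    have h4 : ((k : ℝ) * x i - k * y i) ^ 2 ≤ 1 := by
      have := abs_lt.mp h3
      nlinarith
    rw [le_div_iff₀ (by positivity)]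
    calc (x i - y i) ^ 2 * (k : ℝ) ^ 2 = ((k : ℝ) * x i - k * y i) ^ 2 := by ring
      _ ≤ 1 := h4
  have hd : dist x y ^ 2 ≤ 3 / (k : ℝ) ^ 2 := by
    rw [dist_sq]
    calc ∑ i, (x i - y i) ^ 2 ≤ ∑ _i : Fin 3, 1 / (k : ℝ) ^ 2 := Finset.sum_le_sum fun i _ => h1 i
      _ = 3 / (k : ℝ) ^ 2 := by simp; ring
  have hd0 : 0 < dist x y := dist_pos.mpr hne
  have hlt : dist x y < 2 := by
    have : dist x y ^ 2 < 2 ^ 2 := by
      calc dist x y ^ 2 ≤ 3 / (k : ℝ) ^ 2 := hd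
        _ ≤ 3 / 1 := by gcongr; exact one_le_pow₀ hk1
        _ < 2 ^ 2 := by norm_num
    exact lt_of_pow_lt_pow_left₀ 2 (by norm_num) this
  unfold phi0
  rw [if_pos hlt]
  have h6 : dist x y ^ 6 ≤ 27 / (k : ℝ) ^ 6 := by
    calc dist x y ^ 6 = (dist x y ^ 2) ^ 3 := by ring
      _ ≤ (3 / (k : ℝ) ^ 2) ^ 3 := by gcongr
      _ = 27 / (k : ℝ) ^ 6 := by rw [div_pow]; ring
  rw [le_inv_comm₀ (by positivity) (by positivity)]
  calc dist x y ^ 6 ≤ 27 / (k : ℝ) ^ 6 := h6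
    _ = ((k : ℝ) ^ 6 / 27)⁻¹ := by rw [inv_div]

lemma cell_eq_subcell_div {k : ℕ} (hk : 1 ≤ k) (x : V3) :
    cell x = fun i => subcell k x i / (k : ℤ) := by
  ext i
  unfold cell subcell
  rw [Int.natCast_mul_floor_div_cancel (by omega)]

/-- number of points in a discrete box -/
lemma card_box_le (T : Finset (Fin 3 → ℤ)) (lo hi : Fin 3 → ℤ) (m : ℕ)
    (h : ∀ i, hi i - lo i + 1 = m) (hT : ∀ q ∈ T, ∀ i, lo i ≤ q i ∧ q i ≤ hi i) :
    T.card ≤ m ^ 3 := by
  have h1 : T ⊆ Finset.Icc lo hi := by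
    intro q hq
    rw [Finset.mem_Icc]
    exact ⟨fun i => (hT q hq i).1, fun i => (hT q hq i).2⟩
  refine (Finset.card_le_card h1).trans ?_
  rw [Pi.card_Icc]
  refine (Finset.prod_le_prod' (g := fun _ => m) fun i _ => ?_).trans (by simp)
  rw [Int.card_Icc]
  have := h i
  omega

lemma sum_ite_le_card (T : Finset (Fin 3 → ℤ)) (p : (Fin 3 → ℤ) → Prop) [DecidablePred p] (c : ℝ)
    (hc : 0 ≤ c) (lo hi : Fin 3 → ℤ) (m : ℕ) (h : ∀ i, hi i - lo i + 1 = m)
    (hp : ∀ q, p q → ∀ i, lo i ≤ q i ∧ q i ≤ hi i) :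
    ∑ q ∈ T, (if p q then c else 0) ≤ c * (m : ℝ) ^ 3 := by
  rw [← Finset.sum_filter, Finset.sum_const, nsmul_eq_mul, mul_comm]
  refine mul_le_mul_of_nonneg_left ?_ hc
  have := card_box_le (T.filter p) lo hi m h (fun q hq => hp q (Finset.mem_filter.mp hq).2)
  exact_mod_cast this

/-- Cauchy–Schwarz across scales. -/
lemma cell_pairs_le {ι : Type} [Fintype ι] {k : ℕ} (hk : 1 ≤ k) (x : ι → V3) :
    ∑ i, ∑ j, dl (x i) (x j) ≤
      (k : ℝ) ^ 3 * ∑ i, ∑ j, if subcell k (x i) = subcell k (x j) then (1 : ℝ) else 0 := by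
  have hk0 : (0 : ℤ) < k := by exact_mod_cast hk
  have h := schur_const (fun i => subcell k (x i))
    (fun s s' : Fin 3 → ℤ => if (fun i => s i / (k : ℤ)) = (fun i => s' i / (k : ℤ)) then (1 : ℝ) else 0)
    ((k : ℝ) ^ 3) (fun q q' => by split_ifs <;> norm_num) (fun q q' => by
      by_cases h : (fun i => q i / (k : ℤ)) = (fun i => q' i / (k : ℤ))
      · rw [if_pos h, if_pos h.symm]
      · rw [if_neg h, if_neg (fun h' => h h'.symm)]) ?_
  · refine le_trans (le_of_eq ?_) h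
    refine Finset.sum_congr rfl fun i _ => Finset.sum_congr rfl fun j _ => ?_
    unfold dl
    rw [cell_eq_subcell_div hk, cell_eq_subcell_div hk]
  · intro T q
    have := sum_ite_le_card T
      (fun q' => (fun i => q i / (k : ℤ)) = (fun i => q' i / (k : ℤ))) 1 zero_le_one
      (fun i => k * (q i / (k : ℤ))) (fun i => k * (q i / (k : ℤ)) + (k - 1)) k
      (fun i => by ring) ?_
    · rwa [one_mul] at this
    · intro q' hq' i
      have h1 : q i / (k : ℤ) = q' i / (k : ℤ) := congrFun hq' i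
      rw [h1]
      have h2 := Int.mul_ediv_add_emod (q' i) k
      have h3 := Int.emod_nonneg (q' i) hk0.ne'
      have h4 := Int.emod_lt_of_pos (q' i) hk0
      constructor <;> linarith

/-- Superstability with an arbitrary constant, for distinct points. -/
lemma superstable {ι : Type} [Fintype ι] {k : ℕ} (hk : 1 ≤ k) (x : ι → V3)
    (hx : Function.Injective x) :
    (k : ℝ) ^ 3 / 27 * ∑ i, ∑ j, dl (x i) (x j) - (k : ℝ) ^ 6 / 27 * Fintype.card ι ≤
      ∑ i, ∑ j, phi0 (dist (x i) (x j)) := by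
  classical
  have hk0 : (0 : ℝ) < k := by exact_mod_cast hk
  have h1 : ∀ i j, (k : ℝ) ^ 6 / 27 * (if subcell k (x i) = subcell k (x j) then (1 : ℝ) else 0) -
      (k : ℝ) ^ 6 / 27 * (if i = j then 1 else 0) ≤ phi0 (dist (x i) (x j)) := by
    intro i j
    by_cases hij : i = j
    · subst hij
      simp [phi0_zero]
    · rw [if_neg hij, mul_zero, sub_zero]
      split_ifs with hs
      · rw [mul_one]; exact phi0_subcell hk (fun h => hij (hx h)) hs
      · rw [mul_zero]; exact phi0_nonneg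
  have h2 : ∑ i, ∑ j, ((k : ℝ) ^ 6 / 27 * (if subcell k (x i) = subcell k (x j) then (1 : ℝ) else 0) -
      (k : ℝ) ^ 6 / 27 * (if i = j then 1 else 0)) ≤ ∑ i, ∑ j, phi0 (dist (x i) (x j)) :=
    Finset.sum_le_sum fun i _ => Finset.sum_le_sum fun j _ => h1 i j
  refine le_trans ?_ h2
  simp_rw [Finset.sum_sub_distrib, ← Finset.mul_sum]
  have h3 : ∑ i : ι, ∑ j : ι, (if i = j then (1 : ℝ) else 0) = Fintype.card ι := by simp
  rw [h3]
  have h4 := cell_pairs_le hk x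
  have h5 : (k : ℝ) ^ 3 / 27 * ∑ i, ∑ j, dl (x i) (x j) ≤ (k : ℝ) ^ 3 / 27 *
      ((k : ℝ) ^ 3 * ∑ i, ∑ j, if subcell k (x i) = subcell k (x j) then (1 : ℝ) else 0) :=
    mul_le_mul_of_nonneg_left h4 (by positivity)
  have h6 : (k : ℝ) ^ 3 / 27 *
      ((k : ℝ) ^ 3 * ∑ i, ∑ j, if subcell k (x i) = subcell k (x j) then (1 : ℝ) else 0) =
      (k : ℝ) ^ 6 / 27 * ∑ i, ∑ j, if subcell k (x i) = subcell k (x j) then (1 : ℝ) else 0 := by
    ring
  linarith

end Vale.Agent.P171
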