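import Mathlib
import Vale.Agent.Lib.P171.Kernel

/-!
# A priori bound from superstability
-/

open MeasureTheory
open scoped ENNReal

namespace Vale.Agent.P171

lemma ae_injective (N : ℕ) : ∀ᵐ x : Fin N → V3, Function.Injective x := by
  have h : ∀ i j : Fin N, i ≠ j → ∀ᵐ x : Fin N → V3, x i ≠ x j := by
    intro i j hij
    let s : Submodule ℝ (Fin N → V3) :=
      LinearMap.ker ((LinearMap.proj i : (Fin N → V3) →ₗ[ℝ] V3) - LinearMap.proj j)
    have hs : s ≠ ⊤ := by
      intro h
      have h1 : (Pi.single i (EuclideanSpace.single (0 : Fin 3) (1 : ℝ)) : Fin N → V3) ∈ s := by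
        rw [h]; trivial
      have h2 : (EuclideanSpace.single (0 : Fin 3) (1 : ℝ) : V3) = 0 := by
        have h3 := LinearMap.mem_ker.mp h1
        simp [Pi.single_apply, hij, Ne.symm hij] at h3
      have h4 := congrArg (fun v : V3 => v 0) h2
      simp at h4
    have h1 := Measure.addHaar_submodule (volume : Measure (Fin N → V3)) s hs
    rw [ae_iff]
    refine measure_mono_null ?_ h1
    intro x hx
    simp only [Set.mem_ofPred_eq, not_not] at hx
    simp only [s, SetLike.mem_coe, LinearMap.mem_ker, LinearMap.sub_apply, LinearMap.proj_apply]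
    rw [hx, sub_self]
  have h2 : ∀ᵐ x : Fin N → V3, ∀ i j : Fin N, i ≠ j → x i ≠ x j := by
    rw [ae_all_iff]; intro i
    rw [ae_all_iff]; intro j
    by_cases hij : i = j
    · exact Filter.Eventually.of_forall fun x h => absurd hij h
    · filter_upwards [h i j hij] with x hx _ using hx
  filter_upwards [h2] with x hx i j hij
  by_contra hne
  exact hx i j hne hij

lemma lintegral_indicator_prod (D : Set V3) (hD : MeasurableSet D) (N : ℕ) :
    ∫⁻ x : Fin N → V3, ∏ i, D.indicator (1 : V3 → ℝ≥0∞) (x i) = volume D ^ N := by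
  have h : ∀ x : Fin N → V3, ∏ i, D.indicator (1 : V3 → ℝ≥0∞) (x i) =
      (Set.univ.pi fun _ : Fin N => D).indicator 1 x := by
    intro x
    by_cases hx : ∀ i, x i ∈ D
    · rw [Finset.prod_eq_one (fun i _ => by simp [hx i]), Set.indicator_of_mem]
      · rfl
      · simpa using hx
    · have hx' := hx
      push Not at hx
      obtain ⟨i, hi⟩ := hx
      rw [Finset.prod_eq_zero (Finset.mem_univ i) (by simp [hi]), Set.indicator_of_notMem]
      simpa using hx'
  simp_rw [h]
  rw [lintegral_indicator_one (MeasurableSet.univ_pi fun _ => hD), volume_pi, Measure.pi_pi]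
  simp

/-- A priori bound. -/
lemma G_apriori (μ A : ℝ) : ∃ C : ℝ, 0 ≤ C ∧ ∀ D : Set V3, MeasurableSet D → volume D ≠ ∞ →
    G D μ (fun x y => -phi0 (dist x y) + A * dl x y) ≤
      ENNReal.ofReal (Real.exp (C * (volume D).toReal)) := by
  obtain ⟨k, hk⟩ : ∃ k : ℕ, max 1 (27 * A) ≤ k := exists_nat_ge _
  have hk1 : 1 ≤ k := by exact_mod_cast (le_max_left _ _).trans hk
  have hk1' : (1 : ℝ) ≤ k := by exact_mod_cast hk1
  have hkA : A ≤ (k : ℝ) ^ 3 / 27 := by
    have h1 : 27 * A ≤ k := (le_max_right _ _).trans hk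
    have h2 : (k : ℝ) ≤ (k : ℝ) ^ 3 := le_self_pow₀ hk1' (by norm_num)
    linarith
  set c : ℝ := μ + (k : ℝ) ^ 6 / 54 with hc
  refine ⟨Real.exp c, (Real.exp_pos _).le, fun D hD hfin => ?_⟩
  have hz : ∀ N : ℕ, zint D μ (fun x y => -phi0 (dist x y) + A * dl x y) (Fin N) ≤
      (ENNReal.ofReal (Real.exp c) * volume D) ^ N := by
    intro N
    unfold zint
    calc ∫⁻ x : Fin N → V3, wt D μ (fun x y => -phi0 (dist x y) + A * dl x y) x
        ≤ ∫⁻ x : Fin N → V3, (∏ i, D.indicator (1 : V3 → ℝ≥0∞) (x i)) *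
            ENNReal.ofReal (Real.exp c) ^ N := by
          refine lintegral_mono_ae ?_
          filter_upwards [ae_injective N] with x hx
          unfold wt
          gcongr
          rw [← ENNReal.ofReal_pow (Real.exp_pos _).le, ← Real.exp_nat_mul]
          refine ENNReal.ofReal_le_ofReal (Real.exp_le_exp.mpr ?_)
          unfold expo
          have h1 := superstable hk1 x hx
          rw [Fintype.card_fin] at h1 ⊢
          simp_rw [Finset.sum_add_distrib, Finset.sum_neg_distrib, ← Finset.mul_sum]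
          have h2 : 0 ≤ ∑ i, ∑ j, dl (x i) (x j) :=
            Finset.sum_nonneg fun i _ => Finset.sum_nonneg fun j _ => dl_nonneg _ _
          have h3 : A * ∑ i, ∑ j, dl (x i) (x j) ≤ (k : ℝ) ^ 3 / 27 * ∑ i, ∑ j, dl (x i) (x j) :=
            mul_le_mul_of_nonneg_right hkA h2
          rw [hc]
          linarith
      _ = (ENNReal.ofReal (Real.exp c) * volume D) ^ N := by
          rw [lintegral_mul_const', lintegral_indicator_prod D hD, mul_pow, mul_comm]
          exact ENNReal.pow_ne_top ENNReal.ofReal_ne_top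
  unfold G
  calc ∑' N : ℕ, (N.factorial : ℝ≥0∞)⁻¹ * zint D μ (fun x y => -phi0 (dist x y) + A * dl x y) (Fin N)
      ≤ ∑' N : ℕ, ENNReal.ofReal ((Real.exp c * (volume D).toReal) ^ N / N.factorial) := by
        refine ENNReal.tsum_le_tsum fun N => ?_
        rw [ENNReal.ofReal_div_of_pos (by positivity), ENNReal.ofReal_pow (by positivity),
          ENNReal.ofReal_mul (Real.exp_pos _).le, ENNReal.ofReal_toReal hfin, ENNReal.ofReal_natCast,
          ENNReal.div_eq_inv_mul]
        gcongr
        exact hz N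
    _ = ENNReal.ofReal (∑' N : ℕ, (Real.exp c * (volume D).toReal) ^ N / N.factorial) := by
        rw [ENNReal.ofReal_tsum_of_nonneg]
        · intro N; positivity
        · exact Real.summable_pow_div_factorial _
    _ = ENNReal.ofReal (Real.exp (Real.exp c * (volume D).toReal)) := by
        congr 1
        rw [Real.exp_eq_exp_ℝ, NormedSpace.exp_eq_tsum_div]

end Vale.Agent.P171
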