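import Mathlib
import Vale.Agent.Lib.P171.Layer

/-!
# The attractive tails
-/

open MeasureTheory
open scoped ENNReal

namespace Vale.Agent.P171

/-- The ranges `R_j = 2^(j+4)`. -/
def RR (j : ℕ) : ℕ := 2 ^ (j + 4)

/-- The elementary attractive profile `R_j^{-3} 1_{r ≤ R_j}`. -/
noncomputable def ww (j : ℕ) (r : ℝ) : ℝ := if r ≤ RR j then ((RR j : ℝ) ^ 3)⁻¹ else 0

/-- The attractive tail. -/
noncomputable def va (b : ℕ → ℝ) (r : ℝ) : ℝ := ∑' j, b j * ww j r

/-- The kernel `-φ`. -/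
noncomputable def gk (b : ℕ → ℝ) (x y : V3) : ℝ := -phi0 (dist x y) + va b (dist x y)

lemma RR_ge (j : ℕ) : 16 ≤ RR j := by
  unfold RR
  calc 16 = 2 ^ 4 := by norm_num
    _ ≤ 2 ^ (j + 4) := Nat.pow_le_pow_right (by norm_num) (by omega)

lemma RR_pos (j : ℕ) : (0 : ℝ) < RR j := by
  have := RR_ge j
  exact_mod_cast (by omega : 0 < RR j)

lemma ww_nonneg (j : ℕ) (r : ℝ) : 0 ≤ ww j r := by
  unfold ww
  split_ifs
  · positivity
  · exact le_rfl

lemma ww_le_one (j : ℕ) (r : ℝ) : ww j r ≤ 1 := by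
  unfold ww
  split_ifs
  · apply inv_le_one_of_one_le₀
    have : (1 : ℝ) ≤ RR j := by
      have := RR_ge j
      exact_mod_cast (by omega : 1 ≤ RR j)
    exact one_le_pow₀ this
  · exact zero_le_one

lemma ww_antitone (j : ℕ) : Antitone (ww j) := by
  intro r s hrs
  unfold ww
  by_cases hs : s ≤ RR j
  · rw [if_pos hs, if_pos (hrs.trans hs)]
  · rw [if_neg hs]
    split_ifs
    · positivity
    · exact le_rfl

variable {b : ℕ → ℝ}

lemma summable_b_ww (hb0 : ∀ j, 0 ≤ b j) (hb : Summable b) (r : ℝ) :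
    Summable (fun j => b j * ww j r) :=
  Summable.of_nonneg_of_le (fun j => mul_nonneg (hb0 j) (ww_nonneg j r))
    (fun j => by
      calc b j * ww j r ≤ b j * 1 := mul_le_mul_of_nonneg_left (ww_le_one j r) (hb0 j)
        _ = b j := mul_one _) hb

lemma va_nonneg (hb0 : ∀ j, 0 ≤ b j) (r : ℝ) : 0 ≤ va b r :=
  tsum_nonneg fun j => mul_nonneg (hb0 j) (ww_nonneg j r)

lemma va_antitone (hb0 : ∀ j, 0 ≤ b j) (hb : Summable b) : Antitone (va b) := by
  intro r s hrs
  unfold va
  exact (summable_b_ww hb0 hb s).tsum_le_tsum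
    (fun j => mul_le_mul_of_nonneg_left (ww_antitone j hrs) (hb0 j)) (summable_b_ww hb0 hb r)

lemma measurable_phi0 : Measurable phi0 := by
  unfold phi0
  refine Measurable.ite measurableSet_Iio ?_ measurable_const
  exact (measurable_id.pow_const 6).inv

lemma measurable_va (hb0 : ∀ j, 0 ≤ b j) (hb : Summable b) : Measurable (va b) :=
  (va_antitone hb0 hb).measurable

lemma measurable_gk (hb0 : ∀ j, 0 ≤ b j) (hb : Summable b) :
    Measurable (Function.uncurry (gk b)) := by
  unfold gk Function.uncurry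
  have hd : Measurable (fun p : V3 × V3 => dist p.1 p.2) := measurable_dist
  exact ((measurable_phi0.comp hd).neg).add ((measurable_va hb0 hb).comp hd)

end Vale.Agent.P171
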