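import Mathlib
import Vale.Agent.Lib.P171.Pot

/-!
# Cell-level majorants of the tails, and the block geometry
-/

open MeasureTheory
open scoped ENNReal

namespace Vale.Agent.P171

abbrev Z3 : Type := Fin 3 → ℤ

/-- Cell-level majorant of `ww`. -/
noncomputable def WW (j : ℕ) (q q' : Z3) : ℝ :=
  if ∀ i, |q i - q' i| ≤ RR j + 1 then ((RR j : ℝ) ^ 3)⁻¹ else 0

/-- Cell-level majorant of `va`. -/
noncomputable def VV (b : ℕ → ℝ) (q q' : Z3) : ℝ := ∑' j, b j * WW j q q'

/-- Truncation of the coefficient sequence to ranges at least `m`. -/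
noncomputable def trunc (m : ℕ) (b : ℕ → ℝ) (j : ℕ) : ℝ := if m ≤ RR j then b j else 0

lemma WW_nonneg (j : ℕ) (q q' : Z3) : 0 ≤ WW j q q' := by
  unfold WW; split_ifs <;> positivity

lemma WW_le_one (j : ℕ) (q q' : Z3) : WW j q q' ≤ 1 := by
  unfold WW
  split_ifs
  · apply inv_le_one_of_one_le₀
    have : (1 : ℝ) ≤ RR j := by
      have := RR_ge j
      exact_mod_cast (by omega : 1 ≤ RR j)
    exact one_le_pow₀ this
  · exact zero_le_one

lemma WW_symm (j : ℕ) (q q' : Z3) : WW j q q' = WW j q' q := by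
  unfold WW
  congr 1
  refine propext (forall_congr' fun i => ?_)
  rw [abs_sub_comm]

lemma abs_floor_sub_le {a b : ℝ} {R : ℕ} (h : |a - b| ≤ R) : |⌊a⌋ - ⌊b⌋| ≤ (R : ℤ) + 1 := by
  have h1 := Int.floor_le a
  have h2 := Int.lt_floor_add_one a
  have h3 := Int.floor_le b
  have h4 := Int.lt_floor_add_one b
  obtain ⟨h5, h6⟩ := abs_le.mp h
  rw [abs_le]
  constructor
  · have : (-(R : ℝ) - 1) < (⌊a⌋ : ℝ) - ⌊b⌋ + 1 := by linarith
    have h7 : (-(R : ℤ) - 1) < ⌊a⌋ - ⌊b⌋ + 1 := by exact_mod_cast this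
    omega
  · have : (⌊a⌋ : ℝ) - ⌊b⌋ < R + 1 + 1 := by linarith
    have h7 : ⌊a⌋ - ⌊b⌋ < (R : ℤ) + 1 + 1 := by exact_mod_cast this
    omega

lemma ww_le_WW (j : ℕ) (x y : V3) : ww j (dist x y) ≤ WW j (cell x) (cell y) := by
  unfold ww
  split_ifs with h
  · unfold WW
    rw [if_pos]
    intro i
    exact abs_floor_sub_le ((abs_sub_le_dist x y i).trans h)
  · exact WW_nonneg j _ _

lemma sum_WW (j : ℕ) (T : Finset Z3) (q : Z3) : ∑ q' ∈ T, WW j q q' ≤ 27 := by
  have h := sum_ite_le_card T (fun q' => ∀ i, |q i - q' i| ≤ RR j + 1) ((RR j : ℝ) ^ 3)⁻¹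
    (by positivity) (fun i => q i - (RR j + 1)) (fun i => q i + (RR j + 1)) (2 * RR j + 3)
    (fun i => by push_cast; ring) (fun q' hq' i => by
      have := abs_le.mp (hq' i)
      constructor <;> linarith)
  refine h.trans ?_
  have h1 : (16 : ℝ) ≤ RR j := by exact_mod_cast RR_ge j
  have h2 : ((2 * RR j + 3 : ℕ) : ℝ) ≤ 3 * RR j := by push_cast; linarith
  have h3 : 0 < (RR j : ℝ) ^ 3 := by positivity
  rw [inv_mul_le_iff₀ h3]
  calc ((2 * RR j + 3 : ℕ) : ℝ) ^ 3 ≤ (3 * (RR j : ℝ)) ^ 3 := by gcongr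
    _ = (RR j : ℝ) ^ 3 * 27 := by ring

section
variable {b : ℕ → ℝ}

lemma summable_b_WW (hb0 : ∀ j, 0 ≤ b j) (hb : Summable b) (q q' : Z3) :
    Summable (fun j => b j * WW j q q') :=
  Summable.of_nonneg_of_le (fun j => mul_nonneg (hb0 j) (WW_nonneg j q q'))
    (fun j => by
      calc b j * WW j q q' ≤ b j * 1 := mul_le_mul_of_nonneg_left (WW_le_one j q q') (hb0 j)
        _ = b j := mul_one _) hb

lemma VV_nonneg (hb0 : ∀ j, 0 ≤ b j) (q q' : Z3) : 0 ≤ VV b q q' :=
  tsum_nonneg fun j => mul_nonneg (hb0 j) (WW_nonneg j q q')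

lemma VV_symm (q q' : Z3) : VV b q q' = VV b q' q := by
  unfold VV
  exact tsum_congr fun j => by rw [WW_symm]

lemma va_le_VV (hb0 : ∀ j, 0 ≤ b j) (hb : Summable b) (x y : V3) :
    va b (dist x y) ≤ VV b (cell x) (cell y) := by
  unfold va VV
  exact (summable_b_ww hb0 hb _).tsum_le_tsum
    (fun j => mul_le_mul_of_nonneg_left (ww_le_WW j x y) (hb0 j)) (summable_b_WW hb0 hb _ _)

lemma sum_VV (hb0 : ∀ j, 0 ≤ b j) (hb : Summable b) (T : Finset Z3) (q : Z3) :
    ∑ q' ∈ T, VV b q q' ≤ 27 * ∑' j, b j := by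
  unfold VV
  rw [← Summable.tsum_finsetSum (fun q' _ => summable_b_WW hb0 hb q q'), ← tsum_mul_left]
  refine Summable.tsum_le_tsum (fun j => ?_) (summable_sum fun q' _ => summable_b_WW hb0 hb q q')
    (hb.mul_left _)
  rw [← Finset.mul_sum, mul_comm]
  exact mul_le_mul_of_nonneg_right (sum_WW j T q) (hb0 j)

lemma trunc_nonneg (hb0 : ∀ j, 0 ≤ b j) (m : ℕ) (j : ℕ) : 0 ≤ trunc m b j := by
  unfold trunc; split_ifs
  · exact hb0 j
  · exact le_rfl

lemma trunc_le (hb0 : ∀ j, 0 ≤ b j) (m : ℕ) (j : ℕ) : trunc m b j ≤ b j := by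
  unfold trunc; split_ifs
  · exact le_rfl
  · exact hb0 j

lemma summable_trunc (hb0 : ∀ j, 0 ≤ b j) (hb : Summable b) (m : ℕ) : Summable (trunc m b) :=
  Summable.of_nonneg_of_le (trunc_nonneg hb0 m) (trunc_le hb0 m) hb

/-- the truncated sums tend to zero -/
lemma tendsto_trunc (hb0 : ∀ j, 0 ≤ b j) (hb : Summable b) :
    Filter.Tendsto (fun m => ∑' j, trunc m b j) Filter.atTop (nhds 0) := by
  have h := tendsto_tsum_of_dominated_convergence (𝓕 := Filter.atTop) (f := fun m j => trunc m b j)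
    (g := fun _ => (0 : ℝ)) (bound := b) hb ?_ ?_
  · simpa using h
  · intro j
    refine tendsto_const_nhds.congr' ?_
    filter_upwards [Filter.eventually_gt_atTop (RR j)] with m hm
    unfold trunc
    rw [if_neg (not_le.mpr hm)]
  · filter_upwards with m j
    rw [Real.norm_of_nonneg (trunc_nonneg hb0 m j)]
    exact trunc_le hb0 m j

lemma VV_trunc_eq (m : ℕ) {q q' : Z3} (h : ∃ i, (m : ℤ) + 1 ≤ |q i - q' i|) :
    VV b q q' = VV (trunc m b) q q' := by
  unfold VV
  refine tsum_congr fun j => ?_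
  unfold trunc
  split_ifs with hj
  · rfl
  · rw [zero_mul]
    have : WW j q q' = 0 := by
      unfold WW
      rw [if_neg]
      intro hall
      obtain ⟨i, hi⟩ := h
      have := hall i
      push Not at hj
      omega
    rw [this, mul_zero]

end

/-- The block label: `some` block index in the bulk, `none` in the corridors. -/
noncomputable def qlab (p l : ℕ) (q : Z3) : Option Z3 :=
  if ∀ i, q i % (p : ℤ) < l then some (fun i => q i / (p : ℤ)) else none

/-- The block label of a point. -/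
noncomputable def lab (p l : ℕ) (x : V3) : Option Z3 := qlab p l (cell x)

lemma measurable_cell : Measurable cell := by
  unfold cell
  refine measurable_pi_lambda _ fun i => ?_
  exact Int.measurable_floor.comp (by fun_prop)

lemma measurableSet_cell (P : Z3 → Prop) : MeasurableSet {x : V3 | P (cell x)} := by
  have : {x : V3 | P (cell x)} = cell ⁻¹' {q | P q} := rfl
  rw [this]
  exact measurable_cell (Set.to_countable _).measurableSet

lemma measurableSet_lab (p l : ℕ) (o : Option Z3) : MeasurableSet {x : V3 | lab p l x = o} :=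
  measurableSet_cell (fun q => qlab p l q = o)

lemma qlab_some {p l : ℕ} {q : Z3} {c : Z3} :
    qlab p l q = some c ↔ (∀ i, q i % (p : ℤ) < l) ∧ ∀ i, q i / (p : ℤ) = c i := by
  unfold qlab
  split_ifs with h
  · constructor
    · intro h1
      refine ⟨h, fun i => ?_⟩
      exact congrFun (Option.some.inj h1) i
    · rintro ⟨_, h2⟩
      congr 1
      ext i; exact h2 i
  · constructor
    · intro h1; exact absurd h1 (by simp)
    · rintro ⟨h1, _⟩; exact absurd h1 h

/-- Bulk cells of different blocks are separated. -/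
lemma sep_of_ne {p l m : ℕ} (hp : 1 ≤ p) (hlm : l + m ≤ p) {q q' c c' : Z3}
    (h : qlab p l q = some c) (h' : qlab p l q' = some c') (hne : c ≠ c') :
    ∃ i, (m : ℤ) + 1 ≤ |q i - q' i| := by
  rw [qlab_some] at h h'
  obtain ⟨i, hi⟩ := Function.ne_iff.mp hne
  refine ⟨i, ?_⟩
  have hp0 : (0 : ℤ) < p := by exact_mod_cast hp
  have a1 := h.1 i
  have a2 := h.2 i
  have b1 := h'.1 i
  have b2 := h'.2 i
  have a3 := Int.mul_ediv_add_emod (q i) p
  have b3 := Int.mul_ediv_add_emod (q' i) p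
  have a4 := Int.emod_nonneg (q i) hp0.ne'
  have b4 := Int.emod_nonneg (q' i) hp0.ne'
  rw [a2] at a3
  rw [b2] at b3
  have hlm' : (l : ℤ) + m ≤ p := by exact_mod_cast hlm
  rw [le_abs]
  rcases lt_or_gt_of_ne hi with hlt | hgt
  · right
    have : (p : ℤ) * (c i + 1) ≤ p * c' i := mul_le_mul_of_nonneg_left (by omega) hp0.le
    nlinarith
  · left
    have : (p : ℤ) * (c' i + 1) ≤ p * c i := mul_le_mul_of_nonneg_left (by omega) hp0.le
    nlinarith

end Vale.Agent.P171
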