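import Mathlib
import Vale.Agent.Lib.P171.Geo

/-!
# Boxes and blocks
-/

open MeasureTheory
open scoped ENNReal

namespace Vale.Agent.P171

/-- Half-open box `[0,n)^3`. -/
def bx (n : ℕ) : Set V3 := {x | ∀ i, 0 ≤ x i ∧ x i < n}

/-- Block indices. -/
noncomputable def blk (k : ℕ) : Finset Z3 := Fintype.piFinset fun _ => Finset.Ico 0 (k : ℤ)

lemma card_blk (k : ℕ) : (blk k).card = k ^ 3 := by
  unfold blk
  rw [Fintype.card_piFinset]
  simp

lemma bx_mono {m n : ℕ} (h : m ≤ n) : bx m ⊆ bx n := by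
  intro x hx i
  have h' : (m : ℝ) ≤ n := by exact_mod_cast h
  exact ⟨(hx i).1, (hx i).2.trans_le h'⟩

lemma measurableSet_bx (n : ℕ) : MeasurableSet (bx n) := by
  have : bx n = ⋂ i : Fin 3, ({x : V3 | 0 ≤ x i} ∩ {x : V3 | x i < n}) := by
    ext x; simp [bx]
  rw [this]
  refine MeasurableSet.iInter fun i => ?_
  have hm : Measurable (fun x : V3 => x i) := by fun_prop
  exact (measurableSet_le measurable_const hm).inter (measurableSet_lt hm measurable_const)

lemma volume_bx (n : ℕ) : volume (bx n) = (n : ℝ≥0∞) ^ 3 := by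
  have h := EuclideanSpace.volume_preserving_symm_measurableEquiv_toLp (Fin 3)
  have h1 : bx n = (MeasurableEquiv.toLp 2 (Fin 3 → ℝ)).symm ⁻¹'
      (Set.univ.pi fun _ : Fin 3 => Set.Ico (0 : ℝ) n) := by
    ext x
    simp [bx, Set.mem_pi]
  rw [h1, h.measure_preimage_equiv, volume_pi, Measure.pi_pi]
  simp [Real.volume_Ico]

lemma volume_bx_toReal (n : ℕ) : (volume (bx n)).toReal = (n : ℝ) ^ 3 := by
  rw [volume_bx]; simp

lemma volume_bx_ne_top (n : ℕ) : volume (bx n) ≠ ∞ := by
  rw [volume_bx]; exact ENNReal.pow_ne_top (ENNReal.natCast_ne_top _)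

lemma lab_some_iff {p l : ℕ} (hp : 1 ≤ p) (hl : l ≤ p) (x : V3) (c : Z3) :
    lab p l x = some c ↔ ∀ i, (p : ℝ) * c i ≤ x i ∧ x i < p * c i + l := by
  unfold lab
  rw [qlab_some, ← forall_and]
  refine forall_congr' fun i => ?_
  have hp0 : (0 : ℤ) < p := by exact_mod_cast hp
  have hl' : (l : ℤ) ≤ p := by exact_mod_cast hl
  have e1 : (p : ℝ) * c i ≤ x i ↔ (p : ℤ) * c i ≤ ⌊x i⌋ := by
    rw [Int.le_floor]; push_cast; rfl
  have e2 : x i < p * c i + l ↔ ⌊x i⌋ < (p : ℤ) * c i + l := by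
    rw [Int.floor_lt]; push_cast; rfl
  rw [e1, e2]
  unfold cell
  have a3 := Int.mul_ediv_add_emod ⌊x i⌋ p
  have a4 := Int.emod_nonneg ⌊x i⌋ hp0.ne'
  constructor
  · rintro ⟨h1, h2⟩
    rw [h2] at a3
    constructor <;> linarith
  · rintro ⟨h1, h2⟩
    have h3 : ⌊x i⌋ / (p : ℤ) = c i := by
      rw [Int.ediv_eq_iff_of_pos hp0]
      constructor
      · linarith
      · nlinarith
    refine ⟨?_, h3⟩
    rw [h3] at a3
    linarith

lemma mem_blk {k : ℕ} {c : Z3} : c ∈ blk k ↔ ∀ i, 0 ≤ c i ∧ c i < k := by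
  simp [blk, Fintype.mem_piFinset]

/-- a bulk point of the big box has its block index in `blk k` -/
lemma mem_blk_of_lab {p l k : ℕ} (hp : 1 ≤ p) (hl : l ≤ p) {x : V3} (hx : x ∈ bx (k * p)) {c : Z3}
    (h : lab p l x = some c) : c ∈ blk k := by
  rw [lab_some_iff hp hl] at h
  rw [mem_blk]
  intro i
  have hp0 : (0 : ℝ) < p := by exact_mod_cast hp
  have hlp : (l : ℝ) ≤ p := by exact_mod_cast hl
  obtain ⟨h1, h2⟩ := hx i
  obtain ⟨h3, h4⟩ := h i
  push_cast at h2
  constructor
  · by_contra hneg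
    push Not at hneg
    have : (c i : ℝ) ≤ -1 := by exact_mod_cast (by omega : c i ≤ -1)
    nlinarith
  · by_contra hneg
    push Not at hneg
    have : (k : ℝ) ≤ c i := by exact_mod_cast hneg
    nlinarith

/-- a block of the big box -/
lemma block_eq {p l k : ℕ} (hp : 1 ≤ p) (hl : l ≤ p) {c : Z3} (hc : c ∈ blk k) :
    bx (k * p) ∩ {x | lab p l x = some c} =
      {x : V3 | ∀ i, (p : ℝ) * c i ≤ x i ∧ x i < p * c i + l} := by
  ext x
  simp only [Set.mem_inter_iff, Set.mem_ofPred_eq]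
  rw [lab_some_iff hp hl]
  constructor
  · exact fun h => h.2
  · intro h
    refine ⟨fun i => ?_, h⟩
    rw [mem_blk] at hc
    obtain ⟨h1, h2⟩ := hc i
    obtain ⟨h3, h4⟩ := h i
    have hp0 : (0 : ℝ) < p := by exact_mod_cast hp
    have hlp : (l : ℝ) ≤ p := by exact_mod_cast hl
    have h1' : (0 : ℝ) ≤ c i := by exact_mod_cast h1
    have h2' : (c i : ℝ) + 1 ≤ k := by exact_mod_cast h2
    constructor
    · nlinarith
    · push_cast
      nlinarith

/-- integer vectors as points -/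
noncomputable def ivec (p : ℕ) (c : Z3) : V3 := WithLp.toLp 2 (fun i => (p : ℝ) * c i)

lemma ivec_apply (p : ℕ) (c : Z3) (i : Fin 3) : ivec p c i = (p : ℝ) * c i := rfl

lemma G_block {p l k : ℕ} (hp : 1 ≤ p) (hl : l ≤ p) {c : Z3} (hc : c ∈ blk k) (μ : ℝ)
    (g : V3 → V3 → ℝ) (hg : ∀ x y, g (x + ivec p c) (y + ivec p c) = g x y) :
    G (bx (k * p) ∩ {x | lab p l x = some c}) μ g = G (bx l) μ g := by
  rw [block_eq hp hl hc]
  refine G_translate (ivec p c) (fun x => ?_) hg
  simp only [Set.mem_ofPred_eq, bx, PiLp.add_apply, ivec_apply]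
  refine forall_congr' fun i => ?_
  constructor
  · rintro ⟨h1, h2⟩; constructor <;> linarith
  · rintro ⟨h1, h2⟩; constructor <;> linarith

lemma gk_translate (b : ℕ → ℝ) (w x y : V3) : gk b (x + w) (y + w) = gk b x y := by
  unfold gk; rw [dist_add_right]

lemma cell_translate (p : ℕ) (c : Z3) (x : V3) :
    cell (x + ivec p c) = fun i => cell x i + p * c i := by
  ext i
  unfold cell
  rw [PiLp.add_apply, ivec_apply]
  have : (p : ℝ) * (c i : ℝ) = (((p : ℤ) * c i : ℤ) : ℝ) := by push_cast; rfl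
  rw [this, Int.floor_add_intCast]

lemma dl_translate (p : ℕ) (c : Z3) (x y : V3) : dl (x + ivec p c) (y + ivec p c) = dl x y := by
  unfold dl
  rw [cell_translate, cell_translate]
  congr 1
  refine propext ⟨fun h => ?_, fun h => by rw [h]⟩
  ext i
  have := congrFun h i
  simpa using this

/-- The volume of the corridors. -/
lemma volume_layer {p l k : ℕ} (hp : 1 ≤ p) (hl : l ≤ p) :
    (volume (bx (k * p) ∩ {x | lab p l x = none})).toReal = (k : ℝ) ^ 3 * ((p : ℝ) ^ 3 - (l : ℝ) ^ 3) := by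
  have hvol : ∀ c ∈ blk k, volume (bx (k * p) ∩ {x | lab p l x = some c}) = (l : ℝ≥0∞) ^ 3 := by
    intro c hc
    rw [block_eq hp hl hc, ← volume_bx l]
    rw [← measure_preimage_add_right volume (ivec p c)
      {x : V3 | ∀ i, (p : ℝ) * c i ≤ x i ∧ x i < p * c i + l}]
    congr 1
    ext x
    simp only [Set.mem_preimage, Set.mem_ofPred_eq, bx, PiLp.add_apply, ivec_apply]
    refine forall_congr' fun i => ?_
    constructor
    · rintro ⟨h1, h2⟩; constructor <;> linarith
    · rintro ⟨h1, h2⟩; constructor <;> linarith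
  have hU : volume (⋃ c ∈ blk k, bx (k * p) ∩ {x | lab p l x = some c}) =
      (k : ℝ≥0∞) ^ 3 * (l : ℝ≥0∞) ^ 3 := by
    rw [measure_biUnion_finset]
    · rw [Finset.sum_congr rfl hvol, Finset.sum_const, card_blk, nsmul_eq_mul]
      push_cast; rfl
    · intro c _ c' _ hne
      rw [Function.onFun, Set.disjoint_left]
      rintro x ⟨_, hx⟩ ⟨_, hx'⟩
      simp only [Set.mem_ofPred_eq] at hx hx'
      rw [hx] at hx'
      exact hne (Option.some.inj hx')
    · intro c _
      exact (measurableSet_bx _).inter (measurableSet_lab p l _)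
  have hsplit : volume (bx (k * p)) = volume (bx (k * p) ∩ {x | lab p l x = none}) +
      volume (⋃ c ∈ blk k, bx (k * p) ∩ {x | lab p l x = some c}) := by
    rw [← measure_union]
    · congr 1
      ext x
      simp only [Set.mem_union, Set.mem_inter_iff, Set.mem_ofPred_eq, Set.mem_iUnion]
      constructor
      · intro hx
        rcases h : lab p l x with _ | c
        · left; exact ⟨hx, rfl⟩
        · right; exact ⟨c, mem_blk_of_lab hp hl hx h, hx, rfl⟩
      · rintro (h | ⟨c, _, h⟩)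
        · exact h.1
        · exact h.1
    · rw [Set.disjoint_left]
      rintro x ⟨_, hx⟩ hx'
      simp only [Set.mem_iUnion, Set.mem_inter_iff, Set.mem_ofPred_eq] at hx hx'
      obtain ⟨c, _, _, h⟩ := hx'
      rw [hx] at h
      exact absurd h (by simp)
    · refine Finset.measurableSet_biUnion _ fun c _ => ?_
      exact (measurableSet_bx _).inter (measurableSet_lab p l _)
  have hfin : volume (bx (k * p) ∩ {x | lab p l x = none}) ≠ ∞ :=
    ((measure_mono Set.inter_subset_left).trans_lt (volume_bx_ne_top _).lt_top).ne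
  have h3 := congrArg ENNReal.toReal hsplit
  have hfin2 : volume (⋃ c ∈ blk k, bx (k * p) ∩ {x | lab p l x = some c}) ≠ ∞ := by
    rw [hU]
    exact ENNReal.mul_ne_top (ENNReal.pow_ne_top (ENNReal.natCast_ne_top _))
      (ENNReal.pow_ne_top (ENNReal.natCast_ne_top _))
  rw [ENNReal.toReal_add hfin hfin2, volume_bx_toReal, hU] at h3
  simp only [ENNReal.toReal_mul, ENNReal.toReal_pow, ENNReal.toReal_natCast] at h3
  push_cast at h3
  linarith [mul_pow (k : ℝ) (p : ℝ) 3]

end Vale.Agent.P171
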