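import Vale.Agent.Lib.P171.Defs
import Vale.Agent.Lib.P171.Pot

/-!
# From the statement definitions to the kernel formalism
-/

open MeasureTheory Filter Topology
open scoped ENNReal

namespace Vale.Agent.P171

variable {b : ℕ → ℝ}

/-- The pair potential `φ_b = φ₀ - va b`. -/
noncomputable def phib (b : ℕ → ℝ) (r : ℝ) : ℝ := phi0 r - va b r

lemma ww_le_cell (j : ℕ) (x y : V3) :
    ww j (dist x y) ≤ if (∀ i, |cell x i - cell y i| ≤ (RR j : ℤ)) then ((RR j : ℝ) ^ 3)⁻¹ else 0 := by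
  unfold ww
  by_cases h : dist x y ≤ RR j
  · rw [if_pos h, if_pos]
    intro i
    have h1 : |x i - y i| ≤ RR j := (abs_sub_le_dist x y i).trans h
    rw [abs_le] at h1 ⊢
    unfold cell
    constructor
    · have : ⌊y i⌋ ≤ ⌊x i + (RR j : ℤ)⌋ := by
        apply Int.floor_mono
        push_cast
        linarith
      rw [Int.floor_add_intCast] at this
      linarith
    · have : ⌊x i⌋ ≤ ⌊y i + (RR j : ℤ)⌋ := by
        apply Int.floor_mono
        push_cast
        linarith
      rw [Int.floor_add_intCast] at this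
      linarith
  · rw [if_neg h]
    split_ifs
    · positivity
    · exact le_rfl

lemma sum_ww_le {ι : Type} [Fintype ι] (j : ℕ) (x : ι → V3) :
    ∑ i, ∑ k, ww j (dist (x i) (x k)) ≤ 27 * ∑ i, ∑ k, dl (x i) (x k) := by
  have h1 : ∑ i, ∑ k, ww j (dist (x i) (x k)) ≤ ∑ i, ∑ k,
      (if (∀ l, |cell (x i) l - cell (x k) l| ≤ (RR j : ℤ)) then ((RR j : ℝ) ^ 3)⁻¹ else 0) :=
    Finset.sum_le_sum fun i _ => Finset.sum_le_sum fun k _ => ww_le_cell j _ _
  refine h1.trans ?_
  have h2 := schur_const (fun i => cell (x i))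
    (fun q q' : Fin 3 → ℤ => if (∀ l, |q l - q' l| ≤ (RR j : ℤ)) then ((RR j : ℝ) ^ 3)⁻¹ else 0)
    27 (fun q q' => by split_ifs <;> positivity) (fun q q' => by
      by_cases h : ∀ l, |q l - q' l| ≤ (RR j : ℤ)
      · rw [if_pos h, if_pos]
        intro l; rw [abs_sub_comm]; exact h l
      · rw [if_neg h, if_neg]
        intro h'; apply h
        intro l; rw [abs_sub_comm]; exact h' l) ?_
  · refine h2.trans (le_of_eq ?_)
    unfold dl
    rfl
  · intro T q
    have h3 := sum_ite_le_card T (fun q' => ∀ l, |q l - q' l| ≤ (RR j : ℤ)) ((RR j : ℝ) ^ 3)⁻¹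
      (by positivity) (fun i => q i - RR j) (fun i => q i + RR j) (2 * RR j + 1)
      (fun i => by push_cast; ring) (fun q' hq' i => by
        have := abs_le.mp (hq' i)
        constructor <;> linarith [this.1, this.2])
    refine h3.trans ?_
    have hR := RR_pos j
    have hR1 : (1 : ℝ) ≤ RR j := by
      have := RR_ge j
      exact_mod_cast (by omega : 1 ≤ RR j)
    rw [inv_mul_le_iff₀ (by positivity)]
    push_cast
    have : (2 * (RR j : ℝ) + 1) ≤ 3 * RR j := by linarith
    calc (2 * (RR j : ℝ) + 1) ^ 3 ≤ (3 * RR j) ^ 3 := by gcongr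
      _ = (RR j : ℝ) ^ 3 * 27 := by ring

lemma sum_va_le (hb0 : ∀ j, 0 ≤ b j) (hb : Summable b) {ι : Type} [Fintype ι] (x : ι → V3) :
    ∑ i, ∑ k, va b (dist (x i) (x k)) ≤ (27 * ∑' j, b j) * ∑ i, ∑ k, dl (x i) (x k) := by
  have h0 : ∀ i k, Summable fun j => b j * ww j (dist (x i) (x k)) :=
    fun i k => summable_b_ww hb0 hb _
  have h1 : ∑ i, ∑ k, va b (dist (x i) (x k)) =
      ∑' j, b j * ∑ i, ∑ k, ww j (dist (x i) (x k)) := by
    unfold va
    have h2 : ∀ i, ∑ k, ∑' j, b j * ww j (dist (x i) (x k)) =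
        ∑' j, ∑ k, b j * ww j (dist (x i) (x k)) := by
      intro i
      exact (Summable.tsum_finsetSum fun k _ => h0 i k).symm
    simp_rw [h2]
    rw [← Summable.tsum_finsetSum fun i _ => summable_sum fun k _ => h0 i k]
    refine tsum_congr fun j => ?_
    rw [Finset.mul_sum]
    refine Finset.sum_congr rfl fun i _ => ?_
    rw [Finset.mul_sum]
  rw [h1]
  have hs1 : Summable fun j => b j * ∑ i, ∑ k, ww j (dist (x i) (x k)) := by
    have : (fun j => b j * ∑ i, ∑ k, ww j (dist (x i) (x k))) =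
        fun j => ∑ i, ∑ k, b j * ww j (dist (x i) (x k)) := by
      funext j
      rw [Finset.mul_sum]
      refine Finset.sum_congr rfl fun i _ => ?_
      rw [Finset.mul_sum]
    rw [this]
    exact summable_sum fun i _ => summable_sum fun k _ => h0 i k
  have hs2 : Summable fun j => b j * (27 * ∑ i, ∑ k, dl (x i) (x k)) := hb.mul_right _
  calc ∑' j, b j * ∑ i, ∑ k, ww j (dist (x i) (x k))
      ≤ ∑' j, b j * (27 * ∑ i, ∑ k, dl (x i) (x k)) :=
        hs1.tsum_le_tsum (fun j => mul_le_mul_of_nonneg_left (sum_ww_le j x) (hb0 j)) hs2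
    _ = (27 * ∑' j, b j) * ∑ i, ∑ k, dl (x i) (x k) := by
        rw [tsum_mul_right]; ring

/-- Finiteness of the grand partition function, with an exponential volume bound. -/
lemma G_gk_le (hb0 : ∀ j, 0 ≤ b j) (hb : Summable b) (μ : ℝ) :
    ∃ C : ℝ, 0 ≤ C ∧ ∀ D : Set V3, MeasurableSet D → volume D ≠ ∞ →
      G D μ (gk b) ≤ ENNReal.ofReal (Real.exp (C * (volume D).toReal)) := by
  obtain ⟨C, hC, h⟩ := G_apriori μ (27 * ∑' j, b j)
  refine ⟨C, hC, fun D hD hfin => ?_⟩
  refine le_trans ?_ (h D hD hfin)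
  refine G_mono_expo fun N x _ => ?_
  unfold expo
  have h1 : ∑ i, ∑ j, gk b (x i) (x j) ≤ ∑ i, ∑ j,
      (-phi0 (dist (x i) (x j)) + (27 * ∑' j, b j) * dl (x i) (x j)) := by
    unfold gk
    simp_rw [Finset.sum_add_distrib, ← Finset.mul_sum]
    have := sum_va_le hb0 hb x
    linarith
  linarith

lemma G_gk_ne_top (hb0 : ∀ j, 0 ≤ b j) (hb : Summable b) (μ : ℝ) {D : Set V3}
    (hD : MeasurableSet D) (hfin : volume D ≠ ∞) : G D μ (gk b) ≠ ∞ := by
  obtain ⟨C, _, h⟩ := G_gk_le hb0 hb μ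
  exact ((h D hD hfin).trans_lt ENNReal.ofReal_lt_top).ne

lemma measurableSet_cube (L : ℝ) : MeasurableSet (cube L) := by
  have : cube L = ⋂ k : Fin 3, {x : Space | 0 ≤ x k ∧ x k ≤ L} := by
    ext x; simp [cube]
  rw [this]
  refine MeasurableSet.iInter fun k => ?_
  have hm : Measurable (fun x : Space => x k) := by fun_prop
  exact (measurableSet_le measurable_const hm).inter (measurableSet_le hm measurable_const)

lemma volume_cube_ne_top (L : ℝ) : volume (cube L) ≠ ∞ := by
  have hsub : cube L ⊆ Metric.closedBall (0 : Space) (2 * |L|) := by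
    intro x hx
    rw [mem_closedBall_zero_iff, EuclideanSpace.norm_eq]
    have h1 : ∑ i, ‖x i‖ ^ 2 ≤ (2 * |L|) ^ 2 := by
      have h2 : ∀ i, ‖x i‖ ^ 2 ≤ |L| ^ 2 := by
        intro i
        have h3 := hx i
        rw [Real.norm_eq_abs, sq_abs, sq_abs]
        nlinarith [h3.1, h3.2]
      calc ∑ i, ‖x i‖ ^ 2 ≤ ∑ _i : Fin 3, |L| ^ 2 := Finset.sum_le_sum fun i _ => h2 i
        _ = 3 * |L| ^ 2 := by simp
        _ ≤ (2 * |L|) ^ 2 := by nlinarith [sq_nonneg |L|]
    calc Real.sqrt (∑ i, ‖x i‖ ^ 2) ≤ Real.sqrt ((2 * |L|) ^ 2) := Real.sqrt_le_sqrt h1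
      _ = 2 * |L| := Real.sqrt_sq (by positivity)
  exact (lt_of_le_of_lt (measure_mono hsub) measure_closedBall_lt_top).ne

/-- The energy in terms of the symmetric double sum. -/
lemma expo_eq_energy (μ : ℝ) {N : ℕ} (x : Fin N → V3) :
    expo μ (gk b) x = (μ + va b 0 / 2) * N - energy (phib b) x := by
  have hsym : ∀ i j, gk b (x i) (x j) = gk b (x j) (x i) := by
    intro i j
    unfold gk
    rw [dist_comm]
  have hdiag : ∀ i, gk b (x i) (x i) = va b 0 := by
    intro i
    unfold gk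
    rw [dist_self, phi0_zero]
    ring
  have h1 : ∑ i, ∑ j, gk b (x i) (x j) =
      2 * (∑ i, ∑ j, if i < j then gk b (x i) (x j) else 0) + N * va b 0 := by
    have h2 : ∀ i j : Fin N, gk b (x i) (x j) =
        ((if i < j then gk b (x i) (x j) else 0) + (if j < i then gk b (x i) (x j) else 0)) +
        (if i = j then gk b (x i) (x j) else 0) := by
      intro i j
      rcases lt_trichotomy i j with h | h | h
      · simp [h, h.not_gt, h.ne]
      · simp [h]
      · simp [h, h.not_gt, h.ne']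
    have h3 : ∑ i, ∑ j, (if j < i then gk b (x i) (x j) else 0) =
        ∑ i, ∑ j, (if i < j then gk b (x i) (x j) else 0) := by
      rw [Finset.sum_comm]
      refine Finset.sum_congr rfl fun i _ => Finset.sum_congr rfl fun j _ => ?_
      rw [hsym]
    have h4 : ∑ i, ∑ j, (if i = j then gk b (x i) (x j) else 0) = N * va b 0 := by
      have : ∀ i, ∑ j, (if i = j then gk b (x i) (x j) else 0) = va b 0 := by
        intro i
        rw [Finset.sum_ite_eq Finset.univ i (fun j => gk b (x i) (x j))]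
        simp [hdiag]
      simp_rw [this]
      simp
    calc ∑ i, ∑ j, gk b (x i) (x j)
        = ∑ i, ∑ j, (((if i < j then gk b (x i) (x j) else 0) +
          (if j < i then gk b (x i) (x j) else 0)) + (if i = j then gk b (x i) (x j) else 0)) := by
          refine Finset.sum_congr rfl fun i _ => Finset.sum_congr rfl fun j _ => h2 i j
      _ = _ := by
          simp_rw [Finset.sum_add_distrib]
          rw [h3, h4]
          ring
  have h5 : energy (phib b) x = -(∑ i, ∑ j, if i < j then gk b (x i) (x j) else 0) := by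
    unfold energy phib gk
    rw [← Finset.sum_neg_distrib]
    refine Finset.sum_congr rfl fun i _ => ?_
    rw [← Finset.sum_neg_distrib]
    refine Finset.sum_congr rfl fun j _ => ?_
    split_ifs
    · ring
    · simp
  unfold expo
  rw [h1, h5, Fintype.card_fin]
  ring

lemma measurable_phib (hb0 : ∀ j, 0 ≤ b j) (hb : Summable b) : Measurable (phib b) :=
  measurable_phi0.sub (measurable_va hb0 hb)

lemma va_le (hb0 : ∀ j, 0 ≤ b j) (hb : Summable b) (r : ℝ) : va b r ≤ ∑' j, b j := by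
  unfold va
  refine (summable_b_ww hb0 hb r).tsum_le_tsum (fun j => ?_) hb
  calc b j * ww j r ≤ b j * 1 := mul_le_mul_of_nonneg_left (ww_le_one j r) (hb0 j)
    _ = b j := mul_one _

lemma phi0_le {a r : ℝ} (ha : 0 < a) (har : a ≤ r) : phi0 r ≤ (a ^ 6)⁻¹ := by
  unfold phi0
  split_ifs
  · gcongr
  · positivity

lemma locallyBounded_phib (hb0 : ∀ j, 0 ≤ b j) (hb : Summable b) : LocallyBounded (phib b) := by
  intro a c ha
  refine ⟨(a ^ 6)⁻¹ + ∑' j, b j, fun r har _ => ?_⟩
  have h1 := phi0_le ha har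
  have h2 : 0 ≤ phi0 r := phi0_nonneg
  have h3 := va_le hb0 hb r
  have h4 := va_nonneg hb0 r
  have h5 : 0 ≤ ∑' j, b j := tsum_nonneg hb0
  have h6 : 0 ≤ (a ^ 6)⁻¹ := by positivity
  unfold phib
  rw [abs_le]
  constructor <;> linarith

lemma tempered_phib (hb0 : ∀ j, 0 ≤ b j) : Tempered (phib b) := by
  refine ⟨1, 1, 2, one_pos, one_pos, two_pos, fun r hr => ?_⟩
  unfold phib
  rw [phi0_of_two_le hr]
  have h1 := va_nonneg hb0 r
  have h2 : (0 : ℝ) ≤ 1 * r ^ (-3 - 1 : ℝ) := by positivity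
  linarith

lemma stable_phib (hb0 : ∀ j, 0 ≤ b j) (hb : Summable b) : Stable (phib b) := by
  set A : ℝ := 27 * ∑' j, b j with hA
  obtain ⟨k, hk⟩ : ∃ k : ℕ, max 1 (27 * A) ≤ k := exists_nat_ge _
  have hk1 : 1 ≤ k := by exact_mod_cast (le_max_left _ _).trans hk
  have hk1' : (1 : ℝ) ≤ k := by exact_mod_cast hk1
  have hkA : A ≤ (k : ℝ) ^ 3 / 27 := by
    have h1 : 27 * A ≤ k := (le_max_right _ _).trans hk
    have h2 : (k : ℝ) ≤ (k : ℝ) ^ 3 := le_self_pow₀ hk1' (by norm_num)
    linarith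
  refine ⟨(k : ℝ) ^ 6 / 54, fun N x hx => ?_⟩
  have h1 := superstable hk1 x hx
  have h2 := sum_va_le hb0 hb x
  have h3 := expo_eq_energy (b := b) 0 x
  have h4 : 0 ≤ ∑ i, ∑ j, dl (x i) (x j) :=
    Finset.sum_nonneg fun i _ => Finset.sum_nonneg fun j _ => dl_nonneg _ _
  have h5 : A * ∑ i, ∑ j, dl (x i) (x j) ≤ (k : ℝ) ^ 3 / 27 * ∑ i, ∑ j, dl (x i) (x j) :=
    mul_le_mul_of_nonneg_right hkA h4
  have h6 : ∑ i, ∑ j, gk b (x i) (x j) =
      -(∑ i, ∑ j, phi0 (dist (x i) (x j))) + ∑ i, ∑ j, va b (dist (x i) (x j)) := by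
    unfold gk
    simp_rw [Finset.sum_add_distrib, Finset.sum_neg_distrib]
  unfold expo at h3
  rw [h6, Fintype.card_fin] at h3
  rw [Fintype.card_fin] at h1
  have h7 : 0 ≤ va b 0 := va_nonneg hb0 0
  have h8 : 0 ≤ va b 0 / 2 * (N : ℝ) := by positivity
  nlinarith

/-- configurations in the cube as a measurable set -/
lemma measurableSet_cfgs (L : ℝ) (N : ℕ) :
    MeasurableSet {x : Fin N → Space | ∀ i, x i ∈ cube L} := by
  have : {x : Fin N → Space | ∀ i, x i ∈ cube L} = Set.univ.pi fun _ => cube L := by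
    ext x; simp
  rw [this]
  exact MeasurableSet.univ_pi fun _ => measurableSet_cube L

lemma setLIntegral_cfgs (L μ : ℝ) (g : V3 → V3 → ℝ) (N : ℕ) :
    ∫⁻ x in {x : Fin N → Space | ∀ i, x i ∈ cube L}, ENNReal.ofReal (Real.exp (expo μ g x)) =
      zint (cube L) μ g (Fin N) := by
  rw [← lintegral_indicator (measurableSet_cfgs L N)]
  unfold zint
  refine lintegral_congr fun x => ?_
  by_cases hx : ∀ i, x i ∈ cube L
  · rw [wt_of_mem hx, Set.indicator_of_mem]
    exact hx
  · rw [Set.indicator_of_notMem]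
    · push Not at hx
      obtain ⟨i, hi⟩ := hx
      rw [wt_eq_zero hi]
    · exact hx

lemma zint_cube_ne_top (hb0 : ∀ j, 0 ≤ b j) (hb : Summable b) (μ L : ℝ) (N : ℕ) :
    zint (cube L) μ (gk b) (Fin N) ≠ ∞ := by
  have h1 := term_le_G (A := cube L) (μ := μ) (g := gk b) N
  have h2 := G_gk_ne_top hb0 hb μ (measurableSet_cube L) (volume_cube_ne_top L)
  intro h
  rw [h, ENNReal.mul_top (by simp)] at h1
  exact h2 (top_le_iff.mp h1)

lemma exp_energy_eq (z : ℝ) (hz : 0 < z) {N : ℕ} (x : Fin N → V3) :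
    z ^ N * Real.exp (-1 * energy (phib b) x) =
      Real.exp (expo (Real.log z - va b 0 / 2) (gk b) x) := by
  rw [expo_eq_energy]
  have h1 : z ^ N = Real.exp (Real.log z * N) := by
    rw [mul_comm, Real.exp_nat_mul, Real.exp_log hz]
  rw [h1, ← Real.exp_add]
  congr 1
  ring

lemma measurable_exp_energy (hb0 : ∀ j, 0 ≤ b j) (hb : Summable b) (N : ℕ) :
    Measurable (fun x : Fin N → Space => Real.exp (-1 * energy (phib b) x)) := by
  have h : (fun x : Fin N → Space => Real.exp (-1 * energy (phib b) x)) =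
      fun x => Real.exp (expo (Real.log 1 - va b 0 / 2) (gk b) x) := by
    funext x
    rw [← exp_energy_eq 1 one_pos x]
    simp
  rw [h]
  exact Real.measurable_exp.comp (measurable_expo (measurable_gk hb0 hb))

lemma canonicalZ_eq (hb0 : ∀ j, 0 ≤ b j) (hb : Summable b) {z : ℝ} (hz : 0 < z) (L : ℝ) (N : ℕ) :
    IntegrableOn (fun x : Fin N → Space => Real.exp (-1 * energy (phib b) x))
      {x : Fin N → Space | ∀ i, x i ∈ cube L} ∧
    z ^ N * canonicalZ (phib b) 1 L N =
      ((N.factorial : ℝ≥0∞)⁻¹ * zint (cube L) (Real.log z - va b 0 / 2) (gk b) (Fin N)).toReal := by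
  set μ := Real.log z - va b 0 / 2 with hμ
  have hzN : (0 : ℝ) < z ^ N := by positivity
  have hmeas := measurable_exp_energy hb0 hb N
  have hfin := zint_cube_ne_top hb0 hb μ L N
  have h1 : ∫⁻ x in {x : Fin N → Space | ∀ i, x i ∈ cube L},
      ENNReal.ofReal (Real.exp (-1 * energy (phib b) x)) =
      ENNReal.ofReal (z ^ N)⁻¹ * zint (cube L) μ (gk b) (Fin N) := by
    rw [← setLIntegral_cfgs, ← lintegral_const_mul' _ _ ENNReal.ofReal_ne_top]
    refine lintegral_congr fun x => ?_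
    rw [← exp_energy_eq z hz x, ← ENNReal.ofReal_mul (by positivity), ← mul_assoc,
      inv_mul_cancel₀ hzN.ne', one_mul]
  have h2 : ∫⁻ x in {x : Fin N → Space | ∀ i, x i ∈ cube L},
      ENNReal.ofReal (Real.exp (-1 * energy (phib b) x)) ≠ ∞ := by
    rw [h1]
    exact ENNReal.mul_ne_top ENNReal.ofReal_ne_top hfin
  constructor
  · refine ⟨hmeas.aestronglyMeasurable, ?_⟩
    rw [hasFiniteIntegral_iff_ofReal (Eventually.of_forall fun x => (Real.exp_pos _).le)]
    exact lt_top_iff_ne_top.mpr h2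
  · unfold canonicalZ
    rw [integral_eq_lintegral_of_nonneg_ae (Eventually.of_forall fun x => (Real.exp_pos _).le)
      hmeas.aestronglyMeasurable, h1, ENNReal.toReal_mul, ENNReal.toReal_mul,
      ENNReal.toReal_ofReal (by positivity), ENNReal.toReal_inv, ENNReal.toReal_natCast]
    field_simp

/-- The bridge: the real grand partition function is the kernel one. -/
theorem grandZ_eq (hb0 : ∀ j, 0 ≤ b j) (hb : Summable b) {z : ℝ} (hz : 0 < z) (L : ℝ) :
    GrandConverges (phib b) 1 z L ∧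
    grandZ (phib b) 1 z L = (G (cube L) (Real.log z - va b 0 / 2) (gk b)).toReal := by
  have hG := G_gk_ne_top hb0 hb (Real.log z - va b 0 / 2) (measurableSet_cube L)
    (volume_cube_ne_top L)
  have hterm : ∀ N : ℕ, (N.factorial : ℝ≥0∞)⁻¹ *
      zint (cube L) (Real.log z - va b 0 / 2) (gk b) (Fin N) ≠ ∞ := fun N =>
    ((term_le_G N).trans_lt (lt_top_iff_ne_top.mpr hG)).ne
  refine ⟨⟨fun N => (canonicalZ_eq hb0 hb hz L N).1, ?_⟩, ?_⟩
  · simp_rw [fun N => (canonicalZ_eq hb0 hb hz L N).2]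
    exact ENNReal.summable_toReal hG
  · unfold grandZ G
    rw [ENNReal.tsum_toReal_eq hterm]
    exact tsum_congr fun N => (canonicalZ_eq hb0 hb hz L N).2

/-- Transfer of non-differentiability from the chemical potential to the activity. -/
lemma not_differentiableAt_log {P : ℝ → ℝ} {μs c : ℝ} (h : ¬ DifferentiableAt ℝ P μs) :
    ¬ DifferentiableAt ℝ (fun z => P (Real.log z - c)) (Real.exp (μs + c)) := by
  intro hd
  apply h
  have h1 : P = fun μ => (fun z => P (Real.log z - c)) (Real.exp (μ + c)) := by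
    funext μ
    simp
  rw [h1]
  have h2 : DifferentiableAt ℝ (fun μ : ℝ => Real.exp (μ + c)) μs := by fun_prop
  exact DifferentiableAt.comp (g := fun z => P (Real.log z - c)) μs hd h2

end Vale.Agent.P171
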