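import Mathlib

set_option linter.unusedSectionVars false
set_option linter.deprecated false

open MeasureTheory Filter Topology Set
open scoped ENNReal NNReal BigOperators Nat

namespace Vale.Agent.P171

section Core

variable {E : Type*} [MeasureSpace E] [SigmaFinite (volume : Measure E)]

/-- the multiset of the points of a labelled configuration -/
def cfg {ι : Type*} [Fintype ι] (x : ι → E) : Multiset E := Finset.univ.val.map x

/-- Lebesgue-Poisson integral over the configurations in `Λ` -/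
noncomputable def ZZ (Λ : Set E) (F : Multiset E → ℝ≥0∞) : ℝ≥0∞ :=
  ∑' N : ℕ, ((N ! : ℕ) : ℝ≥0∞)⁻¹ * ∫⁻ x in {x : Fin N → E | ∀ i, x i ∈ Λ}, F (cfg x)

/-- measurability of a function of configurations -/
def MeasCfg (F : Multiset E → ℝ≥0∞) : Prop := ∀ N : ℕ, Measurable fun x : Fin N → E => F (cfg x)

lemma cfg_comp_equiv {ι κ : Type*} [Fintype ι] [Fintype κ] (e : κ ≃ ι) (x : ι → E) :
    cfg (x ∘ e) = cfg x := by
  unfold cfg
  have h : (Finset.univ : Finset ι) = (Finset.univ : Finset κ).map e.toEmbedding := by simp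
  rw [h, Finset.map_val, Multiset.map_map]
  rfl

lemma card_cfg {N : ℕ} (x : Fin N → E) : Multiset.card (cfg x) = N := by
  simp [cfg]

lemma measurableSet_all {ι : Type*} [Fintype ι] {A : Set E} (hA : MeasurableSet A) :
    MeasurableSet {x : ι → E | ∀ i, x i ∈ A} := by
  have : {x : ι → E | ∀ i, x i ∈ A} = Set.univ.pi fun _ => A := by
    ext x; simp
  rw [this]
  exact MeasurableSet.univ_pi fun _ => hA

lemma MeasCfg.fintype {F : Multiset E → ℝ≥0∞} (hF : MeasCfg F) {ι : Type*} [Fintype ι] :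
    Measurable fun x : ι → E => F (cfg x) := by
  have e := Fintype.equivFin ι
  have h : (fun x : ι → E => F (cfg x)) = (fun y : Fin (Fintype.card ι) → E => F (cfg y)) ∘
      (fun x : ι → E => fun i => x (e.symm i)) := by
    funext x
    simp only [Function.comp]
    rw [show (fun i => x (e.symm i)) = x ∘ e.symm from rfl, cfg_comp_equiv]
  rw [h]
  exact (hF _).comp (measurable_pi_lambda _ fun i => measurable_pi_apply _)

lemma lintegral_cfg_fintype {F : Multiset E → ℝ≥0∞} {A : Set E} {ι : Type*} [Fintype ι] {n : ℕ}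
    (hn : Fintype.card ι = n) :
    ∫⁻ x in {x : ι → E | ∀ i, x i ∈ A}, F (cfg x) =
      ∫⁻ x in {x : Fin n → E | ∀ i, x i ∈ A}, F (cfg x) := by
  have e : Fin n ≃ ι := (Fintype.equivFinOfCardEq hn).symm
  have hmp := volume_measurePreserving_piCongrLeft (fun _ : ι => E) e
  rw [← hmp.setLIntegral_comp_preimage_emb (MeasurableEquiv.measurableEmbedding _)
    (fun x => F (cfg x)) {x : ι → E | ∀ i, x i ∈ A}]
  have hkey : ∀ x : Fin n → E, ∀ i : ι,
      (MeasurableEquiv.piCongrLeft (fun _ : ι => E) e) x i = x (e.symm i) := by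
    intro x i
    obtain ⟨j, rfl⟩ := e.surjective i
    rw [MeasurableEquiv.piCongrLeft_apply_apply, e.symm_apply_apply]
  have hset : (MeasurableEquiv.piCongrLeft (fun _ : ι => E) e) ⁻¹' {x : ι → E | ∀ i, x i ∈ A}
      = {x : Fin n → E | ∀ i, x i ∈ A} := by
    ext x
    simp only [Set.mem_preimage, Set.mem_setOf_eq, hkey]
    constructor
    · intro h j
      have := h (e j)
      rwa [e.symm_apply_apply] at this
    · intro h i
      exact h _
  rw [hset]
  congr 1
  funext x
  congr 1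
  have : (MeasurableEquiv.piCongrLeft (fun _ : ι => E) e) x = x ∘ e.symm := by
    funext i; exact hkey x i
  rw [this, cfg_comp_equiv]

open Classical in
/-- restriction of a configuration to a set -/
noncomputable def res (A : Set E) (s : Multiset E) : Multiset E := s.filter (· ∈ A)

open Classical in
lemma res_cfg_of {ι : Type*} [Fintype ι] (A : Set E) (x : ι → E) (p : ι → Prop)
    [Fintype {i // p i}] (hp : ∀ i, x i ∈ A ↔ p i) : res A (cfg x) = cfg (fun i : {i // p i} => x i) := by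
  unfold res cfg
  rw [Multiset.filter_map]
  have h1 : Multiset.filter ((fun y => y ∈ A) ∘ x) (Finset.univ : Finset ι).val
      = ((Finset.univ : Finset ι).filter p).val := by
    rw [Finset.filter_val]
    refine Multiset.filter_congr ?_
    intro i _
    exact hp i
  rw [h1]
  have h2 : (Finset.univ : Finset ι).filter p
      = (Finset.univ : Finset {i // p i}).map (Function.Embedding.subtype p) := by
    ext i
    simp
  rw [h2, Finset.map_val, Multiset.map_map]
  rfl

open Classical in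
lemma lintegral_split_aux {F G : Multiset E → ℝ≥0∞} (hF : MeasCfg F) (hG : MeasCfg G)
    {A B : Set E} (hA : MeasurableSet A) (hB : MeasurableSet B) (hAB : Disjoint A B)
    {N n m : ℕ} (p : Fin N → Prop)
    (hn : Nat.card {i // p i} = n) (hm : Nat.card {i // ¬ p i} = m) :
    ∫⁻ x in {x : Fin N → E | (∀ i, p i → x i ∈ A) ∧ (∀ i, ¬ p i → x i ∈ B)},
        F (res A (cfg x)) * G (res B (cfg x)) =
      (∫⁻ x in {x : Fin n → E | ∀ i, x i ∈ A}, F (cfg x)) *
      (∫⁻ x in {x : Fin m → E | ∀ i, x i ∈ B}, G (cfg x)) := by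
  rw [Nat.card_eq_fintype_card] at hn hm
  rw [← lintegral_cfg_fintype hn, ← lintegral_cfg_fintype hm]
  rw [← lintegral_prod_mul (hF.fintype).aemeasurable (hG.fintype).aemeasurable,
    Measure.prod_restrict]
  have hmp := volume_preserving_piEquivPiSubtypeProd (fun _ : Fin N => E) p
  have hset : (MeasurableEquiv.piEquivPiSubtypeProd (fun _ : Fin N => E) p) ⁻¹'
      ({x : {i // p i} → E | ∀ i, x i ∈ A} ×ˢ {x : {i // ¬ p i} → E | ∀ i, x i ∈ B})
      = {x : Fin N → E | (∀ i, p i → x i ∈ A) ∧ (∀ i, ¬ p i → x i ∈ B)} := by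
    ext x
    simp [MeasurableEquiv.piEquivPiSubtypeProd, Equiv.piEquivPiSubtypeProd]
  have key := hmp.setLIntegral_comp_preimage_emb (MeasurableEquiv.measurableEmbedding _)
    (fun z => F (cfg z.1) * G (cfg z.2))
    ({x : {i // p i} → E | ∀ i, x i ∈ A} ×ˢ {x : {i // ¬ p i} → E | ∀ i, x i ∈ B})
  rw [hset] at key
  refine Eq.trans ?_ key
  refine setLIntegral_congr_fun ?_ ?_
  · have h1 : {x : Fin N → E | (∀ i, p i → x i ∈ A) ∧ (∀ i, ¬ p i → x i ∈ B)}
        = Set.univ.pi fun i => if p i then A else B := by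
      ext x
      simp only [Set.mem_setOf_eq, Set.mem_univ_pi]
      constructor
      · rintro ⟨h1, h2⟩ i
        by_cases hi : p i
        · simpa [hi] using h1 i hi
        · simpa [hi] using h2 i hi
      · intro h
        refine ⟨fun i hi => ?_, fun i hi => ?_⟩
        · have := h i
          simpa [hi] using this
        · have := h i
          simpa [hi] using this
    rw [h1]
    refine MeasurableSet.univ_pi fun i => ?_
    by_cases hi : p i
    · simpa [hi] using hA
    · simpa [hi] using hB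
  · intro x hx
    have hA' : ∀ i, x i ∈ A ↔ p i := by
      intro i
      constructor
      · intro h
        by_contra hi
        exact Set.disjoint_left.1 hAB h (hx.2 i hi)
      · exact hx.1 i
    have hB' : ∀ i, x i ∈ B ↔ ¬ p i := by
      intro i
      constructor
      · intro h hi
        exact Set.disjoint_left.1 hAB (hx.1 i hi) h
      · exact hx.2 i
    simp only
    rw [res_cfg_of A x p hA', res_cfg_of B x (fun i => ¬ p i) hB']
    rfl

/-- **Two-block factorisation** of Lebesgue-Poisson integrals. -/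
theorem ZZ_union {F G : Multiset E → ℝ≥0∞} (hF : MeasCfg F) (hG : MeasCfg G)
    {A B : Set E} (hA : MeasurableSet A) (hB : MeasurableSet B) (hAB : Disjoint A B) :
    ZZ (A ∪ B) (fun s => F (res A s) * G (res B s)) = ZZ A F * ZZ B G := by
  classical
  set a : ℕ → ℝ≥0∞ := fun n => ∫⁻ x in {x : Fin n → E | ∀ i, x i ∈ A}, F (cfg x) with ha
  set b : ℕ → ℝ≥0∞ := fun n => ∫⁻ x in {x : Fin n → E | ∀ i, x i ∈ B}, G (cfg x) with hb
  have hN : ∀ N : ℕ, ∫⁻ x in {x : Fin N → E | ∀ i, x i ∈ A ∪ B},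
      F (res A (cfg x)) * G (res B (cfg x)) =
      ∑ n ∈ Finset.range (N + 1), (N.choose n : ℝ≥0∞) * (a n * b (N - n)) := by
    intro N
    have hset : {x : Fin N → E | ∀ i, x i ∈ A ∪ B} =
        ⋃ S ∈ (Finset.univ : Finset (Fin N)).powerset,
          {x : Fin N → E | (∀ i, i ∈ S → x i ∈ A) ∧ (∀ i, ¬ i ∈ S → x i ∈ B)} := by
      ext x
      simp only [Set.mem_setOf_eq, Set.mem_iUnion, Finset.mem_powerset, Finset.subset_univ,
        exists_true_left]
      constructor
      · intro h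
        refine ⟨Finset.univ.filter (fun i => x i ∈ A), ?_, ?_⟩
        · intro i hi
          simpa using hi
        · intro i hi
          have : x i ∉ A := by simpa using hi
          exact (h i).resolve_left this
      · rintro ⟨S, h1, h2⟩ i
        by_cases hi : i ∈ S
        · exact Or.inl (h1 i hi)
        · exact Or.inr (h2 i hi)
    rw [hset, lintegral_biUnion_finset]
    · rw [Finset.sum_congr rfl (g := fun S => a (S.card) * b (N - S.card))]
      · rw [Finset.sum_powerset_apply_card (fun n => a n * b (N - n))]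
        simp [nsmul_eq_mul]
      · intro S _
        have h1 : Nat.card {i // i ∈ S} = S.card := by
          rw [Nat.card_eq_fintype_card, Fintype.card_coe]
        have h2 : Nat.card {i // ¬ i ∈ S} = N - S.card := by
          rw [Nat.card_eq_fintype_card, Fintype.card_subtype_compl, Fintype.card_fin,
            Fintype.card_coe]
        exact lintegral_split_aux hF hG hA hB hAB (fun i => i ∈ S) h1 h2
    · intro S _ S' _ hne
      refine Set.disjoint_left.2 ?_
      rintro x ⟨h1, h2⟩ ⟨h1', h2'⟩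
      apply hne
      ext i
      constructor
      · intro hi
        by_contra hi'
        exact Set.disjoint_left.1 hAB (h1 i hi) (h2' i hi')
      · intro hi
        by_contra hi'
        exact Set.disjoint_left.1 hAB (h1' i hi) (h2 i hi')
    · intro S _
      have h1 : {x : Fin N → E | (∀ i, i ∈ S → x i ∈ A) ∧ (∀ i, ¬ i ∈ S → x i ∈ B)}
          = Set.univ.pi fun i => if i ∈ S then A else B := by
        ext x
        simp only [Set.mem_setOf_eq, Set.mem_univ_pi]
        constructor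
        · rintro ⟨h1, h2⟩ i
          by_cases hi : i ∈ S
          · simpa [hi] using h1 i hi
          · simpa [hi] using h2 i hi
        · intro h
          refine ⟨fun i hi => ?_, fun i hi => ?_⟩
          · have := h i
            simpa [hi] using this
          · have := h i
            simpa [hi] using this
      rw [h1]
      refine MeasurableSet.univ_pi fun i => ?_
      by_cases hi : i ∈ S
      · simpa [hi] using hA
      · simpa [hi] using hB
  have hN' : ∀ N : ℕ, ((N ! : ℕ) : ℝ≥0∞)⁻¹ *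
      ∫⁻ x in {x : Fin N → E | ∀ i, x i ∈ A ∪ B}, F (res A (cfg x)) * G (res B (cfg x)) =
      ∑ p ∈ Finset.HasAntidiagonal.antidiagonal N, (((p.1 ! : ℕ) : ℝ≥0∞)⁻¹ * a p.1) *
        (((p.2 ! : ℕ) : ℝ≥0∞)⁻¹ * b p.2) := by
    intro N
    rw [hN N, Finset.mul_sum, Finset.Nat.sum_antidiagonal_eq_sum_range_succ_mk]
    refine Finset.sum_congr rfl fun n hn => ?_
    have hn' : n ≤ N := Nat.lt_succ_iff.1 (Finset.mem_range.1 hn)
    have h0 : ((N ! : ℕ) : ℝ≥0∞) ≠ 0 := by exact_mod_cast (Nat.factorial_pos N).ne'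
    have h1 : ((N ! : ℕ) : ℝ≥0∞) ≠ ⊤ := ENNReal.natCast_ne_top _
    have hn0 : ((n ! : ℕ) : ℝ≥0∞) ≠ 0 := by exact_mod_cast (Nat.factorial_pos n).ne'
    have hn1 : ((n ! : ℕ) : ℝ≥0∞) ≠ ⊤ := ENNReal.natCast_ne_top _
    have hm0 : (((N - n) ! : ℕ) : ℝ≥0∞) ≠ 0 := by exact_mod_cast (Nat.factorial_pos (N - n)).ne'
    have hm1 : (((N - n) ! : ℕ) : ℝ≥0∞) ≠ ⊤ := ENNReal.natCast_ne_top _
    have hch : ((N.choose n : ℕ) : ℝ≥0∞) * ((n ! : ℕ) : ℝ≥0∞) * (((N - n) ! : ℕ) : ℝ≥0∞)
        = ((N ! : ℕ) : ℝ≥0∞) := by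
      exact_mod_cast Nat.choose_mul_factorial_mul_factorial hn'
    have hkey : ((N ! : ℕ) : ℝ≥0∞)⁻¹ * ((N.choose n : ℕ) : ℝ≥0∞) =
        ((n ! : ℕ) : ℝ≥0∞)⁻¹ * (((N - n) ! : ℕ) : ℝ≥0∞)⁻¹ := by
      rw [← ENNReal.mul_inv (Or.inl hn0) (Or.inl hn1)]
      rw [← hch]
      have hc0 : ((N.choose n : ℕ) : ℝ≥0∞) ≠ 0 := by
        exact_mod_cast (Nat.choose_pos hn').ne'
      have hc1 : ((N.choose n : ℕ) : ℝ≥0∞) ≠ ⊤ := ENNReal.natCast_ne_top _
      rw [mul_assoc, ENNReal.mul_inv (Or.inl hc0) (Or.inl hc1), mul_comm, ← mul_assoc,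
        ENNReal.mul_inv_cancel hc0 hc1, one_mul]
    simp only
    calc ((N ! : ℕ) : ℝ≥0∞)⁻¹ * (((N.choose n : ℕ) : ℝ≥0∞) * (a n * b (N - n)))
        = (((N ! : ℕ) : ℝ≥0∞)⁻¹ * ((N.choose n : ℕ) : ℝ≥0∞)) * (a n * b (N - n)) := by ring
      _ = (((n ! : ℕ) : ℝ≥0∞)⁻¹ * (((N - n) ! : ℕ) : ℝ≥0∞)⁻¹) * (a n * b (N - n)) := by rw [hkey]
      _ = _ := by ring
  unfold ZZ
  rw [tsum_congr hN']
  have h3 : ∑' N : ℕ, ∑ p ∈ Finset.HasAntidiagonal.antidiagonal N, (((p.1 ! : ℕ) : ℝ≥0∞)⁻¹ * a p.1) *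
        (((p.2 ! : ℕ) : ℝ≥0∞)⁻¹ * b p.2) =
      ∑' p : ℕ × ℕ, (((p.1 ! : ℕ) : ℝ≥0∞)⁻¹ * a p.1) * (((p.2 ! : ℕ) : ℝ≥0∞)⁻¹ * b p.2) := by
    rw [← (Finset.HasAntidiagonal.sigmaAntidiagonalEquivProd (A := ℕ)).tsum_eq,
      ENNReal.tsum_sigma']
    refine tsum_congr fun N => ?_
    rw [tsum_fintype]
    exact (Finset.sum_coe_sort (Finset.HasAntidiagonal.antidiagonal N) (fun p : ℕ × ℕ =>
      (((p.1 ! : ℕ) : ℝ≥0∞)⁻¹ * a p.1) * (((p.2 ! : ℕ) : ℝ≥0∞)⁻¹ * b p.2))).symm
  rw [h3, ENNReal.tsum_prod (f := fun m n => (((m ! : ℕ) : ℝ≥0∞)⁻¹ * a m) *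
    (((n ! : ℕ) : ℝ≥0∞)⁻¹ * b n))]
  simp_rw [ENNReal.tsum_mul_left]
  rw [ENNReal.tsum_mul_right]

lemma ZZ_mono_fun {Λ : Set E} (hΛ : MeasurableSet Λ) {F G : Multiset E → ℝ≥0∞}
    (h : ∀ s : Multiset E, (∀ a ∈ s, a ∈ Λ) → F s ≤ G s) : ZZ Λ F ≤ ZZ Λ G := by
  unfold ZZ
  refine ENNReal.tsum_le_tsum fun N => ?_
  refine mul_le_mul_right ?_ _
  refine setLIntegral_mono' (measurableSet_all hΛ) ?_
  intro x hx
  refine h _ ?_
  intro a ha
  unfold cfg at ha
  rw [Multiset.mem_map] at ha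
  obtain ⟨i, _, rfl⟩ := ha
  exact hx i

lemma ZZ_congr_fun {Λ : Set E} (hΛ : MeasurableSet Λ) {F G : Multiset E → ℝ≥0∞}
    (h : ∀ s : Multiset E, (∀ a ∈ s, a ∈ Λ) → F s = G s) : ZZ Λ F = ZZ Λ G :=
  le_antisymm (ZZ_mono_fun hΛ fun s hs => (h s hs).le) (ZZ_mono_fun hΛ fun s hs => (h s hs).ge)

lemma ZZ_mono_set {Λ Λ' : Set E} (h : Λ ⊆ Λ') (F : Multiset E → ℝ≥0∞) : ZZ Λ F ≤ ZZ Λ' F := by
  unfold ZZ
  refine ENNReal.tsum_le_tsum fun N => ?_
  refine mul_le_mul_right ?_ _
  refine lintegral_mono_set ?_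
  intro x hx i
  exact h (hx i)

lemma ZZ_const_mul (Λ : Set E) {c : ℝ≥0∞} (hc : c ≠ ⊤) (F : Multiset E → ℝ≥0∞) :
    ZZ Λ (fun s => c * F s) = c * ZZ Λ F := by
  unfold ZZ
  rw [← ENNReal.tsum_mul_left]
  refine tsum_congr fun N => ?_
  rw [lintegral_const_mul' _ _ hc]
  ring

lemma ZZ_add (Λ : Set E) {F : Multiset E → ℝ≥0∞} (hF : MeasCfg F) (G : Multiset E → ℝ≥0∞) :
    ZZ Λ (fun s => F s + G s) = ZZ Λ F + ZZ Λ G := by
  unfold ZZ
  rw [← ENNReal.tsum_add]
  refine tsum_congr fun N => ?_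
  rw [lintegral_add_left (hF N)]
  ring

lemma ZZ_sum (Λ : Set E) {ι : Type*} (I : Finset ι) {F : ι → Multiset E → ℝ≥0∞}
    (hF : ∀ i ∈ I, MeasCfg (F i)) :
    ZZ Λ (fun s => ∑ i ∈ I, F i s) = ∑ i ∈ I, ZZ Λ (F i) := by
  classical
  induction I using Finset.induction_on with
  | empty => simp [ZZ]
  | insert i I hi ih =>
    have h1 : (fun s => ∑ j ∈ insert i I, F j s) = fun s => F i s + ∑ j ∈ I, F j s := by
      funext s
      rw [Finset.sum_insert hi]
    rw [h1, ZZ_add Λ (hF i (Finset.mem_insert_self i I)), Finset.sum_insert hi,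
      ih fun j hj => hF j (Finset.mem_insert_of_mem hj)]

open Classical in
lemma MeasCfg.res {F : Multiset E → ℝ≥0∞} (hF : MeasCfg F) {B : Set E} (hB : MeasurableSet B) :
    MeasCfg (fun s => F (res B s)) := by
  intro N
  have h : (fun x : Fin N → E => F (Vale.Agent.P171.res B (cfg x))) =
      fun x => ∑ S : Finset (Fin N), Set.indicator {x : Fin N → E | ∀ i, x i ∈ B ↔ i ∈ S}
        (fun x => F (cfg (fun i : {i // i ∈ S} => x i))) x := by
    funext x
    set S₀ : Finset (Fin N) := Finset.univ.filter (fun i => x i ∈ B) with hS₀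
    rw [Finset.sum_eq_single S₀]
    · rw [Set.indicator_of_mem]
      · rw [res_cfg_of B x (fun i => i ∈ S₀) (by intro i; simp [hS₀])]
      · intro i
        simp [hS₀]
    · intro S _ hne
      rw [Set.indicator_of_notMem]
      intro hx
      apply hne
      ext i
      rw [← hx i]
      simp [hS₀]
    · intro h
      exact absurd (Finset.mem_univ _) h
  rw [h]
  refine Finset.measurable_sum _ fun S _ => ?_
  refine Measurable.indicator ?_ ?_
  · exact (hF.fintype).comp (measurable_pi_lambda _ fun i => measurable_pi_apply _)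
  · have : {x : Fin N → E | ∀ i, x i ∈ B ↔ i ∈ S} = ⋂ i, {x : Fin N → E | x i ∈ B ↔ i ∈ S} := by
      ext x; simp
    rw [this]
    refine MeasurableSet.iInter fun i => ?_
    by_cases hi : i ∈ S
    · simp only [hi, iff_true]
      exact measurable_pi_apply i hB
    · simp only [hi, iff_false]
      exact (measurable_pi_apply i hB).compl

lemma MeasCfg.prod {ι : Type*} (I : Finset ι) {F : ι → Multiset E → ℝ≥0∞}
    (hF : ∀ i ∈ I, MeasCfg (F i)) : MeasCfg (fun s => ∏ i ∈ I, F i s) := by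
  intro N
  exact Finset.measurable_prod _ fun i hi => hF i hi N

lemma res_res_of_subset {A B : Set E} (h : A ⊆ B) (s : Multiset E) : res A (res B s) = res A s := by
  classical
  unfold res
  rw [Multiset.filter_filter]
  refine Multiset.filter_congr ?_
  intro x _
  constructor
  · exact fun h' => h'.1
  · exact fun h' => ⟨h', h h'⟩

lemma ZZ_empty (F : Multiset E → ℝ≥0∞) : ZZ (∅ : Set E) F = F 0 := by
  unfold ZZ
  rw [tsum_eq_single 0]
  · have h1 : {x : Fin 0 → E | ∀ i, x i ∈ (∅ : Set E)} = Set.univ := by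
      ext x; simp
    rw [h1, Measure.restrict_univ]
    have h2 : ∀ x : Fin 0 → E, F (cfg x) = F 0 := by
      intro x; simp [cfg]
    simp_rw [h2]
    simp [volume_pi]
  · intro N hN
    have h1 : {x : Fin N → E | ∀ i, x i ∈ (∅ : Set E)} = ∅ := by
      ext x
      simp only [Set.mem_setOf_eq, Set.mem_empty_iff_false, iff_false, not_forall]
      exact ⟨⟨0, Nat.pos_of_ne_zero hN⟩, fun h => h⟩
    rw [h1]
    simp

/-- **Factorisation** over finitely many disjoint blocks. -/
theorem ZZ_biUnion {ι : Type*} (I : Finset ι) (B : ι → Set E)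
    (hB : ∀ i ∈ I, MeasurableSet (B i)) (hd : (I : Set ι).PairwiseDisjoint B)
    (F : ι → Multiset E → ℝ≥0∞) (hF : ∀ i ∈ I, MeasCfg (F i)) :
    ZZ (⋃ i ∈ I, B i) (fun s => ∏ i ∈ I, F i (res (B i) s)) = ∏ i ∈ I, ZZ (B i) (F i) := by
  classical
  induction I using Finset.induction_on with
  | empty => simp [ZZ_empty]
  | insert i I hi ih =>
    have hBI : ∀ j ∈ I, MeasurableSet (B j) := fun j hj => hB j (Finset.mem_insert_of_mem hj)
    have hFI : ∀ j ∈ I, MeasCfg (F j) := fun j hj => hF j (Finset.mem_insert_of_mem hj)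
    have hdI : (I : Set ι).PairwiseDisjoint B := hd.subset (by simp)
    have hU : MeasurableSet (⋃ j ∈ I, B j) := I.measurableSet_biUnion hBI
    rw [Finset.set_biUnion_insert, Finset.prod_insert hi, ← ih hBI hdI hFI]
    rw [← ZZ_union (hF i (Finset.mem_insert_self i I)) (MeasCfg.prod I fun j hj =>
      (hFI j hj).res (hBI j hj)) (hB i (Finset.mem_insert_self i I)) hU]
    · congr 1
      funext s
      rw [Finset.prod_insert hi]
      congr 1
      refine Finset.prod_congr rfl fun j hj => ?_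
      rw [res_res_of_subset]
      exact Set.subset_biUnion_of_mem (u := fun j => B j) hj
    · rw [Set.disjoint_iUnion₂_right]
      intro j hj
      exact hd (by simp) (by simp [hj]) (by rintro rfl; exact hi hj)

end Core

end Vale.Agent.P171
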