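import Mathlib

/-!
# Statement definitions for P171

Classical particles in three-space with a radial pair potential `φ`, canonical and grand canonical
partition functions in the cube `[0,L]^3`, stability, temperedness, the pressure, and a phase
transition in the sense of non-differentiability of the pressure in the activity.
-/

open MeasureTheory Filter Topology

namespace Vale.Agent.P171

/-- Euclidean three-space. -/
abbrev Space : Type := EuclideanSpace ℝ (Fin 3)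

/-- Total energy `U_N(x_1,…,x_N) = ∑_{i<j} φ(|x_i - x_j|)` for the radial pair potential `φ`
(only the values of `φ` on `(0,∞)` matter for distinct points). -/
noncomputable def energy (φ : ℝ → ℝ) {N : ℕ} (x : Fin N → Space) : ℝ :=
  ∑ i : Fin N, ∑ j : Fin N, if i < j then φ (dist (x i) (x j)) else 0

/-- `φ` is bounded on every compact subinterval of `(0,∞)`. -/
def LocallyBounded (φ : ℝ → ℝ) : Prop :=
  ∀ a b : ℝ, 0 < a → ∃ M : ℝ, ∀ r : ℝ, a ≤ r → r ≤ b → |φ r| ≤ M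

/-- Stability: `U_N ≥ -B N` for all configurations of distinct points. -/
def Stable (φ : ℝ → ℝ) : Prop :=
  ∃ B : ℝ, ∀ (N : ℕ) (x : Fin N → Space), Function.Injective x → -B * (N : ℝ) ≤ energy φ x

/-- Temperedness: `φ(r) ≤ C r^{-3-ε}` for all `r ≥ R₀`. -/
def Tempered (φ : ℝ → ℝ) : Prop :=
  ∃ C ε R₀ : ℝ, 0 < C ∧ 0 < ε ∧ 0 < R₀ ∧ ∀ r : ℝ, R₀ ≤ r → φ r ≤ C * r ^ (-3 - ε)

/-- The cube `Λ_L = [0,L]^3`. -/
def cube (L : ℝ) : Set Space := {x | ∀ k, 0 ≤ x k ∧ x k ≤ L}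

/-- `Z_{L,N}(β) = (1/N!) ∫_{Λ_L^N} exp(-β U_N) dx`. -/
noncomputable def canonicalZ (φ : ℝ → ℝ) (β L : ℝ) (N : ℕ) : ℝ :=
  (1 / (N.factorial : ℝ)) *
    ∫ x in {x : Fin N → Space | ∀ i, x i ∈ cube L}, Real.exp (-β * energy φ x)

/-- The grand canonical partition function `∑_{N ≥ 0} z^N Z_{L,N}(β)`. -/
noncomputable def grandZ (φ : ℝ → ℝ) (β z L : ℝ) : ℝ :=
  ∑' N : ℕ, z ^ N * canonicalZ φ β L N

/-- All the integrals and the series defining the grand canonical partition function converge. -/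
def GrandConverges (φ : ℝ → ℝ) (β z L : ℝ) : Prop :=
  (∀ N : ℕ, IntegrableOn (fun x : Fin N → Space => Real.exp (-β * energy φ x))
    {x : Fin N → Space | ∀ i, x i ∈ cube L}) ∧
  Summable (fun N : ℕ => z ^ N * canonicalZ φ β L N)

/-- `p` is the function `z ↦ Π(β,z) = lim_{L → ∞} L^{-3} log ∑_N z^N Z_{L,N}(β)` on `(0,∞)`. -/
def IsPressure (φ : ℝ → ℝ) (β : ℝ) (p : ℝ → ℝ) : Prop :=
  ∀ z : ℝ, 0 < z → (∀ L : ℝ, 0 < L → GrandConverges φ β z L) ∧
    Tendsto (fun L : ℝ => Real.log (grandZ φ β z L) / L ^ 3) atTop (𝓝 (p z))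

/-- Phase transition in the sense (a) of the problem: for some `β > 0` the function
`z ↦ Π(β,z)` is not differentiable at some `z₀ > 0`. -/
def HasPhaseTransition (φ : ℝ → ℝ) : Prop :=
  ∃ β : ℝ, 0 < β ∧ ∃ p : ℝ → ℝ, IsPressure φ β p ∧ ∃ z₀ : ℝ, 0 < z₀ ∧ ¬ DifferentiableAt ℝ p z₀

end Vale.Agent.P171
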