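import Vale.Agent.Results.P171.DensityJump

/-!
# P171: the phase transition in coordinates, without own definitions
-/

open MeasureTheory Filter Topology
open scoped ENNReal

namespace Vale.Agent.P171

private lemma draw_energy (φ : ℝ → ℝ) {N : ℕ} (y : Fin N → EuclideanSpace ℝ (Fin 3)) :
    Vale.Agent.Results.P171.DensityJump.pairEnergy φ y =
      ∑ j : Fin N, ∑ i ∈ Finset.Iio j, φ √(∑ k, (y i k - y j k) ^ 2) := by
  unfold Vale.Agent.Results.P171.DensityJump.pairEnergy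
  rw [Finset.sum_filter, ← Finset.univ_product_univ, Finset.sum_product, Finset.sum_comm]
  refine Finset.sum_congr rfl fun j _ => ?_
  rw [← Finset.sum_filter]
  refine Finset.sum_congr ?_ fun i _ => ?_
  · ext i
    simp
  · rw [EuclideanSpace.norm_eq]
    simp only [PiLp.sub_apply, Real.norm_eq_abs, sq_abs]

private lemma draw_integral (F : ∀ N : ℕ, (Fin N → Fin 3 → ℝ) → ℝ≥0∞) (N : ℕ) (L : ℝ) :
    (∫⁻ y in Set.univ.pi (fun _ : Fin N => Vale.Agent.Results.P171.DensityJump.box L),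
        F N (fun i k => y i k)) =
      ∫⁻ x in {x : Fin N → Fin 3 → ℝ | ∀ i k, 0 ≤ x i k ∧ x i k ≤ L}, F N x := by
  set e : EuclideanSpace ℝ (Fin 3) ≃ᵐ (Fin 3 → ℝ) := (MeasurableEquiv.toLp 2 (Fin 3 → ℝ)).symm
  have he : MeasurePreserving e := EuclideanSpace.volume_preserving_symm_measurableEquiv_toLp _
  set E : (Fin N → EuclideanSpace ℝ (Fin 3)) ≃ᵐ (Fin N → Fin 3 → ℝ) :=
    MeasurableEquiv.piCongrRight fun _ => e
  have hE : MeasurePreserving E := volume_preserving_pi fun _ => he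
  have h1 := hE.setLIntegral_comp_preimage_emb E.measurableEmbedding (F N)
    {x : Fin N → Fin 3 → ℝ | ∀ i k, 0 ≤ x i k ∧ x i k ≤ L}
  rw [← h1]
  have h2 : E ⁻¹' {x : Fin N → Fin 3 → ℝ | ∀ i k, 0 ≤ x i k ∧ x i k ≤ L} =
      Set.univ.pi (fun _ : Fin N => Vale.Agent.Results.P171.DensityJump.box L) := by
    ext y
    simp only [Set.mem_preimage, Set.mem_setOf_eq, Set.mem_pi, Set.mem_univ, forall_true_left,
      Vale.Agent.Results.P171.DensityJump.box, Set.mem_Icc]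
    rfl
  rw [h2]
  rfl

theorem coords :
    ∃ (φ : ℝ → ℝ) (U : ∀ N : ℕ, (Fin N → Fin 3 → ℝ) → ℝ),
      (∀ N x, U N x = ∑ j : Fin N, ∑ i ∈ Finset.Iio j, φ √(∑ k, (x i k - x j k) ^ 2)) ∧
      Measurable φ ∧
      (∀ a b : ℝ, 0 < a → ∃ M : ℝ, ∀ r : ℝ, a ≤ r → r ≤ b → |φ r| ≤ M) ∧
      (∃ B : ℝ, ∀ (N : ℕ) (x : Fin N → Fin 3 → ℝ), (∀ i j, i ≠ j → x i ≠ x j) →
        -B * N ≤ U N x) ∧
      (∃ C ε R : ℝ, 0 < C ∧ 0 < ε ∧ 0 < R ∧ ∀ r : ℝ, R ≤ r → φ r ≤ C * r ^ (-3 - ε)) ∧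
      ∃ β : ℝ, 0 < β ∧ ∃ (Ξ : ℝ → ℝ → ℝ) (P : ℝ → ℝ),
        (∀ z L : ℝ, 0 < z → 0 < L → 0 < Ξ z L ∧ ENNReal.ofReal (Ξ z L) =
          ∑' N : ℕ, ENNReal.ofReal (z ^ N / N.factorial) *
            ∫⁻ x in {x : Fin N → Fin 3 → ℝ | ∀ i k, 0 ≤ x i k ∧ x i k ≤ L},
              ENNReal.ofReal (Real.exp (-β * U N x))) ∧
        (∀ z : ℝ, 0 < z → Tendsto (fun L : ℝ => Real.log (Ξ z L) / L ^ 3) atTop (𝓝 (P z))) ∧
        ∃ z₀ : ℝ, 0 < z₀ ∧ ¬ DifferentiableAt ℝ P z₀ := by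
  obtain ⟨φ, hm, hlb, ⟨B, hB⟩, ⟨C, ε, R, hC, hε, hR, hT⟩, β, hβ, P, hP, z₀, a, b, hz₀, hab, ha,
    hb⟩ := Vale.Agent.Results.P171.DensityJump.result
  have hsum : ∀ z > 0, ∀ L > 0, Vale.Agent.Results.P171.DensityJump.grandPartition φ β z L =
      ∑' N : ℕ, ENNReal.ofReal (z ^ N / N.factorial) *
        ∫⁻ x in {x : Fin N → Fin 3 → ℝ | ∀ i k, 0 ≤ x i k ∧ x i k ≤ L},
          ENNReal.ofReal (Real.exp (-β * ∑ j : Fin N, ∑ i ∈ Finset.Iio j,
            φ √(∑ k, (x i k - x j k) ^ 2))) := by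
    intro z hz L hL
    unfold Vale.Agent.Results.P171.DensityJump.grandPartition
    refine tsum_congr fun N => ?_
    rw [← draw_integral (fun N x => ENNReal.ofReal (Real.exp (-β * ∑ j : Fin N,
      ∑ i ∈ Finset.Iio j, φ √(∑ k, (x i k - x j k) ^ 2)))) N L]
    simp only [draw_energy]
    congr 1
    rw [div_eq_mul_inv, ENNReal.ofReal_mul (pow_nonneg hz.le N), ENNReal.ofReal_pow hz.le,
      ENNReal.ofReal_inv_of_pos (by positivity), ENNReal.ofReal_natCast]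
  have hfin : ∀ z > 0, ∀ L > 0,
      Vale.Agent.Results.P171.DensityJump.grandPartition φ β z L < ∞ := fun z hz L hL =>
    (hP z hz).1 L hL
  have hpos : ∀ z > 0, ∀ L > 0,
      1 ≤ Vale.Agent.Results.P171.DensityJump.grandPartition φ β z L := by
    intro z hz L hL
    rw [hsum z hz L hL]
    refine le_trans (le_of_eq ?_) (ENNReal.le_tsum 0)
    have h2 : {x : Fin 0 → Fin 3 → ℝ | ∀ i k, 0 ≤ x i k ∧ x i k ≤ L} = Set.univ := by
      ext x
      simp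
    have h3 : (volume : Measure (Fin 0 → Fin 3 → ℝ)) Set.univ = 1 := by
      rw [volume_pi, Measure.pi_of_empty]
      simp
    rw [h2, Measure.restrict_univ]
    simp [h3]
  refine ⟨φ, fun N x => ∑ j : Fin N, ∑ i ∈ Finset.Iio j, φ √(∑ k, (x i k - x j k) ^ 2),
    fun N x => rfl, hm, fun a b ha => ?_, ⟨B, fun N x hx => ?_⟩,
    ⟨C, ε, R, hC, hε, hR, fun r hr => ?_⟩, β, hβ,
    fun z L => (Vale.Agent.Results.P171.DensityJump.grandPartition φ β z L).toReal, P,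
    fun z L hz hL => ⟨?_, ?_⟩, fun z hz => ?_, z₀, hz₀, fun hd => ?_⟩
  · obtain ⟨M, hM⟩ := hlb (Set.Icc a b) isCompact_Icc fun r hr => lt_of_lt_of_le ha hr.1
    exact ⟨M, fun r h1 h2 => hM r ⟨h1, h2⟩⟩
  · have h1 := hB N (fun i => WithLp.toLp 2 (x i)) (fun i j hij => by
      by_contra hne
      exact hx i j hne ((WithLp.toLp_injective 2) hij))
    rw [draw_energy] at h1
    rw [neg_mul]
    exact h1
  · have h1 : -3 - ε = -(3 + ε) := by ring
    rw [h1]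
    exact hT r hr
  · exact ENNReal.toReal_pos (fun h => by
      have := hpos z hz L hL
      rw [h] at this
      exact absurd this (by simp)) (hfin z hz L hL).ne
  · rw [ENNReal.ofReal_toReal (hfin z hz L hL).ne]
    exact hsum z hz L hL
  · refine (hP z hz).2.congr fun L => ?_
    rw [div_eq_inv_mul]
  · have h1 := hd.hasDerivAt.hasDerivWithinAt (s := Set.Iic z₀)
    have h2 := hd.hasDerivAt.hasDerivWithinAt (s := Set.Ici z₀)
    have e1 := (uniqueDiffWithinAt_Iic z₀).eq_deriv _ ha h1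
    have e2 := (uniqueDiffWithinAt_Ici z₀).eq_deriv _ hb h2
    rw [e1, e2] at hab
    exact lt_irrefl _ hab

end Vale.Agent.P171
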