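import Mathlib

/-!
# Ekeland's variational principle
-/

open Filter Topology

namespace Vale.Agent.P171

/-- Ekeland's variational principle. -/
theorem ekeland' {X : Type*} [MetricSpace X] [CompleteSpace X] (f : X → ℝ)
    (hf : LowerSemicontinuous f) (hb : BddBelow (Set.range f)) (x0 : X) {ε : ℝ} (hε : 0 < ε) :
    ∃ x, f x + ε * dist x x0 ≤ f x0 ∧ ∀ y, f x ≤ f y + ε * dist y x := by
  classical
  obtain ⟨m, hm⟩ := hb
  have hm' : ∀ x, m ≤ f x := fun x => hm ⟨x, rfl⟩
  set S : X → Set X := fun x => {y | f y + ε * dist y x ≤ f x} with hS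
  have hself : ∀ x, x ∈ S x := by
    intro x
    simp [hS]
  have htrans : ∀ x y, y ∈ S x → S y ⊆ S x := by
    intro x y hy z hz
    simp only [hS, Set.mem_ofPred_eq] at hy hz ⊢
    have h1 : dist z x ≤ dist z y + dist y x := dist_triangle _ _ _
    have h2 : ε * dist z x ≤ ε * dist z y + ε * dist y x := by
      rw [← mul_add]
      exact mul_le_mul_of_nonneg_left h1 hε.le
    linarith
  have hbd : ∀ x, BddBelow (f '' S x) := fun x => ⟨m, by rintro _ ⟨y, _, rfl⟩; exact hm' y⟩
  have hstep : ∀ (n : ℕ) (x : X), ∃ y ∈ S x, f y ≤ sInf (f '' S x) + (1 / 2 : ℝ) ^ n := by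
    intro n x
    have hne : (f '' S x).Nonempty := ⟨f x, x, hself x, rfl⟩
    have hpos : (0 : ℝ) < (1 / 2 : ℝ) ^ n := by positivity
    obtain ⟨_, ⟨y, hy, rfl⟩, hlt⟩ := exists_lt_of_csInf_lt hne
      (lt_add_of_pos_right (sInf (f '' S x)) hpos)
    exact ⟨y, hy, hlt.le⟩
  choose nxt hnxt1 hnxt2 using hstep
  let u : ℕ → X := fun n => Nat.rec x0 (fun n x => nxt n x) n
  have hu0 : u 0 = x0 := rfl
  have hu : ∀ n, u (n + 1) = nxt n (u n) := fun n => rfl
  have hmem : ∀ n k, u (n + k) ∈ S (u n) := by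
    intro n k
    induction k with
    | zero => exact hself _
    | succ k ih =>
      rw [← add_assoc, hu]
      exact htrans _ _ ih (hnxt1 _ _)
  have hmem' : ∀ n k, n ≤ k → u k ∈ S (u n) := by
    intro n k h
    obtain ⟨j, rfl⟩ := Nat.exists_eq_add_of_le h
    exact hmem n j
  have hanti : Antitone (fun n => f (u n)) := by
    intro n k h
    have h1 := hmem' n k h
    simp only [hS, Set.mem_ofPred_eq] at h1
    have h2 : 0 ≤ ε * dist (u k) (u n) := by positivity
    simp only
    linarith
  have hlim : Tendsto (fun n => f (u n)) atTop (𝓝 (⨅ n, f (u n))) :=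
    tendsto_atTop_ciInf hanti ⟨m, by rintro _ ⟨n, rfl⟩; exact hm' _⟩
  set L := ⨅ n, f (u n) with hL
  have hLle : ∀ n, L ≤ f (u n) := fun n =>
    ciInf_le ⟨m, by rintro _ ⟨n, rfl⟩; exact hm' _⟩ n
  have hcauchy : CauchySeq u := by
    refine cauchySeq_of_le_tendsto_0 (fun n => 2 * ((f (u n) - L) / ε)) ?_ ?_
    · intro n k N hn hk
      have h1 := hmem' N n hn
      have h2 := hmem' N k hk
      simp only [hS, Set.mem_ofPred_eq] at h1 h2
      have h3 : dist (u n) (u N) ≤ (f (u N) - L) / ε := by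
        rw [le_div_iff₀ hε]
        have := hLle n
        linarith
      have h4 : dist (u k) (u N) ≤ (f (u N) - L) / ε := by
        rw [le_div_iff₀ hε]
        have := hLle k
        linarith
      have h5 : dist (u n) (u k) ≤ dist (u n) (u N) + dist (u k) (u N) := dist_triangle_right _ _ _
      linarith
    · have h1 : Tendsto (fun n => 2 * ((f (u n) - L) / ε)) atTop (𝓝 (2 * ((L - L) / ε))) :=
        ((hlim.sub_const L).div_const ε).const_mul 2
      simpa using h1
  obtain ⟨x, hx⟩ := cauchySeq_tendsto_of_complete hcauchy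
  have hxS : ∀ n, x ∈ S (u n) := by
    intro n
    simp only [hS, Set.mem_ofPred_eq]
    by_contra hcon
    push Not at hcon
    have hd : Tendsto (fun k => ε * dist (u k) (u n)) atTop (𝓝 (ε * dist x (u n))) :=
      (hx.dist tendsto_const_nhds).const_mul ε
    set δ := (f x + ε * dist x (u n) - f (u n)) / 2 with hδ
    have hδpos : 0 < δ := by
      rw [hδ]; linarith
    have e1 : ∀ᶠ k in atTop, f x - δ < f (u k) := by
      have := hf x (f x - δ) (by linarith)
      exact hx.eventually this
    have e2 : ∀ᶠ k in atTop, ε * dist x (u n) - δ < ε * dist (u k) (u n) :=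
      hd.eventually (lt_mem_nhds (by linarith))
    obtain ⟨k, hk1, hk2, hk3⟩ := (e1.and (e2.and (eventually_ge_atTop n))).exists
    have h1 := hmem' n k hk3
    simp only [hS, Set.mem_ofPred_eq] at h1
    have : f x + ε * dist x (u n) - 2 * δ < f (u n) := by linarith
    rw [hδ] at this
    linarith
  refine ⟨x, ?_, ?_⟩
  · have := hxS 0
    simpa [hS, hu0] using this
  · intro y
    by_contra hcon
    push Not at hcon
    have hyx : y ∈ S x := by
      simp only [hS, Set.mem_ofPred_eq]
      exact hcon.le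
    have hy : ∀ n, y ∈ S (u n) := fun n => htrans _ _ (hxS n) hyx
    have h1 : ∀ n, f x ≤ f y + (1 / 2 : ℝ) ^ n := by
      intro n
      have h2 := hnxt2 n (u n)
      have h3 : sInf (f '' S (u n)) ≤ f y := csInf_le (hbd _) ⟨y, hy n, rfl⟩
      have h4 := hxS (n + 1)
      simp only [hS, Set.mem_ofPred_eq] at h4
      have h5 : 0 ≤ ε * dist x (u (n + 1)) := by positivity
      rw [hu] at h4 h5
      linarith
    have h2 : Tendsto (fun n : ℕ => f y + (1 / 2 : ℝ) ^ n) atTop (𝓝 (f y + 0)) :=
      tendsto_const_nhds.add (tendsto_pow_atTop_nhds_zero_of_lt_one (by norm_num) (by norm_num))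
    have h3 : f x ≤ f y := by
      have := ge_of_tendsto' h2 h1
      simpa using this
    have h4 : 0 ≤ ε * dist y x := by positivity
    linarith

/-- Ekeland's variational principle, short form. -/
theorem ekeland {X : Type*} [MetricSpace X] [CompleteSpace X] (f : X → ℝ)
    (hf : LowerSemicontinuous f) (hb : BddBelow (Set.range f)) (x0 : X) {ε : ℝ} (hε : 0 < ε) :
    ∃ x, ∀ y, f x ≤ f y + ε * dist y x := by
  obtain ⟨x, _, hx⟩ := ekeland' f hf hb x0 hε
  exact ⟨x, hx⟩

end Vale.Agent.P171
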