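import Mathlib
import Vale.Agent.Lib.P171.Blocks

/-!
# The block decoupling bound
-/

open MeasureTheory
open scoped ENNReal

namespace Vale.Agent.P171

/-- Add `t` to the `j`-th coefficient. -/
noncomputable def addj (b : ℕ → ℝ) (j : ℕ) (t : ℝ) : ℕ → ℝ := fun i => b i + if i = j then t else 0

section
variable {b : ℕ → ℝ} {j : ℕ} {t : ℝ}

lemma addj_nonneg (hb0 : ∀ j, 0 ≤ b j) (ht : 0 ≤ t) (i : ℕ) : 0 ≤ addj b j t i := by
  unfold addj
  split_ifs
  · exact add_nonneg (hb0 i) ht
  · simpa using hb0 i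

lemma hasSum_single (j : ℕ) (t : ℝ) : HasSum (fun i : ℕ => if i = j then t else 0) t := by
  have := hasSum_ite_eq j t
  simpa using this

lemma summable_addj (hb : Summable b) : Summable (addj b j t) :=
  hb.add (hasSum_single j t).summable

lemma tsum_addj (hb : Summable b) : ∑' i, addj b j t i = ∑' i, b i + t := by
  unfold addj
  rw [hb.tsum_add (hasSum_single j t).summable, (hasSum_single j t).tsum_eq]

lemma va_addj (hb0 : ∀ j, 0 ≤ b j) (hb : Summable b) (r : ℝ) :
    va (addj b j t) r = va b r + t * ww j r := by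
  unfold va addj
  have h : HasSum (fun i : ℕ => (if i = j then t else 0) * ww i r) (t * ww j r) := by
    have h1 := hasSum_ite_eq j (t * ww j r)
    refine h1.congr_fun ?_ |> fun h => h
    intro i
    by_cases hi : i = j
    · subst hi; simp
    · simp [hi]
  simp_rw [add_mul]
  rw [(summable_b_ww hb0 hb r).tsum_add h.summable, h.tsum_eq]

end

open Classical in
/-- Block-level majorant. -/
noncomputable def Wl (M : ℕ) (w : ℝ) (o o' : Option Z3) : ℝ :=
  if ∃ c c' : Z3, o = some c ∧ o' = some c' ∧ ∀ i, |c i - c' i| ≤ (M : ℤ) + 1 then w else 0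

lemma Wl_nonneg {M : ℕ} {w : ℝ} (hw : 0 ≤ w) (o o' : Option Z3) : 0 ≤ Wl M w o o' := by
  unfold Wl; split_ifs
  · exact hw
  · exact le_rfl

lemma Wl_symm {M : ℕ} {w : ℝ} (o o' : Option Z3) : Wl M w o o' = Wl M w o' o := by
  unfold Wl
  congr 1
  refine propext ⟨?_, ?_⟩
  · rintro ⟨c, c', h1, h2, h3⟩
    exact ⟨c', c, h2, h1, fun i => by rw [abs_sub_comm]; exact h3 i⟩
  · rintro ⟨c, c', h1, h2, h3⟩
    exact ⟨c', c, h2, h1, fun i => by rw [abs_sub_comm]; exact h3 i⟩

lemma sum_Wl_none {M : ℕ} {w : ℝ} (T : Finset (Option Z3)) : ∑ o' ∈ T, Wl M w none o' = 0 := by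
  refine Finset.sum_eq_zero fun o' _ => ?_
  unfold Wl
  rw [if_neg]
  rintro ⟨c, c', h, _⟩
  exact absurd h (by simp)

lemma sum_Wl_some {M : ℕ} {w : ℝ} (hw : 0 ≤ w) (T : Finset (Option Z3)) (c : Z3) :
    ∑ o' ∈ T, Wl M w (some c) o' ≤ w * ((2 * M + 3 : ℕ) : ℝ) ^ 3 := by
  classical
  set S : Finset (Option Z3) :=
    (Finset.Icc (fun i => c i - (M + 1)) (fun i => c i + (M + 1))).image some with hS
  have hcard : S.card ≤ (2 * M + 3) ^ 3 := by
    refine Finset.card_image_le.trans ?_
    refine card_box_le _ (fun i => c i - (M + 1)) (fun i => c i + (M + 1)) _ (fun i => ?_)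
      (fun q hq i => ?_)
    · push_cast; ring
    · rw [Finset.mem_Icc] at hq
      exact ⟨hq.1 i, hq.2 i⟩
  have h1 : ∀ o' ∈ T, Wl M w (some c) o' ≤ if o' ∈ S then w else 0 := by
    intro o' _
    unfold Wl
    split_ifs with h h'
    · exact le_rfl
    · exfalso
      apply h'
      obtain ⟨c0, c', h1, h2, h3⟩ := h
      rw [hS, Finset.mem_image]
      refine ⟨c', ?_, h2.symm⟩
      rw [Option.some.inj h1]
      rw [Finset.mem_Icc]
      constructor
      · intro i; have := abs_le.mp (h3 i); simp only; omega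
      · intro i; have := abs_le.mp (h3 i); simp only; omega
    · exact hw
    · exact le_rfl
  refine (Finset.sum_le_sum h1).trans ?_
  rw [← Finset.sum_filter, Finset.sum_const, nsmul_eq_mul, mul_comm]
  refine mul_le_mul_of_nonneg_left ?_ hw
  have h2 : (T.filter (fun o' => o' ∈ S)).card ≤ (2 * M + 3) ^ 3 :=
    (Finset.card_le_card (fun o ho => (Finset.mem_filter.mp ho).2)).trans hcard
  exact_mod_cast h2

/-- The decoupled kernel. -/
noncomputable def KK (b : ℕ → ℝ) (p l : ℕ) (A s θ : ℝ) (x y : V3) : ℝ :=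
  if lab p l x = lab p l y then
    (if lab p l x = none then -phi0 (dist x y) + A * dl x y
      else gk b x y + s + θ * dl x y)
  else 0

/-- The auxiliary cell kernel. -/
noncomputable def Vc (b : ℕ → ℝ) (j : ℕ) (t : ℝ) (p l m : ℕ) (q q' : Z3) : ℝ :=
  if qlab p l q ≠ none ∧ qlab p l q' ≠ none then VV (trunc m b) q q' else VV b q q' + t * WW j q q'

section
variable {b : ℕ → ℝ} {j : ℕ} {t : ℝ} {p l m M : ℕ}

lemma Vc_nonneg (hb0 : ∀ j, 0 ≤ b j) (ht : 0 ≤ t) (q q' : Z3) : 0 ≤ Vc b j t p l m q q' := by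
  unfold Vc
  split_ifs
  · exact VV_nonneg (trunc_nonneg hb0 m) _ _
  · exact add_nonneg (VV_nonneg hb0 _ _) (mul_nonneg ht (WW_nonneg _ _ _))

lemma Vc_symm (q q' : Z3) : Vc b j t p l m q q' = Vc b j t p l m q' q := by
  unfold Vc
  by_cases h : qlab p l q ≠ none ∧ qlab p l q' ≠ none
  · rw [if_pos h, if_pos h.symm, VV_symm]
  · rw [if_neg h, if_neg (fun h' => h h'.symm), VV_symm, WW_symm]

lemma sum_Vc_bulk (hb0 : ∀ j, 0 ≤ b j) (hb : Summable b) (ht : 0 ≤ t) {η : ℝ} (hη : 0 < η)
    (T : Finset Z3) {q : Z3} (hq : qlab p l q ≠ none) :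
    ∑ q' ∈ T, Vc b j t p l m q q' * (if qlab p l q' ≠ none then 1 else η) ≤
      27 * ∑' i, trunc m b i + η * (27 * (∑' i, b i + t)) := by
  have h1 : ∀ q' ∈ T, Vc b j t p l m q q' * (if qlab p l q' ≠ none then 1 else η) ≤
      VV (trunc m b) q q' + η * (VV b q q' + t * WW j q q') := by
    intro q' _
    have a1 := VV_nonneg (trunc_nonneg hb0 m) q q'
    have a2 : 0 ≤ VV b q q' + t * WW j q q' :=
      add_nonneg (VV_nonneg hb0 _ _) (mul_nonneg ht (WW_nonneg _ _ _))
    have a3 := mul_nonneg hη.le a2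
    unfold Vc
    by_cases hq' : qlab p l q' ≠ none
    · rw [if_pos ⟨hq, hq'⟩, if_pos hq']; linarith
    · rw [if_neg (fun h => hq' h.2), if_neg hq']; linarith
  refine (Finset.sum_le_sum h1).trans ?_
  rw [Finset.sum_add_distrib, ← Finset.mul_sum, Finset.sum_add_distrib, ← Finset.mul_sum]
  have h2 := sum_VV (trunc_nonneg hb0 m) (summable_trunc hb0 hb m) T q
  have h3 := sum_VV hb0 hb T q
  have h4 := mul_le_mul_of_nonneg_left (sum_WW j T q) ht
  have h5 : η * (∑ q' ∈ T, VV b q q' + t * ∑ q' ∈ T, WW j q q') ≤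
      η * (27 * (∑' i, b i + t)) := mul_le_mul_of_nonneg_left (by linarith) hη.le
  linarith

lemma sum_Vc_layer (hb0 : ∀ j, 0 ≤ b j) (hb : Summable b) (ht : 0 ≤ t) {η : ℝ}
    (hη1 : η ≤ 1) (T : Finset Z3) {q : Z3} (hq : qlab p l q = none) :
    ∑ q' ∈ T, Vc b j t p l m q q' * (if qlab p l q' ≠ none then 1 else η) ≤
      27 * (∑' i, b i + t) := by
  have h1 : ∀ q' ∈ T, Vc b j t p l m q q' * (if qlab p l q' ≠ none then 1 else η) ≤
      VV b q q' + t * WW j q q' := by
    intro q' _
    have a2 : 0 ≤ VV b q q' + t * WW j q q' :=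
      add_nonneg (VV_nonneg hb0 _ _) (mul_nonneg ht (WW_nonneg _ _ _))
    unfold Vc
    rw [if_neg (fun h => h.1 hq)]
    calc (VV b q q' + t * WW j q q') * (if qlab p l q' ≠ none then 1 else η)
        ≤ (VV b q q' + t * WW j q q') * 1 := by
          refine mul_le_mul_of_nonneg_left ?_ a2
          split_ifs
          · exact le_rfl
          · exact hη1
      _ = _ := mul_one _
  refine (Finset.sum_le_sum h1).trans ?_
  rw [Finset.sum_add_distrib, ← Finset.mul_sum]
  have h3 := sum_VV hb0 hb T q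
  have h4 := mul_le_mul_of_nonneg_left (sum_WW j T q) ht
  linarith

/-- Pointwise kernel bound. -/
lemma kernel_le (hb0 : ∀ j, 0 ≤ b j) (hb : Summable b) (ht : 0 ≤ t)
    (hp : 1 ≤ p) (hlm : l + m ≤ p) (hM : RR j = p * M) (x y : V3) :
    gk (addj b j t) x y ≤
      (if lab p l x = lab p l y then (if lab p l x = none then -phi0 (dist x y) else gk b x y)
        else 0) +
      t * Wl M ((RR j : ℝ) ^ 3)⁻¹ (lab p l x) (lab p l y) +
      Vc b j t p l m (cell x) (cell y) := by
  have hw : 0 ≤ ((RR j : ℝ) ^ 3)⁻¹ := by positivity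
  have e1 : gk (addj b j t) x y = gk b x y + t * ww j (dist x y) := by
    unfold gk; rw [va_addj hb0 hb]; ring
  rw [e1]
  have f1 : 0 ≤ phi0 (dist x y) := phi0_nonneg
  have f2 := va_le_VV hb0 hb x y
  have f3 := mul_le_mul_of_nonneg_left (ww_le_WW j x y) ht
  have f4 := Vc_nonneg (p := p) (l := l) (m := m) (j := j) hb0 ht (cell x) (cell y)
  have f5 := mul_nonneg ht (Wl_nonneg (M := M) hw (lab p l x) (lab p l y))
  -- the long-range piece between bulk points
  have hbulk : ∀ c c', lab p l x = some c → lab p l y = some c' →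
      t * ww j (dist x y) ≤ t * Wl M ((RR j : ℝ) ^ 3)⁻¹ (lab p l x) (lab p l y) := by
    intro c c' hc hc'
    refine mul_le_mul_of_nonneg_left ?_ ht
    refine (ww_le_WW j x y).trans ?_
    unfold WW
    split_ifs with h
    · unfold Wl
      rw [if_pos]
      refine ⟨c, c', hc, hc', fun i => ?_⟩
      have hi := h i
      unfold lab at hc hc'
      rw [qlab_some] at hc hc'
      have hp0 : (0 : ℤ) < p := by exact_mod_cast hp
      have a2 := hc.2 i
      have b2 := hc'.2 i
      have a3 := Int.mul_ediv_add_emod (cell x i) p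
      have b3 := Int.mul_ediv_add_emod (cell y i) p
      have a4 := Int.emod_nonneg (cell x i) hp0.ne'
      have b4 := Int.emod_nonneg (cell y i) hp0.ne'
      have a5 := Int.emod_lt_of_pos (cell x i) hp0
      have b5 := Int.emod_lt_of_pos (cell y i) hp0
      rw [a2] at a3
      rw [b2] at b3
      have hM' : ((RR j : ℕ) : ℤ) = p * M := by exact_mod_cast hM
      rw [hM'] at hi
      obtain ⟨h1, h2⟩ := abs_le.mp hi
      rw [abs_le]
      constructor
      · by_contra hcon
        push Not at hcon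
        have : (p : ℤ) * (c i + M + 2) ≤ p * c' i := mul_le_mul_of_nonneg_left (by omega) hp0.le
        nlinarith
      · by_contra hcon
        push Not at hcon
        have : (p : ℤ) * (c' i + M + 2) ≤ p * c i := mul_le_mul_of_nonneg_left (by omega) hp0.le
        nlinarith
    · exact Wl_nonneg hw _ _
  by_cases hl : lab p l x = lab p l y
  · rw [if_pos hl]
    by_cases hn : lab p l x = none
    · rw [if_pos hn]
      have hv : Vc b j t p l m (cell x) (cell y) =
          VV b (cell x) (cell y) + t * WW j (cell x) (cell y) := by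
        unfold Vc
        rw [if_neg (fun h => h.1 hn)]
      rw [hv]
      unfold gk
      linarith
    · rw [if_neg hn]
      obtain ⟨c, hc⟩ := Option.ne_none_iff_exists'.mp hn
      have := hbulk c c hc (hl ▸ hc)
      linarith
  · rw [if_neg hl]
    by_cases hb' : lab p l x ≠ none ∧ lab p l y ≠ none
    · obtain ⟨c, hc⟩ := Option.ne_none_iff_exists'.mp hb'.1
      obtain ⟨c', hc'⟩ := Option.ne_none_iff_exists'.mp hb'.2
      have h1 := hbulk c c' hc hc'
      have hne : c ≠ c' := fun h => hl (by rw [hc, hc', h])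
      have h2 := sep_of_ne hp hlm hc hc' hne
      have hv : Vc b j t p l m (cell x) (cell y) = VV (trunc m b) (cell x) (cell y) := by
        unfold Vc
        exact if_pos hb'
      rw [hv, ← VV_trunc_eq m h2]
      unfold gk
      linarith
    · have hv : Vc b j t p l m (cell x) (cell y) =
          VV b (cell x) (cell y) + t * WW j (cell x) (cell y) := by
        unfold Vc
        exact if_neg hb'
      rw [hv]
      unfold gk
      linarith

/-- Summed kernel bound. -/
lemma sum_kernel_le (hb0 : ∀ j, 0 ≤ b j) (hb : Summable b) (ht : 0 ≤ t)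
    (hp : 1 ≤ p) (hlm : l + m ≤ p) (hM : RR j = p * M) (hM3 : 3 ≤ M) {η θ A : ℝ} (hη : 0 < η)
    (hη1 : η ≤ 1) (hθ : 27 * ∑' i, trunc m b i + η * (27 * (∑' i, b i + t)) ≤ θ)
    (hA : 27 * (∑' i, b i + t) ≤ A * η) {ι : Type} [Fintype ι] (x : ι → V3) :
    ∑ i, ∑ i', gk (addj b j t) (x i) (x i') ≤
      ∑ i, ∑ i', KK b p l A (t * (27 / (p : ℝ) ^ 3)) θ (x i) (x i') := by
  classical
  have hw : 0 ≤ ((RR j : ℝ) ^ 3)⁻¹ := by positivity
  have hp0 : (0 : ℝ) < p := by exact_mod_cast hp
  have s1 := schur (fun i => lab p l (x i)) (Wl M ((RR j : ℝ) ^ 3)⁻¹) (fun _ => 1)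
    (fun o => if o = none then 0 else 27 / (p : ℝ) ^ 3) (Wl_nonneg hw) Wl_symm
    (fun _ => one_pos) (by
      intro T o
      simp only [mul_one]
      split_ifs with ho
      · rw [ho, sum_Wl_none]
      · obtain ⟨c, hc⟩ := Option.ne_none_iff_exists'.mp ho
        rw [hc]
        refine (sum_Wl_some hw T c).trans ?_
        have hM0 : (3 : ℝ) ≤ M := by exact_mod_cast hM3
        rw [hM]
        push_cast
        rw [mul_pow, inv_mul_le_iff₀ (by positivity)]
        calc (2 * (M : ℝ) + 3) ^ 3 ≤ (3 * (M : ℝ)) ^ 3 := by gcongr; linarith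
          _ = (p : ℝ) ^ 3 * (M : ℝ) ^ 3 * (27 / (p : ℝ) ^ 3) := by field_simp; ring)
  have s2 := schur (fun i => cell (x i)) (Vc b j t p l m)
    (fun q => if qlab p l q ≠ none then 1 else η)
    (fun q => if qlab p l q ≠ none then θ else A) (Vc_nonneg hb0 ht) Vc_symm
    (fun q => by split_ifs <;> linarith) (by
      intro T q
      by_cases hq : qlab p l q ≠ none
      · simp only [if_pos hq, mul_one]
        exact (sum_Vc_bulk hb0 hb ht hη T hq).trans hθ
      · simp only [if_neg hq]
        push Not at hq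
        exact (sum_Vc_layer hb0 hb ht hη1 T hq).trans hA)
  have s3 : ∑ i, ∑ i', gk (addj b j t) (x i) (x i') ≤ ∑ i, ∑ i',
      ((if lab p l (x i) = lab p l (x i') then
        (if lab p l (x i) = none then -phi0 (dist (x i) (x i')) else gk b (x i) (x i')) else 0) +
      t * Wl M ((RR j : ℝ) ^ 3)⁻¹ (lab p l (x i)) (lab p l (x i')) +
      Vc b j t p l m (cell (x i)) (cell (x i'))) :=
    Finset.sum_le_sum fun i _ => Finset.sum_le_sum fun i' _ =>
      kernel_le hb0 hb ht hp hlm hM (x i) (x i')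
  refine s3.trans ?_
  simp_rw [Finset.sum_add_distrib, ← Finset.mul_sum]
  have s4 : t * ∑ i, ∑ i', Wl M ((RR j : ℝ) ^ 3)⁻¹ (lab p l (x i)) (lab p l (x i')) ≤
      t * ∑ i, ∑ i', (if lab p l (x i) = lab p l (x i') then
        (if lab p l (x i) = none then 0 else 27 / (p : ℝ) ^ 3) else 0) :=
    mul_le_mul_of_nonneg_left s1 ht
  have s5 : ∑ i, ∑ i', KK b p l A (t * (27 / (p : ℝ) ^ 3)) θ (x i) (x i') =
      ∑ i, ∑ i', (if lab p l (x i) = lab p l (x i') then
        (if lab p l (x i) = none then -phi0 (dist (x i) (x i')) else gk b (x i) (x i')) else 0) +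
      t * ∑ i, ∑ i', (if lab p l (x i) = lab p l (x i') then
        (if lab p l (x i) = none then 0 else 27 / (p : ℝ) ^ 3) else 0) +
      ∑ i, ∑ i', (if cell (x i) = cell (x i') then
        (if qlab p l (cell (x i)) ≠ none then θ else A) else 0) := by
    rw [Finset.mul_sum]
    simp_rw [Finset.mul_sum]
    rw [← Finset.sum_add_distrib, ← Finset.sum_add_distrib]
    refine Finset.sum_congr rfl fun i _ => ?_
    rw [← Finset.sum_add_distrib, ← Finset.sum_add_distrib]
    refine Finset.sum_congr rfl fun i' _ => ?_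
    unfold KK dl
    by_cases hc : cell (x i) = cell (x i')
    · have hl : lab p l (x i) = lab p l (x i') := by unfold lab; rw [hc]
      rw [if_pos hl, if_pos hc, if_pos hl, if_pos hl, if_pos hc]
      by_cases hn : lab p l (x i) = none
      · rw [if_pos hn, if_pos hn, if_pos hn, if_neg (not_not.mpr (by exact hn))]; ring
      · rw [if_neg hn, if_neg hn, if_neg hn, if_pos (by exact hn)]; ring
    · rw [if_neg hc, if_neg hc]
      by_cases hl : lab p l (x i) = lab p l (x i')
      · rw [if_pos hl, if_pos hl, if_pos hl]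
        by_cases hn : lab p l (x i) = none
        · rw [if_pos hn, if_pos hn, if_pos hn]; ring
        · rw [if_neg hn, if_neg hn, if_neg hn]; ring
      · rw [if_neg hl, if_neg hl, if_neg hl]; ring
  rw [s5]
  simp_rw [Finset.mul_sum] at s4 ⊢
  linarith

end

end Vale.Agent.P171
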