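import Mathlib
import Vale.Agent.Lib.P171.Upper

/-!
# Upper block bound and superadditivity for grand partition functions
-/

open MeasureTheory
open scoped ENNReal

namespace Vale.Agent.P171

lemma measurableSet_cell2 (P : Z3 → Z3 → Prop) :
    MeasurableSet {x : V3 × V3 | P (cell x.1) (cell x.2)} := by
  have h : {x : V3 × V3 | P (cell x.1) (cell x.2)} =
      (fun x : V3 × V3 => (cell x.1, cell x.2)) ⁻¹' {q | P q.1 q.2} := rfl
  rw [h]
  have hm : Measurable (fun x : V3 × V3 => (cell x.1, cell x.2)) :=
    (measurable_cell.comp measurable_fst).prodMk (measurable_cell.comp measurable_snd)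
  exact hm (Set.to_countable _).measurableSet

lemma measurable_dl : Measurable (Function.uncurry dl) := by
  unfold dl Function.uncurry
  exact Measurable.ite (measurableSet_cell2 fun q q' => q = q') measurable_const measurable_const

lemma measurable_phi0_dist : Measurable (fun x : V3 × V3 => phi0 (dist x.1 x.2)) :=
  measurable_phi0.comp measurable_dist

variable {b : ℕ → ℝ} {j : ℕ} {t : ℝ} {p l m M k : ℕ} {μ : ℝ}

lemma measurable_KK (hb0 : ∀ j, 0 ≤ b j) (hb : Summable b) (p l : ℕ) (A s θ : ℝ) :
    Measurable (Function.uncurry (KK b p l A s θ)) := by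
  unfold KK Function.uncurry
  refine Measurable.ite (measurableSet_cell2 fun q q' => qlab p l q = qlab p l q') ?_
    measurable_const
  refine Measurable.ite (measurableSet_cell2 fun q _ => qlab p l q = none) ?_ ?_
  · exact measurable_phi0_dist.neg.add (measurable_dl.const_mul A)
  · exact ((measurable_gk hb0 hb).add_const s).add (measurable_dl.const_mul θ)

/-- All labels occurring in the big box. -/
noncomputable def labels (k : ℕ) : Finset (Option Z3) := Finset.insertNone (blk k)

lemma mem_labels (hp : 1 ≤ p) (hl : l ≤ p) {x : V3} (hx : x ∈ bx (k * p)) :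
    lab p l x ∈ labels k := by
  unfold labels
  rcases h : lab p l x with _ | c
  · exact Finset.none_mem_insertNone
  · rw [Finset.some_mem_insertNone]
    exact mem_blk_of_lab hp hl hx h

theorem upper_G (hb0 : ∀ j, 0 ≤ b j) (hb : Summable b) (ht : 0 ≤ t)
    (hp : 1 ≤ p) (hlm : l + m ≤ p) (hM : RR j = p * M) (hM3 : 3 ≤ M) {η θ A : ℝ} (hη : 0 < η)
    (hη1 : η ≤ 1) (hθ : 27 * ∑' i, trunc m b i + η * (27 * (∑' i, b i + t)) ≤ θ)
    (hA : 27 * (∑' i, b i + t) ≤ A * η) {C : ℝ}
    (hC : ∀ D : Set V3, MeasurableSet D → volume D ≠ ∞ →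
      G D μ (fun x y => -phi0 (dist x y) + A * dl x y) ≤
        ENNReal.ofReal (Real.exp (C * (volume D).toReal))) :
    G (bx (k * p)) μ (gk (addj b j t)) ≤
      ENNReal.ofReal (Real.exp (C * ((k : ℝ) ^ 3 * ((p : ℝ) ^ 3 - (l : ℝ) ^ 3)))) *
        G (bx l) μ (fun x y => gk b x y + t * (27 / (p : ℝ) ^ 3) + θ * dl x y) ^ (k ^ 3) := by
  have hl : l ≤ p := by omega
  set s : ℝ := t * (27 / (p : ℝ) ^ 3) with hs
  calc G (bx (k * p)) μ (gk (addj b j t)) ≤ G (bx (k * p)) μ (KK b p l A s θ) := by
        refine G_mono_expo fun N x _ => ?_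
        have := sum_kernel_le hb0 hb ht hp hlm hM hM3 hη hη1 hθ hA x
        unfold expo
        linarith
    _ = ∏ o ∈ labels k, G (bx (k * p) ∩ {x | lab p l x = o}) μ (KK b p l A s θ) := by
        refine G_labels (lab p l) (measurable_KK hb0 hb p l A s θ) ?_ (measurableSet_lab p l)
          (labels k) (bx (k * p)) (measurableSet_bx _) (fun x hx => mem_labels hp hl hx)
        intro x y hxy
        unfold KK
        rw [if_neg hxy]
    _ ≤ ENNReal.ofReal (Real.exp (C * ((k : ℝ) ^ 3 * ((p : ℝ) ^ 3 - (l : ℝ) ^ 3)))) *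
        ∏ _c ∈ blk k, G (bx l) μ (fun x y => gk b x y + s + θ * dl x y) := by
        unfold labels
        rw [Finset.prod_insertNone]
        gcongr with c hc
        · have hm : MeasurableSet (bx (k * p) ∩ {x | lab p l x = none}) :=
            (measurableSet_bx _).inter (measurableSet_lab p l none)
          have hfin : volume (bx (k * p) ∩ {x | lab p l x = none}) ≠ ∞ :=
            ((measure_mono Set.inter_subset_left).trans_lt (volume_bx_ne_top _).lt_top).ne
          rw [← volume_layer hp hl]
          refine le_trans (le_of_eq ?_) (hC _ hm hfin)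
          refine G_congr_kernel ?_
          rintro x ⟨_, hx⟩ y ⟨_, hy⟩
          simp only [Set.mem_ofPred_eq] at hx hy
          unfold KK
          rw [if_pos (by rw [hx, hy]), if_pos hx]
        · rw [← G_block hp hl hc μ (fun x y => gk b x y + s + θ * dl x y) (fun x y => by
            simp only [gk_translate, dl_translate])]
          refine le_of_eq (G_congr_kernel ?_)
          rintro x ⟨_, hx⟩ y ⟨_, hy⟩
          simp only [Set.mem_ofPred_eq] at hx hy
          unfold KK
          rw [if_pos (by rw [hx, hy]), if_neg (by rw [hx]; simp)]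
    _ = _ := by rw [Finset.prod_const, card_blk]

/-- Superadditivity. -/
theorem super_G (hb0 : ∀ j, 0 ≤ b j) (hb : Summable b) (l k : ℕ) (μ : ℝ) :
    G (bx l) μ (gk b) ^ (k ^ 3) ≤ G (bx (k * (l + 2))) μ (gk b) := by
  set p := l + 2 with hp'
  have hp : 1 ≤ p := by omega
  have hl : l ≤ p := by omega
  set K2 : V3 → V3 → ℝ := fun x y => if lab p l x = lab p l y then gk b x y else 0 with hK2
  have hmK : Measurable (Function.uncurry K2) := by
    rw [hK2]
    unfold Function.uncurry
    exact Measurable.ite (measurableSet_cell2 fun q q' => qlab p l q = qlab p l q')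
      (measurable_gk hb0 hb) measurable_const
  set B : Set V3 := bx (k * p) ∩ {x | lab p l x ≠ none} with hB
  have hmB : MeasurableSet B :=
    (measurableSet_bx _).inter (measurableSet_lab p l none).compl
  calc G (bx l) μ (gk b) ^ (k ^ 3) = ∏ _c ∈ blk k, G (bx l) μ (gk b) := by
        rw [Finset.prod_const, card_blk]
    _ = ∏ o ∈ (blk k).map Function.Embedding.some, G (B ∩ {x | lab p l x = o}) μ K2 := by
        rw [Finset.prod_map]
        refine Finset.prod_congr rfl fun c hc => ?_
        rw [← G_block hp hl hc μ (gk b) (fun x y => gk_translate b _ x y)]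
        have : B ∩ {x | lab p l x = Function.Embedding.some c} =
            bx (k * p) ∩ {x | lab p l x = some c} := by
          ext x
          simp only [hB, Set.mem_inter_iff, Set.mem_ofPred_eq, Function.Embedding.some_apply]
          constructor
          · rintro ⟨⟨h1, _⟩, h3⟩; exact ⟨h1, h3⟩
          · rintro ⟨h1, h3⟩; exact ⟨⟨h1, by rw [h3]; simp⟩, h3⟩
        rw [this]
        refine G_congr_kernel ?_
        rintro x ⟨_, hx⟩ y ⟨_, hy⟩
        simp only [Set.mem_ofPred_eq] at hx hy
        simp only [hK2]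
        rw [if_pos (by rw [hx, hy])]
    _ = G B μ K2 := by
        refine (G_labels (lab p l) hmK ?_ (measurableSet_lab p l) _ B hmB ?_).symm
        · intro x y hxy
          simp only [hK2]
          rw [if_neg hxy]
        · rintro x ⟨hx, hx'⟩
          simp only [Set.mem_ofPred_eq] at hx'
          obtain ⟨c, hc⟩ := Option.ne_none_iff_exists'.mp hx'
          rw [hc]
          exact Finset.mem_map.mpr ⟨c, mem_blk_of_lab hp hl hx hc, rfl⟩
    _ ≤ G B μ (gk b) := by
        refine G_mono_kernel ?_
        rintro x ⟨_, hx⟩ y ⟨_, hy⟩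
        simp only [Set.mem_ofPred_eq] at hx hy
        simp only [hK2]
        split_ifs with h
        · exact le_rfl
        · obtain ⟨c, hc⟩ := Option.ne_none_iff_exists'.mp hx
          obtain ⟨c', hc'⟩ := Option.ne_none_iff_exists'.mp hy
          have hne : c ≠ c' := fun h' => h (by rw [hc, hc', h'])
          obtain ⟨i, hi⟩ := sep_of_ne (m := 2) hp (by omega) hc hc' hne
          have hd : 2 ≤ dist x y := by
            by_contra hcon
            push Not at hcon
            have h1 : |x i - y i| < 2 := (abs_sub_le_dist x y i).trans_lt hcon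
            have h2 : |x i - y i| ≤ ((1 : ℕ) : ℝ) ∨ ((1 : ℕ) : ℝ) < |x i - y i| := le_or_gt _ _
            unfold cell at hi
            have e1 := Int.floor_le (x i)
            have e2 := Int.lt_floor_add_one (x i)
            have e3 := Int.floor_le (y i)
            have e4 := Int.lt_floor_add_one (y i)
            have hi' : ((2 : ℕ) : ℤ) + 1 ≤ |⌊x i⌋ - ⌊y i⌋| := hi
            rw [le_abs] at hi'
            obtain ⟨g1, g2⟩ := abs_lt.mp h1
            rcases hi' with hi' | hi'
            · have : (3 : ℝ) ≤ (⌊x i⌋ : ℝ) - ⌊y i⌋ := by exact_mod_cast hi'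
              linarith
            · have : (3 : ℝ) ≤ -((⌊x i⌋ : ℝ) - ⌊y i⌋) := by exact_mod_cast hi'
              linarith
          unfold gk
          rw [phi0_of_two_le hd, neg_zero, zero_add]
          exact va_nonneg hb0 _
    _ ≤ G (bx (k * p)) μ (gk b) := G_mono_set Set.inter_subset_left

/-- A priori bound with the attractive tails. -/
theorem G_gkc_le (hb0 : ∀ j, 0 ≤ b j) (hb : Summable b) (μ c : ℝ) :
    ∃ C : ℝ, 0 ≤ C ∧ ∀ D : Set V3, MeasurableSet D → volume D ≠ ∞ →
      G D μ (fun x y => gk b x y + c * dl x y) ≤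
        ENNReal.ofReal (Real.exp (C * (volume D).toReal)) := by
  obtain ⟨C, hC0, hC⟩ := G_apriori μ (27 * (∑' i, b i) + c)
  refine ⟨C, hC0, fun D hD hfin => le_trans (G_mono_expo fun N x _ => ?_) (hC D hD hfin)⟩
  have h1 := schur_const (fun i => cell (x i)) (VV b) (27 * ∑' i, b i) (VV_nonneg hb0)
    VV_symm (fun T q => sum_VV hb0 hb T q)
  have h2 : ∑ i, ∑ i', va b (dist (x i) (x i')) ≤ ∑ i, ∑ i', VV b (cell (x i)) (cell (x i')) :=
    Finset.sum_le_sum fun i _ => Finset.sum_le_sum fun i' _ => va_le_VV hb0 hb _ _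
  have h3 : ∑ i, ∑ i', (if cell (x i) = cell (x i') then (1 : ℝ) else 0) =
      ∑ i, ∑ i', dl (x i) (x i') := rfl
  rw [h3] at h1
  unfold expo gk
  simp_rw [Finset.sum_add_distrib, ← Finset.mul_sum]
  linarith

end Vale.Agent.P171
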