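import Mathlib
import Vale.Agent.Lib.P171.Press

/-!
# The pressure as a limit
-/

open MeasureTheory Filter Topology
open scoped ENNReal

namespace Vale.Agent.P171

/-- Finite-volume log partition function. -/
noncomputable def FF (b : ℕ → ℝ) (μ : ℝ) (n : ℕ) : ℝ := Real.log (G (bx n) μ (gk b)).toReal

/-- The (diagonal-included) pressure. -/
noncomputable def PP (b : ℕ → ℝ) (μ : ℝ) : ℝ := ⨆ n : ℕ, FF b μ n / ((n : ℝ) + 2) ^ 3

lemma log_le_of_le_ofReal_exp {a : ℝ≥0∞} {c : ℝ} (h1 : 1 ≤ a) (h : a ≤ ENNReal.ofReal (Real.exp c)) :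
    Real.log a.toReal ≤ c := by
  have h2 : a.toReal ≤ Real.exp c := by
    rw [← ENNReal.toReal_ofReal (Real.exp_pos c).le]
    exact ENNReal.toReal_mono ENNReal.ofReal_ne_top h
  have h3 : 0 < a.toReal := by
    refine ENNReal.toReal_pos (by intro h0; rw [h0] at h1; simp at h1) ?_
    exact ne_top_of_le_ne_top ENNReal.ofReal_ne_top h
  calc Real.log a.toReal ≤ Real.log (Real.exp c) := Real.log_le_log h3 h2
    _ = c := Real.log_exp c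

lemma le_ofReal_exp_log {a : ℝ≥0∞} (h1 : 1 ≤ a) (ht : a ≠ ∞) :
    a = ENNReal.ofReal (Real.exp (Real.log a.toReal)) := by
  have h3 : 0 < a.toReal := by
    refine ENNReal.toReal_pos (by intro h0; rw [h0] at h1; simp at h1) ht
  rw [Real.exp_log h3, ENNReal.ofReal_toReal ht]

variable {b : ℕ → ℝ} {μ : ℝ}

lemma G_gk_fin (hb0 : ∀ j, 0 ≤ b j) (hb : Summable b) {D : Set V3} (hD : MeasurableSet D)
    (hfin : volume D ≠ ∞) : G D μ (gk b) ≠ ∞ := by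
  obtain ⟨C, _, hC⟩ := G_gkc_le hb0 hb μ 0
  have h := hC D hD hfin
  simp only [zero_mul, add_zero] at h
  exact ne_top_of_le_ne_top ENNReal.ofReal_ne_top h

lemma one_le_toReal {a : ℝ≥0∞} (h1 : 1 ≤ a) (ht : a ≠ ∞) : 1 ≤ a.toReal := by
  rw [← ENNReal.toReal_one]
  exact ENNReal.toReal_mono ht h1

lemma FF_nonneg (hb0 : ∀ j, 0 ≤ b j) (hb : Summable b) (n : ℕ) : 0 ≤ FF b μ n :=
  Real.log_nonneg (one_le_toReal one_le_G (G_gk_fin hb0 hb (measurableSet_bx n)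
    (volume_bx_ne_top n)))

lemma FF_le (hb0 : ∀ j, 0 ≤ b j) (hb : Summable b) (μ : ℝ) :
    ∃ C : ℝ, 0 ≤ C ∧ ∀ n : ℕ, FF b μ n ≤ C * (n : ℝ) ^ 3 := by
  obtain ⟨C, hC0, hC⟩ := G_gkc_le hb0 hb μ 0
  refine ⟨C, hC0, fun n => ?_⟩
  have h := hC (bx n) (measurableSet_bx n) (volume_bx_ne_top n)
  simp only [zero_mul, add_zero, volume_bx_toReal] at h
  exact log_le_of_le_ofReal_exp one_le_G h

lemma bddAbove_FF (hb0 : ∀ j, 0 ≤ b j) (hb : Summable b) (μ : ℝ) :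
    BddAbove (Set.range fun n : ℕ => FF b μ n / ((n : ℝ) + 2) ^ 3) := by
  obtain ⟨C, hC0, hC⟩ := FF_le hb0 hb μ
  refine ⟨C, ?_⟩
  rintro _ ⟨n, rfl⟩
  have hn : (0 : ℝ) ≤ n := Nat.cast_nonneg n
  simp only
  rw [div_le_iff₀ (by positivity)]
  calc FF b μ n ≤ C * (n : ℝ) ^ 3 := hC n
    _ ≤ C * ((n : ℝ) + 2) ^ 3 := by gcongr; linarith

lemma FF_le_PP (hb0 : ∀ j, 0 ≤ b j) (hb : Summable b) (μ : ℝ) (n : ℕ) :
    FF b μ n ≤ PP b μ * ((n : ℝ) + 2) ^ 3 := by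
  have h := le_ciSup (bddAbove_FF hb0 hb μ) n
  rw [div_le_iff₀ (by positivity)] at h
  exact h

lemma PP_nonneg (hb0 : ∀ j, 0 ≤ b j) (hb : Summable b) (μ : ℝ) : 0 ≤ PP b μ := by
  have h := le_ciSup (bddAbove_FF hb0 hb μ) 0
  refine le_trans ?_ h
  have := FF_nonneg (μ := μ) hb0 hb 0
  positivity

lemma G_le_PP (hb0 : ∀ j, 0 ≤ b j) (hb : Summable b) (μ : ℝ) (n : ℕ) :
    G (bx n) μ (gk b) ≤ ENNReal.ofReal (Real.exp (PP b μ * ((n : ℝ) + 2) ^ 3)) := by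
  rw [le_ofReal_exp_log one_le_G (G_gk_fin hb0 hb (measurableSet_bx n) (volume_bx_ne_top n))]
  exact ENNReal.ofReal_le_ofReal (Real.exp_le_exp.mpr (FF_le_PP hb0 hb μ n))

lemma log_mono {a c : ℝ≥0∞} (h1 : 1 ≤ a) (hac : a ≤ c) (hc : c ≠ ∞) :
    Real.log a.toReal ≤ Real.log c.toReal := by
  have ha : a ≠ ∞ := ne_top_of_le_ne_top hc hac
  exact Real.log_le_log (by linarith [one_le_toReal h1 ha]) (ENNReal.toReal_mono hc hac)

lemma FF_mono (hb0 : ∀ j, 0 ≤ b j) (hb : Summable b) {m n : ℕ} (h : m ≤ n) :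
    FF b μ m ≤ FF b μ n :=
  log_mono one_le_G (G_mono_set (bx_mono h))
    (G_gk_fin hb0 hb (measurableSet_bx n) (volume_bx_ne_top n))

lemma FF_super (hb0 : ∀ j, 0 ≤ b j) (hb : Summable b) (l k : ℕ) :
    (k : ℝ) ^ 3 * FF b μ l ≤ FF b μ (k * (l + 2)) := by
  have h := super_G hb0 hb l k μ
  have h1 : 1 ≤ G (bx l) μ (gk b) ^ (k ^ 3) := one_le_pow₀ one_le_G
  have h2 := log_mono h1 h (G_gk_fin hb0 hb (measurableSet_bx _) (volume_bx_ne_top _))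
  rw [ENNReal.toReal_pow, Real.log_pow] at h2
  unfold FF
  push_cast at h2
  exact h2

/-- The thermodynamic limit along integers. -/
theorem tendsto_FF (hb0 : ∀ j, 0 ≤ b j) (hb : Summable b) (μ : ℝ) :
    Tendsto (fun n : ℕ => FF b μ n / (n : ℝ) ^ 3) atTop (𝓝 (PP b μ)) := by
  rw [tendsto_order]
  constructor
  · intro a ha
    obtain ⟨l, hl⟩ := exists_lt_of_lt_ciSup ha
    have hlim : Tendsto (fun n : ℕ => ((⌊(1 / ((l : ℝ) + 2)) * (n : ℝ)⌋₊ : ℝ) / n) ^ 3 * FF b μ l)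
        atTop (𝓝 ((1 / ((l : ℝ) + 2)) ^ 3 * FF b μ l)) := by
      have h1 : Tendsto (fun x : ℝ => (⌊(1 / ((l : ℝ) + 2)) * x⌋₊ : ℝ) / x) atTop
          (𝓝 (1 / ((l : ℝ) + 2))) :=
        tendsto_nat_floor_mul_div_atTop (by positivity)
      exact ((h1.comp tendsto_natCast_atTop_atTop).pow 3).mul_const _
    have hlt : a < (1 / ((l : ℝ) + 2)) ^ 3 * FF b μ l := by
      rw [one_div, inv_pow, inv_mul_eq_div]
      exact hl
    filter_upwards [hlim.eventually_const_lt hlt, eventually_gt_atTop 0] with n hn hn0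
    refine hn.trans_le ?_
    have hn0' : (0 : ℝ) < n := by exact_mod_cast hn0
    set k := ⌊(1 / ((l : ℝ) + 2)) * (n : ℝ)⌋₊ with hk
    have hk1 : k * (l + 2) ≤ n := by
      have h1 : (k : ℝ) ≤ (1 / ((l : ℝ) + 2)) * (n : ℝ) := Nat.floor_le (by positivity)
      have h2 : (k : ℝ) * ((l : ℝ) + 2) ≤ n := by
        calc (k : ℝ) * ((l : ℝ) + 2) ≤ (1 / ((l : ℝ) + 2)) * (n : ℝ) * ((l : ℝ) + 2) := by gcongr
          _ = n := by field_simp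
      exact_mod_cast h2
    have h3 := (FF_super (μ := μ) hb0 hb l k).trans (FF_mono hb0 hb hk1)
    rw [div_pow, div_mul_eq_mul_div]
    gcongr
  · intro a ha
    have hlim : Tendsto (fun n : ℕ => PP b μ * (1 + 2 / (n : ℝ)) ^ 3) atTop (𝓝 (PP b μ)) := by
      have h1 : Tendsto (fun n : ℕ => 1 + 2 / (n : ℝ)) atTop (𝓝 (1 + 0)) :=
        tendsto_const_nhds.add (tendsto_const_div_atTop_nhds_zero_nat 2)
      have h2 := (h1.pow 3).const_mul (PP b μ)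
      simpa using h2
    filter_upwards [hlim.eventually_lt_const ha, eventually_gt_atTop 0] with n hn hn0
    refine lt_of_le_of_lt ?_ hn
    have hn0' : (0 : ℝ) < n := by exact_mod_cast hn0
    rw [div_le_iff₀ (by positivity)]
    calc FF b μ n ≤ PP b μ * ((n : ℝ) + 2) ^ 3 := FF_le_PP hb0 hb μ n
      _ = PP b μ * (1 + 2 / (n : ℝ)) ^ 3 * (n : ℝ) ^ 3 := by field_simp

/-- The thermodynamic limit along real side lengths, for any sets squeezed between boxes. -/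
theorem tendsto_real (hb0 : ∀ j, 0 ≤ b j) (hb : Summable b) (μ : ℝ) (A : ℝ → Set V3)
    (hA1 : ∀ L, 0 ≤ L → bx ⌊L⌋₊ ⊆ A L) (hA2 : ∀ L, 0 ≤ L → A L ⊆ bx (⌊L⌋₊ + 1)) :
    Tendsto (fun L : ℝ => Real.log (G (A L) μ (gk b)).toReal / L ^ 3) atTop (𝓝 (PP b μ)) := by
  have hf : Tendsto (fun L : ℝ => (⌊L⌋₊ : ℝ) / L) atTop (𝓝 1) := tendsto_nat_floor_div_atTop
  have hfl : Tendsto (fun L : ℝ => ⌊L⌋₊) atTop atTop := tendsto_nat_floor_atTop
  have hlow : Tendsto (fun L : ℝ => FF b μ ⌊L⌋₊ / (⌊L⌋₊ : ℝ) ^ 3 * ((⌊L⌋₊ : ℝ) / L) ^ 3) atTop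
      (𝓝 (PP b μ)) := by
    have h1 := ((tendsto_FF hb0 hb μ).comp hfl).mul (hf.pow 3)
    simpa using h1
  have hinv : Tendsto (fun L : ℝ => 1 / L) atTop (𝓝 0) := by
    simpa using tendsto_inv_atTop_zero (𝕜 := ℝ)
  have hup : Tendsto (fun L : ℝ => FF b μ (⌊L⌋₊ + 1) / ((⌊L⌋₊ + 1 : ℕ) : ℝ) ^ 3 *
      ((⌊L⌋₊ : ℝ) / L + 1 / L) ^ 3) atTop (𝓝 (PP b μ)) := by
    have h1 := ((tendsto_FF hb0 hb μ).comp ((tendsto_add_atTop_nat 1).comp hfl)).mul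
      ((hf.add hinv).pow 3)
    simpa using h1
  refine tendsto_of_tendsto_of_tendsto_of_le_of_le' hlow hup ?_ ?_
  · filter_upwards [eventually_ge_atTop 1] with L hL
    have hL0 : 0 < L := by linarith
    have hfp : 0 < (⌊L⌋₊ : ℝ) := by
      exact_mod_cast Nat.floor_pos.mpr hL
    have e : FF b μ ⌊L⌋₊ / (⌊L⌋₊ : ℝ) ^ 3 * ((⌊L⌋₊ : ℝ) / L) ^ 3 = FF b μ ⌊L⌋₊ / L ^ 3 := by
      field_simp
    rw [e]
    gcongr
    refine log_mono one_le_G (G_mono_set (hA1 L hL0.le)) ?_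
    exact ne_top_of_le_ne_top (G_gk_fin hb0 hb (measurableSet_bx _) (volume_bx_ne_top _))
      (G_mono_set (hA2 L hL0.le))
  · filter_upwards [eventually_ge_atTop 1] with L hL
    have hL0 : 0 < L := by linarith
    have hfp : 0 < ((⌊L⌋₊ + 1 : ℕ) : ℝ) := by positivity
    have e : FF b μ (⌊L⌋₊ + 1) / ((⌊L⌋₊ + 1 : ℕ) : ℝ) ^ 3 * ((⌊L⌋₊ : ℝ) / L + 1 / L) ^ 3 =
        FF b μ (⌊L⌋₊ + 1) / L ^ 3 := by
      have : (⌊L⌋₊ : ℝ) / L + 1 / L = ((⌊L⌋₊ + 1 : ℕ) : ℝ) / L := by push_cast; ring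
      rw [this]
      field_simp
    rw [e]
    gcongr
    exact log_mono one_le_G (G_mono_set (hA2 L hL0.le))
      (G_gk_fin hb0 hb (measurableSet_bx _) (volume_bx_ne_top _))

end Vale.Agent.P171
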