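import Mathlib
import Vale.Agent.Lib.P171.Limit

/-!
# The Lebowitz–Penrose type upper bound for a differentiable pressure
-/

open MeasureTheory Filter Topology
open scoped ENNReal

namespace Vale.Agent.P171

variable {b : ℕ → ℝ} {μ : ℝ}

/-- `N² ≤ n³ ∑ n_q²` in a box with `n³` cells. -/
lemma card_sq_le {n N : ℕ} (x : Fin N → V3) (hx : ∀ i, x i ∈ bx n) :
    (N : ℝ) ^ 2 ≤ (n : ℝ) ^ 3 * ∑ i, ∑ j, dl (x i) (x j) := by
  classical
  have h1 := schur_const (fun i => cell (x i))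
    (fun q q' => if (∀ i, 0 ≤ q i ∧ q i < n) ∧ (∀ i, 0 ≤ q' i ∧ q' i < n) then (1 : ℝ) else 0)
    ((n : ℝ) ^ 3) (fun q q' => by split_ifs <;> norm_num) (fun q q' => by
      by_cases h : (∀ i, 0 ≤ q i ∧ q i < n) ∧ (∀ i, 0 ≤ q' i ∧ q' i < n)
      · rw [if_pos h, if_pos h.symm]
      · rw [if_neg h, if_neg (fun h' => h h'.symm)]) (by
      intro T q
      by_cases hq : ∀ i, 0 ≤ q i ∧ q i < n
      · have := sum_ite_le_card T
          (fun q' => (∀ i, 0 ≤ q i ∧ q i < n) ∧ (∀ i, 0 ≤ q' i ∧ q' i < n)) 1 zero_le_one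
          (fun _ => 0) (fun _ => (n : ℤ) - 1) n (fun i => by ring) (fun q' hq' i => by
            have := hq'.2 i
            constructor <;> omega)
        rwa [one_mul] at this
      · rw [Finset.sum_eq_zero]
        · positivity
        · intro q' _
          rw [if_neg (fun h => hq h.1)])
  have hc : ∀ i, ∀ k, 0 ≤ cell (x i) k ∧ cell (x i) k < n := by
    intro i k
    obtain ⟨h2, h3⟩ := hx i k
    unfold cell
    constructor
    · exact Int.floor_nonneg.mpr h2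
    · rw [Int.floor_lt]; exact_mod_cast h3
  have h2 : ∑ i : Fin N, ∑ j : Fin N,
      (if (∀ k, 0 ≤ cell (x i) k ∧ cell (x i) k < n) ∧ (∀ k, 0 ≤ cell (x j) k ∧ cell (x j) k < n)
        then (1 : ℝ) else 0) = (N : ℝ) ^ 2 := by
    have : ∀ i j : Fin N,
      (if (∀ k, 0 ≤ cell (x i) k ∧ cell (x i) k < n) ∧ (∀ k, 0 ≤ cell (x j) k ∧ cell (x j) k < n)
        then (1 : ℝ) else 0) = 1 := fun i j => if_pos ⟨hc i, hc j⟩
    simp_rw [this]
    simp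
    ring
  rw [h2] at h1
  exact h1

/-- Quadratic growth of the pressure in the chemical potential. -/
lemma PP_quadratic (hb0 : ∀ j, 0 ≤ b j) (hb : Summable b) (μ : ℝ) :
    ∃ C : ℝ, 0 ≤ C ∧ ∀ h : ℝ, PP b (μ + h) ≤ C + h ^ 2 / 4 := by
  obtain ⟨C, hC0, hC⟩ := G_gkc_le hb0 hb μ 2
  refine ⟨C, hC0, fun h => ?_⟩
  refine ciSup_le fun n => ?_
  have hn : (0 : ℝ) ≤ n := Nat.cast_nonneg n
  rw [div_le_iff₀ (by positivity)]
  have h1 : G (bx n) (μ + h) (gk b) ≤ ENNReal.ofReal (Real.exp ((n : ℝ) ^ 3 * (h ^ 2 / 4))) *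
      G (bx n) μ (fun x y => gk b x y + 2 * dl x y) := by
    refine G_le_of_expo_le _ fun N x hx => ?_
    unfold expo
    simp_rw [Finset.sum_add_distrib, ← Finset.mul_sum]
    rw [Fintype.card_fin]
    have h2 := card_sq_le x hx
    have hD : 0 ≤ ∑ i, ∑ j, dl (x i) (x j) :=
      Finset.sum_nonneg fun i _ => Finset.sum_nonneg fun j _ => dl_nonneg _ _
    set D := ∑ i, ∑ j, dl (x i) (x j)
    rcases Nat.eq_zero_or_pos n with h0 | hpos
    · subst h0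
      have hN : (N : ℝ) ^ 2 ≤ 0 := by simpa using h2
      have hN0 : (N : ℝ) = 0 := by nlinarith [sq_nonneg (N : ℝ)]
      rw [hN0]
      simp
      linarith
    · have hn0 : (0 : ℝ) < (n : ℝ) ^ 3 := by positivity
      have h3 : h * N ≤ D + (n : ℝ) ^ 3 * (h ^ 2 / 4) := by
        have h4 : (N : ℝ) ^ 2 / (n : ℝ) ^ 3 ≤ D := by
          rw [div_le_iff₀ hn0]; linarith
        have h5 : 0 ≤ ((N : ℝ) / (n : ℝ) ^ 3 - h / 2) ^ 2 * (n : ℝ) ^ 3 := by positivity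
        have h6 : ((N : ℝ) / (n : ℝ) ^ 3 - h / 2) ^ 2 * (n : ℝ) ^ 3 =
            (N : ℝ) ^ 2 / (n : ℝ) ^ 3 - h * N + (n : ℝ) ^ 3 * (h ^ 2 / 4) := by
          field_simp
          ring
        linarith
      linarith
  have h2 := hC (bx n) (measurableSet_bx n) (volume_bx_ne_top n)
  rw [volume_bx_toReal] at h2
  have h3 : G (bx n) (μ + h) (gk b) ≤
      ENNReal.ofReal (Real.exp ((n : ℝ) ^ 3 * (h ^ 2 / 4) + C * (n : ℝ) ^ 3)) := by
    rw [Real.exp_add, ENNReal.ofReal_mul (Real.exp_pos _).le]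
    exact h1.trans (by gcongr)
  calc FF b (μ + h) n ≤ (n : ℝ) ^ 3 * (h ^ 2 / 4) + C * (n : ℝ) ^ 3 :=
        log_le_of_le_ofReal_exp one_le_G h3
    _ = (C + h ^ 2 / 4) * (n : ℝ) ^ 3 := by ring
    _ ≤ (C + h ^ 2 / 4) * ((n : ℝ) + 2) ^ 3 := by gcongr; linarith

/-- The block bound passed to the limit. -/
lemma PP_addj_le {j : ℕ} {t : ℝ} {p l m M : ℕ}
    (hb0 : ∀ j, 0 ≤ b j) (hb : Summable b) (ht : 0 ≤ t)
    (hp : 1 ≤ p) (hlm : l + m ≤ p) (hM : RR j = p * M) (hM3 : 3 ≤ M) {η θ A : ℝ} (hη : 0 < η)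
    (hη1 : η ≤ 1) (hθ : 27 * ∑' i, trunc m b i + η * (27 * (∑' i, b i + t)) ≤ θ)
    (hA : 27 * (∑' i, b i + t) ≤ A * η) {C : ℝ}
    (hC : ∀ D : Set V3, MeasurableSet D → volume D ≠ ∞ →
      G D μ (fun x y => -phi0 (dist x y) + A * dl x y) ≤
        ENNReal.ofReal (Real.exp (C * (volume D).toReal))) {E : ℝ}
    (hE : G (bx l) μ (fun x y => gk b x y + t * (27 / (p : ℝ) ^ 3) + θ * dl x y) ≤
      ENNReal.ofReal (Real.exp (E * (p : ℝ) ^ 3))) :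
    PP (addj b j t) μ ≤ C * (1 - (l : ℝ) ^ 3 / (p : ℝ) ^ 3) + E := by
  have hb0' := addj_nonneg (j := j) hb0 ht
  have hb' := summable_addj (j := j) (t := t) hb
  have hp0 : (0 : ℝ) < p := by exact_mod_cast hp
  have hlim : Tendsto (fun k : ℕ => FF (addj b j t) μ (k * p) / ((k * p : ℕ) : ℝ) ^ 3) atTop
      (𝓝 (PP (addj b j t) μ)) := by
    have h1 : Tendsto (fun k : ℕ => k * p) atTop atTop :=
      tendsto_id.atTop_mul_const' (by omega)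
    exact (tendsto_FF hb0' hb' μ).comp h1
  refine le_of_tendsto hlim ?_
  filter_upwards [eventually_gt_atTop 0] with k hk
  have hk0 : (0 : ℝ) < k := by exact_mod_cast hk
  have h1 := upper_G (k := k) hb0 hb ht hp hlm hM hM3 hη hη1 hθ hA hC
  have h2 : G (bx (k * p)) μ (gk (addj b j t)) ≤
      ENNReal.ofReal (Real.exp (C * ((k : ℝ) ^ 3 * ((p : ℝ) ^ 3 - (l : ℝ) ^ 3)) +
        (k : ℝ) ^ 3 * (E * (p : ℝ) ^ 3))) := by
    rw [Real.exp_add, ENNReal.ofReal_mul (Real.exp_pos _).le]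
    refine h1.trans ?_
    gcongr
    calc G (bx l) μ (fun x y => gk b x y + t * (27 / (p : ℝ) ^ 3) + θ * dl x y) ^ (k ^ 3)
        ≤ ENNReal.ofReal (Real.exp (E * (p : ℝ) ^ 3)) ^ (k ^ 3) := by gcongr
      _ = ENNReal.ofReal (Real.exp ((k : ℝ) ^ 3 * (E * (p : ℝ) ^ 3))) := by
          rw [← ENNReal.ofReal_pow (Real.exp_pos _).le, ← Real.exp_nat_mul]
          push_cast
          rfl
  have h3 := log_le_of_le_ofReal_exp one_le_G h2
  rw [div_le_iff₀ (by positivity)]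
  refine le_trans h3 (le_of_eq ?_)
  push_cast
  field_simp

/-- The variational supremum for small mean-field strength. -/
lemma sup_bound {P : ℝ → ℝ} {r C1 h0 ξ τ : ℝ} (hC10 : 0 ≤ C1) (hP0 : 0 ≤ P μ) (hr0 : 0 < r)
    (hh0 : 0 < h0) (hC1 : ∀ h : ℝ, P (μ + h) ≤ C1 + h ^ 2 / 4)
    (hloc : ∀ h, 0 ≤ h → h ≤ h0 → P (μ + h) ≤ P μ + r * h)
    (hξ0 : 0 < ξ) (hξ1 : ξ ≤ h0 / 2) (hτ0 : 0 < τ) (hτ1 : τ ≤ 1 / 4)
    (hτ2 : C1 * (16 * τ) ≤ h0 ^ 2) (s : ℝ) (hs : 0 ≤ s) :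
    P (μ + ξ + τ * s) ≤ P μ + r * ξ + r ^ 2 * τ / 2 + τ * s ^ 2 / 2 := by
  set h := ξ + τ * s with hh
  have hh0' : 0 ≤ h := by positivity
  have e1 : μ + ξ + τ * s = μ + h := by rw [hh]; ring
  rw [e1]
  by_cases hcase : h ≤ h0
  · have h1 := hloc h hh0' hcase
    have h2 : r * (τ * s) ≤ τ * s ^ 2 / 2 + r ^ 2 * τ / 2 := by
      nlinarith [mul_nonneg hτ0.le (sq_nonneg (s - r))]
    calc P (μ + h) ≤ P μ + r * h := h1
      _ = P μ + r * ξ + r * (τ * s) := by rw [hh]; ring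
      _ ≤ _ := by linarith
  · push Not at hcase
    have h1 := hC1 h
    have h2 : h ≤ 2 * (τ * s) := by linarith
    have h3 : h0 ≤ 2 * (τ * s) := by linarith
    have h4 : h ^ 2 / 4 ≤ τ ^ 2 * s ^ 2 := by
      have : h ^ 2 ≤ (2 * (τ * s)) ^ 2 := by gcongr
      nlinarith
    have hss := sq_nonneg s
    have h5 : τ ^ 2 * s ^ 2 ≤ τ * s ^ 2 / 4 := by
      have h51 : 0 ≤ τ * s ^ 2 := mul_nonneg hτ0.le hss
      have h52 := mul_le_mul_of_nonneg_right hτ1 h51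
      linarith
    have h6 : C1 ≤ τ * s ^ 2 / 4 := by
      have h7 : h0 ^ 2 ≤ (2 * (τ * s)) ^ 2 := by gcongr
      have h9 : (C1 * 16) * τ ≤ (4 * τ * s ^ 2) * τ := by linarith
      have h11 := le_of_mul_le_mul_right h9 hτ0
      linarith
    have h7 : 0 ≤ r * ξ + r ^ 2 * τ / 2 := by positivity
    linarith

/-- The single block estimate. -/
lemma block_bound (hb0 : ∀ j, 0 ≤ b j) (hb : Summable b) {l p : ℕ} {t θ ξ Q C2 τ : ℝ}
    (hlp : l + 2 ≤ p) (hθ0 : 0 < θ) (hθ1 : θ ≤ 1 / 2) (hξ0 : 0 < ξ)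
    (hτ : τ = 27 * t / (1 - θ)) (hQ0 : 0 ≤ Q) (hC20 : 0 ≤ C2)
    (hsup : ∀ s : ℝ, 0 ≤ s → PP b (μ + ξ + τ * s) ≤ Q + τ * s ^ 2 / 2)
    (hC2 : ∀ D : Set V3, MeasurableSet D → volume D ≠ ∞ →
      G D μ (fun x y => gk b x y + 1 * dl x y) ≤
        ENNReal.ofReal (Real.exp (C2 * (volume D).toReal))) :
    G (bx l) μ (fun x y => gk b x y + t * (27 / (p : ℝ) ^ 3) + θ * dl x y) ≤
      ENNReal.ofReal (Real.exp ((Q + Real.log (1 / (1 - Real.exp (-ξ))) / (p : ℝ) ^ 3 + θ * C2) *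
        (p : ℝ) ^ 3)) := by
  set Λ := Real.log (1 / (1 - Real.exp (-ξ))) with hΛ
  have hΛ0 : 0 ≤ Λ := by
    rw [hΛ]
    have h1 : Real.exp (-ξ) < 1 := by rw [Real.exp_lt_one_iff]; linarith
    have h2 := Real.exp_pos (-ξ)
    refine Real.log_nonneg ?_
    rw [le_div_iff₀ (by linarith)]
    linarith
  have hp0 : (0 : ℝ) < p := by exact_mod_cast (by omega : 0 < p)
  have hl2 : (l : ℝ) + 2 ≤ p := by exact_mod_cast hlp
  have h1θ : 0 < 1 - θ := by linarith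
  have hmf : G (bx l) μ (fun x y => gk b x y + τ / (p : ℝ) ^ 3) ≤
      ENNReal.ofReal (Real.exp ((p : ℝ) ^ 3 * Q + Λ)) := by
    refine G_meanfield (by positivity) hξ0 fun s hs => ?_
    refine (G_le_PP hb0 hb (μ + ξ + τ * s) l).trans ?_
    refine ENNReal.ofReal_le_ofReal (Real.exp_le_exp.mpr ?_)
    have h1 := PP_nonneg hb0 hb (μ + ξ + τ * s)
    calc PP b (μ + ξ + τ * s) * ((l : ℝ) + 2) ^ 3 ≤ PP b (μ + ξ + τ * s) * (p : ℝ) ^ 3 := by
          gcongr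
      _ ≤ (Q + τ * s ^ 2 / 2) * (p : ℝ) ^ 3 := by gcongr; exact hsup s hs
      _ = (p : ℝ) ^ 3 * Q + τ * (p : ℝ) ^ 3 * s ^ 2 / 2 := by ring
  have hq2 : G (bx l) μ (fun x y => gk b x y + 1 * dl x y) ≤
      ENNReal.ofReal (Real.exp (C2 * (p : ℝ) ^ 3)) := by
    refine (hC2 (bx l) (measurableSet_bx l) (volume_bx_ne_top l)).trans ?_
    rw [volume_bx_toReal]
    refine ENNReal.ofReal_le_ofReal (Real.exp_le_exp.mpr ?_)
    have : (l : ℝ) ≤ p := by linarith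
    gcongr
  have hconv := G_convex (A := bx l) (μ := μ) (μ1 := μ) (μ2 := μ)
    (g := fun x y => gk b x y + t * (27 / (p : ℝ) ^ 3) + θ * dl x y)
    (g1 := fun x y => gk b x y + τ / (p : ℝ) ^ 3) (g2 := fun x y => gk b x y + 1 * dl x y)
    hθ0.le (by linarith : θ ≤ 1) (fun N x _ => le_of_eq (by
      unfold expo
      simp_rw [Finset.sum_add_distrib, ← Finset.mul_sum]
      have e1 : ∑ _i : Fin N, ∑ _j : Fin N, t * (27 / (p : ℝ) ^ 3) =
          (1 - θ) * ∑ _i : Fin N, ∑ _j : Fin N, τ / (p : ℝ) ^ 3 := by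
        simp only [Finset.sum_const, Finset.card_univ, Fintype.card_fin, nsmul_eq_mul]
        rw [hτ]
        field_simp
      simp only [Finset.mul_sum] at e1 ⊢
      rw [e1]
      simp only [← Finset.mul_sum]
      ring)) (measurableSet_bx l) ((measurable_gk hb0 hb).add_const _) hmf hq2
  refine hconv.trans (ENNReal.ofReal_le_ofReal (Real.exp_le_exp.mpr ?_))
  have h1 : (1 - θ) * ((p : ℝ) ^ 3 * Q + Λ) ≤ (p : ℝ) ^ 3 * Q + Λ := by
    have : 0 ≤ θ * ((p : ℝ) ^ 3 * Q + Λ) := by positivity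
    linarith
  have h2 : (Q + Λ / (p : ℝ) ^ 3 + θ * C2) * (p : ℝ) ^ 3 =
      (p : ℝ) ^ 3 * Q + Λ + θ * (C2 * (p : ℝ) ^ 3) := by
    field_simp
  rw [h2]
  linarith

/-- choice of the block size -/
lemma choose_p (m : ℕ) (C Λ : ℝ) {κ : ℝ} (hκ : 0 < κ) :
    ∃ e : ℕ, m + 2 ≤ 2 ^ e ∧ 2 ≤ e ∧
      C * (1 - ((2 ^ e - m : ℕ) : ℝ) ^ 3 / ((2 ^ e : ℕ) : ℝ) ^ 3) +
      Λ / ((2 ^ e : ℕ) : ℝ) ^ 3 ≤ κ := by
  have h1 : Tendsto (fun p : ℕ => C * (1 - (1 - (m : ℝ) / p) ^ 3) + Λ / (p : ℝ) ^ 3) atTop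
      (𝓝 (C * (1 - (1 - 0) ^ 3) + 0)) := by
    have a1 : Tendsto (fun p : ℕ => (m : ℝ) / p) atTop (𝓝 0) :=
      tendsto_const_div_atTop_nhds_zero_nat _
    have a2 : Tendsto (fun p : ℕ => Λ / (p : ℝ) ^ 3) atTop (𝓝 0) := by
      have := tendsto_const_nhds (x := Λ) |>.div_atTop
        ((tendsto_pow_atTop (three_ne_zero)).comp (tendsto_natCast_atTop_atTop (R := ℝ)))
      exact this
    exact ((((tendsto_const_nhds.sub a1).pow 3).const_sub 1).const_mul C).add a2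
  have h2 : Tendsto (fun e : ℕ => 2 ^ e) atTop atTop := tendsto_pow_atTop_atTop_of_one_lt one_lt_two
  have h3 := (h1.comp h2).eventually_lt_const
    (show C * (1 - (1 - 0) ^ 3) + 0 < κ by simpa using hκ)
  obtain ⟨e, h4, h5, h6⟩ := (h3.and ((h2.eventually_ge_atTop (m + 2)).and
    (eventually_ge_atTop 2))).exists
  refine ⟨e, h5, h6, ?_⟩
  simp only [Function.comp_apply] at h4
  have hpos : (0 : ℝ) < ((2 ^ e : ℕ) : ℝ) := by positivity
  have h7 : ((2 ^ e - m : ℕ) : ℝ) ^ 3 / ((2 ^ e : ℕ) : ℝ) ^ 3 = (1 - (m : ℝ) / ((2 ^ e : ℕ) : ℝ)) ^ 3 := by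
    rw [Nat.cast_sub (by omega), ← div_pow]
    congr 1
    field_simp
  rw [h7]
  exact h4.le

/-- First choices: slope `r`, window `h0`. -/
lemma choose_r {P : ℝ → ℝ} {ρ δ : ℝ} (hd : HasDerivAt P ρ μ) (hδ : 0 < δ) :
    ∃ r : ℝ, 0 < r ∧ 27 * r ^ 2 / 2 ≤ 27 * ρ ^ 2 / 2 + δ / 4 ∧
      ∃ h0 : ℝ, 0 < h0 ∧ ∀ h, 0 ≤ h → h ≤ h0 → P (μ + h) ≤ P μ + r * h := by
  obtain ⟨ε, hε0, hε⟩ : ∃ ε : ℝ, 0 < ε ∧ 27 * (|ρ| + ε) ^ 2 / 2 ≤ 27 * ρ ^ 2 / 2 + δ / 4 := by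
    have hcont : Tendsto (fun ε : ℝ => 27 * (|ρ| + ε) ^ 2 / 2) (𝓝[>] 0)
        (𝓝 (27 * (|ρ| + 0) ^ 2 / 2)) := by
      refine Tendsto.mono_left ?_ nhdsWithin_le_nhds
      have : Continuous (fun ε : ℝ => 27 * (|ρ| + ε) ^ 2 / 2) := by fun_prop
      exact this.tendsto 0
    rw [add_zero, sq_abs] at hcont
    have h1 := hcont.eventually_lt_const (show 27 * ρ ^ 2 / 2 < 27 * ρ ^ 2 / 2 + δ / 4 by linarith)
    obtain ⟨ε, h2, h3⟩ := (h1.and self_mem_nhdsWithin).exists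
    exact ⟨ε, h3, h2.le⟩
  refine ⟨|ρ| + ε, by have := abs_nonneg ρ; linarith, hε, ?_⟩
  have h1 := (hasDerivAt_iff_isLittleO_nhds_zero.mp hd).def hε0
  obtain ⟨e, he0, he⟩ := Metric.eventually_nhds_iff.mp h1
  refine ⟨e / 2, by linarith, fun h hh hh' => ?_⟩
  have h2 := he (show dist h 0 < e by rw [Real.dist_eq, sub_zero, abs_of_nonneg hh]; linarith)
  rw [Real.norm_eq_abs, Real.norm_eq_abs, abs_of_nonneg hh] at h2
  have h3 := (abs_le.mp h2).2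
  have h4 : h * ρ ≤ h * |ρ| := mul_le_mul_of_nonneg_left (le_abs_self ρ) hh
  simp only [smul_eq_mul] at h3
  linarith

lemma exists_small {X Y : ℝ} (hX : 0 < X) (hY : 0 ≤ Y) {κ : ℝ} (hκ : 0 < κ) :
    ∃ t : ℝ, 0 < t ∧ t ≤ X ∧ t * Y ≤ κ := by
  refine ⟨min X (κ / (Y + 1)), lt_min hX (by positivity), min_le_left _ _, ?_⟩
  have h1 := min_le_right X (κ / (Y + 1))
  rw [le_div_iff₀ (by positivity)] at h1
  have h2 : 0 ≤ min X (κ / (Y + 1)) := le_min hX.le (by positivity)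
  linarith

/-- If the pressure is differentiable in `μ`, adding a little very long range attraction increases
the pressure by at most the mean-field amount (up to the geometric constant 27). -/
theorem long_range (hb0 : ∀ j, 0 ≤ b j) (hb : Summable b) {ρ : ℝ}
    (hd : HasDerivAt (PP b) ρ μ) {δ : ℝ} (hδ : 0 < δ) :
    ∃ t : ℝ, 0 < t ∧ ∃ j : ℕ, PP (addj b j t) μ ≤ PP b μ + t * (27 * ρ ^ 2 / 2 + δ) := by
  obtain ⟨C1, hC10, hC1⟩ := PP_quadratic hb0 hb μ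
  obtain ⟨C2, hC20, hC2⟩ := G_gkc_le hb0 hb μ 1
  obtain ⟨r, hr0, hr, h0, hh0, hloc⟩ := choose_r hd hδ
  obtain ⟨t, ht0, ht1, ht2⟩ := exists_small (X := 1 / 216) (Y := C1 * (16 * 54)) (by norm_num)
    (by positivity) (show 0 < h0 ^ 2 by positivity)
  refine ⟨t, ht0, ?_⟩
  set S := ∑' i, b i + t with hS
  have hS0 : 0 < S := by
    have h : 0 ≤ ∑' i, b i := tsum_nonneg hb0
    linarith
  have htδ : 0 < t * δ / 4 := by positivity
  obtain ⟨ξ, hξ0, hξ1, hξ2⟩ := exists_small (X := h0 / 2) (Y := r) (by positivity) hr0.le htδ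
  obtain ⟨θ, hθ0, hθ1, hθ2⟩ := exists_small (X := 1 / 2) (Y := 27 * t * r ^ 2 + C2) (by norm_num)
    (by positivity) htδ
  obtain ⟨η, hη0, hη1, hη2⟩ := exists_small (X := 1) (Y := 27 * S) one_pos (by positivity)
    (show 0 < θ / 2 by positivity)
  obtain ⟨A, hA⟩ : ∃ A : ℝ, 27 * S ≤ A * η := ⟨27 * S / η, by field_simp; exact le_rfl⟩
  obtain ⟨C, hC0, hC⟩ := G_apriori μ A
  obtain ⟨m, hm2, hm⟩ : ∃ m : ℕ, 2 ≤ m ∧ 27 * ∑' i, trunc m b i ≤ θ / 2 := by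
    have h1 : Tendsto (fun m => 27 * ∑' i, trunc m b i) atTop (𝓝 (27 * 0)) :=
      (tendsto_trunc hb0 hb).const_mul 27
    rw [mul_zero] at h1
    obtain ⟨m, h2, h3⟩ := ((h1.eventually_lt_const (show (0 : ℝ) < θ / 2 by linarith)).and
      (eventually_ge_atTop 2)).exists
    exact ⟨m, h3, h2.le⟩
  obtain ⟨e, he, he2, hpe⟩ := choose_p m C (Real.log (1 / (1 - Real.exp (-ξ)))) htδ
  refine ⟨e - 2, ?_⟩
  have hM : RR (e - 2) = 2 ^ e * 4 := by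
    unfold RR
    rw [show (4 : ℕ) = 2 ^ 2 by norm_num, ← pow_add]
    congr 1
    omega
  have hlm : (2 ^ e - m) + m ≤ 2 ^ e := by omega
  have hlp : (2 ^ e - m) + 2 ≤ 2 ^ e := by omega
  have hτ0 : 0 < 27 * t / (1 - θ) := by
    have : 0 < 1 - θ := by linarith
    positivity
  have hτ1 : 27 * t / (1 - θ) ≤ 54 * t := by
    rw [div_le_iff₀ (by linarith)]; nlinarith
  have hPμ := PP_nonneg hb0 hb μ
  have hsup := fun s hs => sup_bound (μ := μ) (P := PP b) (τ := 27 * t / (1 - θ)) hC10 hPμ hr0 hh0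
    hC1 hloc hξ0 hξ1 hτ0 (by linarith)
    (by
      refine le_trans ?_ ht2
      have h1 : C1 * (16 * (27 * t / (1 - θ))) ≤ C1 * (16 * (54 * t)) :=
        mul_le_mul_of_nonneg_left (by linarith) hC10
      linarith) s hs
  have hE := block_bound (μ := μ) hb0 hb (l := 2 ^ e - m) (p := 2 ^ e) hlp hθ0 hθ1 hξ0 rfl
    (Q := PP b μ + r * ξ + r ^ 2 * (27 * t / (1 - θ)) / 2) (by positivity) hC20 hsup hC2
  have hfinal := PP_addj_le (μ := μ) hb0 hb ht0.le Nat.one_le_two_pow hlm hM (by norm_num) hη0 hη1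
    (θ := θ) (by rw [← hS]; linarith) (A := A) (by rw [← hS]; exact hA) hC hE
  refine hfinal.trans ?_
  have h1 : r ^ 2 * (27 * t / (1 - θ)) / 2 ≤ t * (27 * r ^ 2 / 2) + 27 * t * r ^ 2 * θ := by
    have h2 : 27 * t / (1 - θ) ≤ 27 * t + 54 * t * θ := by
      rw [div_le_iff₀ (by linarith)]
      nlinarith [mul_nonneg (mul_nonneg ht0.le hθ0.le) (by linarith : (0 : ℝ) ≤ 1 / 2 - θ)]
    have h3 := mul_le_mul_of_nonneg_left h2 (sq_nonneg r)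
    linarith
  have h2 : t * (27 * r ^ 2 / 2) ≤ t * (27 * ρ ^ 2 / 2 + δ / 4) :=
    mul_le_mul_of_nonneg_left hr ht0.le
  linarith

end Vale.Agent.P171
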