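import Vale.Agent.Lib.P171.Pot

/-!
# Trial configurations: one particle in each core
-/

open MeasureTheory Filter Topology
open scoped ENNReal

namespace Vale.Agent.P171

variable {b : ℕ → ℝ}

/-- Cauchy-Schwarz for labels. -/
lemma sq_card_le_pairs {ι κ : Type} [Fintype ι] [DecidableEq κ] (c : ι → κ) (K : Finset κ)
    (h : ∀ i, c i ∈ K) :
    (Fintype.card ι : ℝ) ^ 2 ≤ K.card * ∑ i, ∑ j, if c i = c j then (1 : ℝ) else 0 := by
  classical
  set n : κ → ℝ := fun k => ((Finset.univ.filter (fun i => c i = k)).card : ℝ) with hn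
  have h1 : (Fintype.card ι : ℝ) = ∑ k ∈ K, n k := by
    have := Finset.card_eq_sum_card_fiberwise (f := c) (s := (Finset.univ : Finset ι)) (t := K)
      (fun i _ => h i)
    rw [← Finset.card_univ, this]
    push_cast
    rfl
  have h2 : ∀ i, ∑ j, (if c i = c j then (1 : ℝ) else 0) = n (c i) := by
    intro i
    rw [Finset.sum_boole, hn]
    simp only
    congr 2
    ext j
    simp [eq_comm]
  have h3 : ∑ i, n (c i) = ∑ k ∈ K, n k ^ 2 := by
    rw [← Finset.sum_fiberwise_of_maps_to (g := c) (t := K) (fun i _ => h i)]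
    refine Finset.sum_congr rfl fun k _ => ?_
    rw [Finset.sum_congr rfl (g := fun _ => n k)]
    · rw [Finset.sum_const, nsmul_eq_mul, sq]
    · intro i hi
      rw [(Finset.mem_filter.mp hi).2]
  simp_rw [h2]
  rw [h1, h3]
  exact sq_sum_le_card_mul_sum_sq

/-- core number `q` -/
def core (q : Fin 3 → ℤ) : Set V3 := {x | ∀ i, (3 * q i : ℝ) ≤ x i ∧ x i < 3 * q i + 1}

lemma phi0_core {q q' : Fin 3 → ℤ} (hne : q ≠ q') {x y : V3} (hx : x ∈ core q) (hy : y ∈ core q') :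
    phi0 (dist x y) = 0 := by
  obtain ⟨i, hi⟩ : ∃ i, q i ≠ q' i := by
    by_contra h
    push Not at h
    exact hne (funext h)
  apply phi0_of_two_le
  refine le_trans ?_ (abs_sub_le_dist x y i)
  have h1 := hx i
  have h2 := hy i
  rcases lt_or_gt_of_ne hi with h | h
  · have h3 : (q i : ℝ) + 1 ≤ q' i := by exact_mod_cast h
    rw [abs_sub_comm]
    refine le_trans ?_ (le_abs_self _)
    linarith [h1.1, h1.2, h2.1, h2.2]
  · have h3 : (q' i : ℝ) + 1 ≤ q i := by exact_mod_cast h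
    refine le_trans ?_ (le_abs_self _)
    linarith [h1.1, h1.2, h2.1, h2.2]

lemma measurable_coord (i : Fin 3) : Measurable (fun x : V3 => x i) := by fun_prop

lemma measurableSet_core (q : Fin 3 → ℤ) : MeasurableSet (core q) := by
  have : core q = ⋂ k : Fin 3, {x : V3 | (3 * q k : ℝ) ≤ x k ∧ x k < 3 * q k + 1} := by
    ext x; simp [core]
  rw [this]
  refine MeasurableSet.iInter fun k => ?_
  exact (measurableSet_le measurable_const (measurable_coord k)).inter
    (measurableSet_lt (measurable_coord k) measurable_const)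

lemma volume_core (q : Fin 3 → ℤ) : volume (core q) = 1 := by
  have h := (EuclideanSpace.volume_preserving_symm_measurableEquiv_toLp (Fin 3))
  have h2 : core q = (MeasurableEquiv.toLp 2 (Fin 3 → ℝ)).symm ⁻¹'
      (Set.univ.pi fun i => Set.Ico (3 * q i : ℝ) (3 * q i + 1)) := by
    ext x
    simp [core, Set.mem_Ico]
  rw [h2, h.measure_preimage_emb (MeasurableEquiv.measurableEmbedding _)]
  rw [Real.volume_pi_Ico]
  simp

lemma core_disjoint {q q' : Fin 3 → ℤ} {x : V3} (hx : x ∈ core q) (hx' : x ∈ core q') : q = q' := by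
  funext i
  have h1 := hx i
  have h2 := hx' i
  by_contra hne
  rcases lt_or_gt_of_ne hne with h | h
  · have h3 : (q i : ℝ) + 1 ≤ q' i := by exact_mod_cast h
    linarith [h1.1, h1.2, h2.1, h2.2]
  · have h3 : (q' i : ℝ) + 1 ≤ q i := by exact_mod_cast h
    linarith [h1.1, h1.2, h2.1, h2.2]

/-- many pairs are within the range `R_j` -/
lemma sum_ww_ge {ι : Type} [Fintype ι] (j n : ℕ) (hj : 2 ^ (j + 3) ≤ 3 * n) (x : ι → V3)
    (hx : ∀ i l, 0 ≤ x i l ∧ x i l < 3 * n) (hN : Fintype.card ι = n ^ 3) :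
    (n : ℝ) ^ 3 / 1728 ≤ ∑ i, ∑ k, ww j (dist (x i) (x k)) := by
  classical
  set ℓ : ℕ := 2 ^ (j + 3) with hℓ
  have hℓ1 : 1 ≤ ℓ := Nat.one_le_two_pow
  have hℓ0 : (0 : ℝ) < ℓ := by exact_mod_cast hℓ1
  have hR : (RR j : ℝ) = 2 * ℓ := by
    unfold RR
    rw [hℓ]
    push_cast
    ring
  have hn1 : 1 ≤ n := by omega
  have hn0 : (0 : ℝ) < n := by exact_mod_cast hn1
  set m : ℕ := 3 * n / ℓ + 1 with hm
  have hmle : (m : ℝ) ≤ 6 * n / ℓ := by
    have h1 : ((3 * n / ℓ : ℕ) : ℝ) ≤ 3 * n / ℓ := by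
      have := @Nat.cast_div_le ℝ _ _ _ (3 * n) ℓ
      push_cast at this
      exact this
    have h2 : (1 : ℝ) ≤ 3 * n / ℓ := by
      rw [le_div_iff₀ hℓ0, one_mul]
      exact_mod_cast hj
    rw [hm]
    push_cast
    have : (6 : ℝ) * n / ℓ = 3 * n / ℓ + 3 * n / ℓ := by ring
    linarith
  set lab : ι → (Fin 3 → ℤ) := fun i l => ⌊x i l / ℓ⌋ with hlab
  set K : Finset (Fin 3 → ℤ) := Fintype.piFinset fun _ => Finset.Ico (0 : ℤ) m with hK
  have hlabK : ∀ i, lab i ∈ K := by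
    intro i
    rw [hK, Fintype.mem_piFinset]
    intro l
    rw [Finset.mem_Ico]
    obtain ⟨h1, h2⟩ := hx i l
    constructor
    · exact Int.floor_nonneg.mpr (by positivity)
    · rw [Int.floor_lt]
      rw [div_lt_iff₀ hℓ0]
      have h3 : (3 * n : ℕ) < m * ℓ := by
        rw [hm]
        exact Nat.lt_mul_of_div_lt (Nat.lt_succ_self _) hℓ1
      have h4 : (3 * n : ℝ) < m * ℓ := by exact_mod_cast h3
      push_cast
      linarith
  have hKcard : (K.card : ℝ) = (m : ℝ) ^ 3 := by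
    rw [hK, Fintype.card_piFinset]
    simp
  have h1 := sq_card_le_pairs lab K hlabK
  rw [hKcard, hN] at h1
  set Pz : ℝ := ∑ i, ∑ k, if lab i = lab k then (1 : ℝ) else 0 with hPz
  have h2 : ((RR j : ℝ) ^ 3)⁻¹ * Pz ≤ ∑ i, ∑ k, ww j (dist (x i) (x k)) := by
    rw [hPz, Finset.mul_sum]
    refine Finset.sum_le_sum fun i _ => ?_
    rw [Finset.mul_sum]
    refine Finset.sum_le_sum fun k _ => ?_
    by_cases hik : lab i = lab k
    · rw [if_pos hik, mul_one]
      unfold ww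
      rw [if_pos]
      have h3 : ∀ l, (x i l - x k l) ^ 2 ≤ (ℓ : ℝ) ^ 2 := by
        intro l
        have h4 : ⌊x i l / ℓ⌋ = ⌊x k l / ℓ⌋ := congrFun hik l
        have h5 := Int.abs_sub_lt_one_of_floor_eq_floor h4
        rw [← sub_div, abs_div, abs_of_pos hℓ0, div_lt_one hℓ0] at h5
        exact sq_le_sq' (by linarith [neg_abs_le (x i l - x k l)]) ((le_abs_self _).trans h5.le)
      have h6 : dist (x i) (x k) ^ 2 ≤ (RR j : ℝ) ^ 2 := by
        rw [dist_sq, hR]
        calc ∑ l, (x i l - x k l) ^ 2 ≤ ∑ _l : Fin 3, (ℓ : ℝ) ^ 2 :=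
              Finset.sum_le_sum fun l _ => h3 l
          _ = 3 * (ℓ : ℝ) ^ 2 := by simp
          _ ≤ (2 * ℓ) ^ 2 := by nlinarith [sq_nonneg (ℓ : ℝ)]
      exact le_of_sq_le_sq h6 (by positivity)
    · rw [if_neg hik, mul_zero]
      exact ww_nonneg _ _
  refine le_trans ?_ h2
  have hm0 : (0 : ℝ) < m := by
    rw [hm]; positivity
  have h3 : ((n : ℝ) ^ 3) ^ 2 / (m : ℝ) ^ 3 ≤ Pz := by
    rw [div_le_iff₀ (by positivity), mul_comm]
    exact_mod_cast h1
  have h4 : (n : ℝ) ^ 3 * (ℓ : ℝ) ^ 3 / 216 ≤ ((n : ℝ) ^ 3) ^ 2 / (m : ℝ) ^ 3 := by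
    rw [le_div_iff₀ (by positivity)]
    have h5 : (m : ℝ) ^ 3 ≤ (6 * n / ℓ) ^ 3 := by gcongr
    calc (n : ℝ) ^ 3 * (ℓ : ℝ) ^ 3 / 216 * (m : ℝ) ^ 3
        ≤ (n : ℝ) ^ 3 * (ℓ : ℝ) ^ 3 / 216 * (6 * n / ℓ) ^ 3 := by gcongr
      _ = ((n : ℝ) ^ 3) ^ 2 := by
        field_simp
        ring
  have h6 : (n : ℝ) ^ 3 / 1728 = ((RR j : ℝ) ^ 3)⁻¹ * ((n : ℝ) ^ 3 * (ℓ : ℝ) ^ 3 / 216) := by
    rw [hR]
    field_simp
    ring
  rw [h6]
  exact mul_le_mul_of_nonneg_left (h4.trans h3) (by positivity)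

/-- **Trial lower bound** for the grand partition function. -/
theorem trial_lower (hb0 : ∀ j, 0 ≤ b j) (hb : Summable b) (μ : ℝ) (n : ℕ) (J : Finset ℕ)
    (hJ : ∀ j ∈ J, 2 ^ (j + 3) ≤ 3 * n) (D : Set V3)
    (hD : ∀ x : V3, (∀ i, 0 ≤ x i ∧ x i < 3 * n) → x ∈ D) :
    ENNReal.ofReal (Real.exp ((n : ℝ) ^ 3 * (μ + (∑ j ∈ J, b j) / 3456))) ≤ G D μ (gk b) := by
  classical
  set Q : Finset (Fin 3 → ℤ) := Fintype.piFinset fun _ => Finset.Ico (0 : ℤ) n with hQ
  set N : ℕ := n ^ 3 with hNdef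
  have hQcard : Fintype.card Q = N := by
    rw [Fintype.card_coe, hQ, Fintype.card_piFinset]
    simp [hNdef]
  have e0 : Fin N ≃ Q := (Fintype.equivFinOfCardEq hQcard).symm
  set c : ℝ := (n : ℝ) ^ 3 * (μ + (∑ j ∈ J, b j) / 3456) with hc
  set S : (Fin N ≃ Q) → Set (Fin N → V3) := fun σ => Set.univ.pi fun i => core (σ i) with hS
  have hSmeas : ∀ σ, MeasurableSet (S σ) := fun σ =>
    MeasurableSet.univ_pi fun i => measurableSet_core _
  have hSvol : ∀ σ, volume (S σ) = 1 := by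
    intro σ
    rw [hS]
    simp only
    rw [volume_pi, Measure.pi_pi]
    simp [volume_core]
  have hSdisj : Pairwise (Function.onFun Disjoint S) := by
    intro σ τ hne
    refine Set.disjoint_left.mpr fun x hx hx' => hne ?_
    ext1 i
    apply Subtype.ext
    exact core_disjoint (hx i (Set.mem_univ i)) (hx' i (Set.mem_univ i))
  have hbox : ∀ σ, ∀ x ∈ S σ, ∀ i l, 0 ≤ x i l ∧ x i l < 3 * n := by
    intro σ x hx i l
    have h1 := hx i (Set.mem_univ i) l
    have h2 : (0 : ℤ) ≤ (σ i : Fin 3 → ℤ) l ∧ (σ i : Fin 3 → ℤ) l < n := by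
      have h5 : ((σ i : Fin 3 → ℤ)) ∈ Fintype.piFinset fun _ : Fin 3 => Finset.Ico (0 : ℤ) n :=
        (σ i).2
      rw [Fintype.mem_piFinset] at h5
      exact Finset.mem_Ico.mp (h5 l)
    have h3 : (0 : ℝ) ≤ ((σ i : Fin 3 → ℤ) l : ℝ) := by exact_mod_cast h2.1
    have h4 : ((σ i : Fin 3 → ℤ) l : ℝ) + 1 ≤ n := by exact_mod_cast h2.2
    constructor
    · linarith [h1.1]
    · linarith [h1.2]
  have hexpo : ∀ σ, ∀ x ∈ S σ, c ≤ expo μ (gk b) x := by
    intro σ x hx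
    have hgk : ∀ i k, gk b (x i) (x k) = va b (dist (x i) (x k)) := by
      intro i k
      unfold gk
      by_cases hik : i = k
      · subst hik
        rw [dist_self, phi0_zero]
        ring
      · rw [phi0_core (q := σ i) (q' := σ k) _ (hx i (Set.mem_univ i)) (hx k (Set.mem_univ k))]
        · ring
        · intro h
          exact hik (σ.injective (Subtype.ext h))
    have h1 : (∑ j ∈ J, b j) * ((n : ℝ) ^ 3 / 1728) ≤ ∑ i, ∑ k, gk b (x i) (x k) := by
      simp_rw [hgk]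
      calc (∑ j ∈ J, b j) * ((n : ℝ) ^ 3 / 1728)
          = ∑ j ∈ J, b j * ((n : ℝ) ^ 3 / 1728) := by rw [Finset.sum_mul]
        _ ≤ ∑ j ∈ J, b j * ∑ i, ∑ k, ww j (dist (x i) (x k)) := by
            refine Finset.sum_le_sum fun j hj => ?_
            refine mul_le_mul_of_nonneg_left ?_ (hb0 j)
            exact sum_ww_ge j n (hJ j hj) x (hbox σ x hx) (by simp [hNdef])
        _ = ∑ i, ∑ k, ∑ j ∈ J, b j * ww j (dist (x i) (x k)) := by
            simp_rw [Finset.mul_sum]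
            rw [Finset.sum_comm]
            refine Finset.sum_congr rfl fun i _ => ?_
            rw [Finset.sum_comm]
        _ ≤ ∑ i, ∑ k, va b (dist (x i) (x k)) := by
            refine Finset.sum_le_sum fun i _ => Finset.sum_le_sum fun k _ => ?_
            exact (summable_b_ww hb0 hb _).sum_le_tsum J
              (fun j _ => mul_nonneg (hb0 j) (ww_nonneg j _))
    have hNr : (N : ℝ) = (n : ℝ) ^ 3 := by
      rw [hNdef]; push_cast; rfl
    unfold expo
    rw [Fintype.card_fin, hc]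
    have h2 : μ * (N : ℝ) = μ * (n : ℝ) ^ 3 := by rw [hNr]
    linarith
  have hz : (N.factorial : ℝ≥0∞) * ENNReal.ofReal (Real.exp c) ≤ zint D μ (gk b) (Fin N) := by
    have h1 : ∫⁻ x in ⋃ σ, S σ, wt D μ (gk b) x ≤ zint D μ (gk b) (Fin N) := by
      unfold zint
      exact setLIntegral_le_lintegral _ _
    refine le_trans ?_ h1
    rw [lintegral_iUnion hSmeas hSdisj, tsum_fintype]
    have h2 : ∀ σ, ENNReal.ofReal (Real.exp c) ≤ ∫⁻ x in S σ, wt D μ (gk b) x := by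
      intro σ
      calc ENNReal.ofReal (Real.exp c) = ∫⁻ _x in S σ, ENNReal.ofReal (Real.exp c) := by
            rw [setLIntegral_const, hSvol, mul_one]
        _ ≤ ∫⁻ x in S σ, wt D μ (gk b) x := by
            refine setLIntegral_mono' (hSmeas σ) fun x hx => ?_
            rw [wt_of_mem fun i => hD _ (hbox σ x hx i)]
            exact ENNReal.ofReal_le_ofReal (Real.exp_le_exp.mpr (hexpo σ x hx))
    calc (N.factorial : ℝ≥0∞) * ENNReal.ofReal (Real.exp c)
        = ∑ _σ : (Fin N ≃ Q), ENNReal.ofReal (Real.exp c) := by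
          rw [Finset.sum_const, Finset.card_univ, Fintype.card_equiv e0, Fintype.card_fin,
            nsmul_eq_mul]
      _ ≤ _ := Finset.sum_le_sum fun σ _ => h2 σ
  refine le_trans ?_ (term_le_G N)
  have hN0 : (N.factorial : ℝ≥0∞) ≠ 0 := by exact_mod_cast N.factorial_ne_zero
  calc ENNReal.ofReal (Real.exp c)
      = (N.factorial : ℝ≥0∞)⁻¹ * ((N.factorial : ℝ≥0∞) * ENNReal.ofReal (Real.exp c)) := by
        rw [← mul_assoc, ENNReal.inv_mul_cancel hN0 (ENNReal.natCast_ne_top _), one_mul]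
    _ ≤ _ := by gcongr

end Vale.Agent.P171
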