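import Mathlib
import Vale.Agent.Lib.P171.LongRange
import Vale.Agent.Lib.P171.Bridge
import Vale.Agent.Lib.P171.Trial
import Vale.Agent.Lib.P171.Ekeland

/-!
# Lower semicontinuity, Ekeland's principle and the phase transition
-/

open MeasureTheory Filter Topology
open scoped ENNReal

namespace Vale.Agent.P171

/-- The sequence space `ℓ¹`. -/
abbrev L1 : Type := lp (fun _ : ℕ => ℝ) 1

/-- Absolute values of the coefficients. -/
noncomputable def ab (a : L1) : ℕ → ℝ := fun j => |a j|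

lemma ab_nonneg (a : L1) (j : ℕ) : 0 ≤ ab a j := abs_nonneg _

lemma summable_ab (a : L1) : Summable (ab a) := by
  have h := lp.memℓp a
  have h2 := (memℓp_gen_iff (p := (1 : ℝ≥0∞)) (by norm_num)).mp h
  unfold ab
  simpa using h2

lemma norm_eq (a : L1) : ‖a‖ = ∑' j, ab a j := by
  rw [lp.norm_eq_tsum_rpow (by norm_num)]
  simp [ab]

lemma abs_va_sub_le (a a' : L1) (r : ℝ) : va (ab a) r - va (ab a') r ≤ ‖a - a'‖ := by
  unfold va
  rw [← (summable_b_ww (ab_nonneg a) (summable_ab a) r).tsum_sub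
    (summable_b_ww (ab_nonneg a') (summable_ab a') r), norm_eq]
  refine Summable.tsum_le_tsum (fun j => ?_)
    ((summable_b_ww (ab_nonneg a) (summable_ab a) r).sub
      (summable_b_ww (ab_nonneg a') (summable_ab a') r)) (summable_ab (a - a'))
  have h1 := ww_nonneg j r
  have h2 := ww_le_one j r
  have h3 : ab a j - ab a' j ≤ ab (a - a') j := by
    unfold ab
    have := abs_sub_abs_le_abs_sub (a j) (a' j)
    simpa using this
  have h4 := ab_nonneg (a - a') j
  calc ab a j * ww j r - ab a' j * ww j r = (ab a j - ab a' j) * ww j r := by ring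
    _ ≤ ab (a - a') j * ww j r := mul_le_mul_of_nonneg_right h3 h1
    _ ≤ ab (a - a') j * 1 := mul_le_mul_of_nonneg_left h2 h4
    _ = ab (a - a') j := mul_one _

/-- The parameter space. -/
abbrev XX : Type := ℝ × L1

lemma zint_lip (A : Set V3) (N : ℕ) (x y : XX) :
    ENNReal.ofReal (Real.exp (-((N + N ^ 2 : ℝ) * dist y x))) *
      zint A x.1 (gk (ab x.2)) (Fin N) ≤ zint A y.1 (gk (ab y.2)) (Fin N) := by
  unfold zint
  rw [← lintegral_const_mul' _ _ ENNReal.ofReal_ne_top]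
  refine lintegral_mono fun z => ?_
  by_cases hz : ∀ i, z i ∈ A
  · rw [wt_of_mem hz, wt_of_mem hz, ← ENNReal.ofReal_mul (Real.exp_pos _).le, ← Real.exp_add]
    refine ENNReal.ofReal_le_ofReal (Real.exp_le_exp.mpr ?_)
    have h1 : |x.1 - y.1| ≤ dist y x := by
      rw [dist_comm y x, ← Real.dist_eq]; exact le_max_left _ _
    have h2 : ‖x.2 - y.2‖ ≤ dist y x := by
      rw [dist_comm y x, ← dist_eq_norm]; exact le_max_right _ _
    have hd : 0 ≤ dist y x := dist_nonneg
    unfold expo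
    have h3 : ∑ i, ∑ j, gk (ab x.2) (z i) (z j) ≤
        ∑ i, ∑ j, (gk (ab y.2) (z i) (z j) + dist y x) := by
      refine Finset.sum_le_sum fun i _ => Finset.sum_le_sum fun j _ => ?_
      have := abs_va_sub_le x.2 y.2 (dist (z i) (z j))
      unfold gk
      linarith
    simp only [Finset.sum_add_distrib, Finset.sum_const, Finset.card_univ, Fintype.card_fin,
      nsmul_eq_mul] at h3
    rw [Fintype.card_fin]
    have h4 : (x.1 - y.1) * N ≤ dist y x * N :=
      mul_le_mul_of_nonneg_right ((le_abs_self _).trans h1) (Nat.cast_nonneg N)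
    have hN : (0 : ℝ) ≤ (N : ℝ) * (N * dist y x) := by positivity
    have h5 : (N + N ^ 2 : ℝ) * dist y x = dist y x * N + N * (N * dist y x) := by ring
    linarith
  · push Not at hz
    obtain ⟨i, hi⟩ := hz
    rw [wt_eq_zero hi, mul_zero]
    exact zero_le

lemma lsc_term (A : Set V3) (N : ℕ) :
    LowerSemicontinuous fun x : XX => (N.factorial : ℝ≥0∞)⁻¹ * zint A x.1 (gk (ab x.2)) (Fin N) := by
  intro x y hy
  have h1 : Tendsto (fun x' : XX => ENNReal.ofReal (Real.exp (-((N + N ^ 2 : ℝ) * dist x' x))) *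
      ((N.factorial : ℝ≥0∞)⁻¹ * zint A x.1 (gk (ab x.2)) (Fin N))) (𝓝 x)
      (𝓝 (1 * ((N.factorial : ℝ≥0∞)⁻¹ * zint A x.1 (gk (ab x.2)) (Fin N)))) := by
    refine ENNReal.Tendsto.mul_const ?_ (Or.inl one_ne_zero)
    have h2 : Continuous fun x' : XX => ENNReal.ofReal (Real.exp (-((N + N ^ 2 : ℝ) * dist x' x))) := by
      refine ENNReal.continuous_ofReal.comp ?_
      fun_prop
    have h3 := h2.tendsto x
    simpa using h3
  rw [one_mul] at h1
  filter_upwards [h1.eventually_const_lt hy] with x' hx'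
  refine hx'.trans_le ?_
  rw [mul_left_comm]
  gcongr
  exact zint_lip A N x x'

lemma lsc_G (A : Set V3) : LowerSemicontinuous fun x : XX => G A x.1 (gk (ab x.2)) := by
  unfold G
  exact lowerSemicontinuous_tsum fun N => lsc_term A N

lemma lsc_FF (n : ℕ) : LowerSemicontinuous fun x : XX => FF (ab x.2) x.1 n / ((n : ℝ) + 2) ^ 3 := by
  intro x y hy
  have hn : (0 : ℝ) < ((n : ℝ) + 2) ^ 3 := by positivity
  simp only [gt_iff_lt] at hy ⊢
  rw [lt_div_iff₀ hn] at hy
  have hfin : ∀ x : XX, G (bx n) x.1 (gk (ab x.2)) ≠ ∞ := fun x =>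
    G_gk_fin (ab_nonneg _) (summable_ab _) (measurableSet_bx n) (volume_bx_ne_top n)
  have hpos : ∀ x : XX, 0 < (G (bx n) x.1 (gk (ab x.2))).toReal := fun x => by
    have := one_le_toReal (one_le_G (A := bx n) (μ := x.1) (g := gk (ab x.2))) (hfin x)
    linarith
  have h1 : ENNReal.ofReal (Real.exp (y * ((n : ℝ) + 2) ^ 3)) < G (bx n) x.1 (gk (ab x.2)) := by
    rw [ENNReal.ofReal_lt_iff_lt_toReal (Real.exp_pos _).le (hfin x)]
    exact (Real.lt_log_iff_exp_lt (hpos x)).mp hy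
  filter_upwards [lsc_G (bx n) x _ h1] with x' hx'
  rw [lt_div_iff₀ hn]
  rw [gt_iff_lt, ENNReal.ofReal_lt_iff_lt_toReal (Real.exp_pos _).le (hfin x')] at hx'
  exact (Real.lt_log_iff_exp_lt (hpos x')).mpr hx'

lemma lsc_PP : LowerSemicontinuous fun x : XX => PP (ab x.2) x.1 := by
  unfold PP
  exact lowerSemicontinuous_ciSup
    (fun x => bddAbove_FF (ab_nonneg x.2) (summable_ab x.2) x.1) (fun n => lsc_FF n)

/-- The affine lower bound. -/
lemma PP_lower {b : ℕ → ℝ} (hb0 : ∀ j, 0 ≤ b j) (hb : Summable b) (μ : ℝ) :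
    (μ + (∑' j, b j) / 3456) / 27 ≤ PP b μ := by
  have h1 : ∀ J : Finset ℕ, (μ + (∑ j ∈ J, b j) / 3456) / 27 ≤ PP b μ := by
    intro J
    have hlim : Tendsto (fun n : ℕ => FF b μ (3 * n) / ((3 * n : ℕ) : ℝ) ^ 3) atTop
        (𝓝 (PP b μ)) := by
      have h1 : Tendsto (fun n : ℕ => 3 * n) atTop atTop :=
        tendsto_id.const_mul_atTop' (by norm_num)
      exact (tendsto_FF hb0 hb μ).comp h1
    refine ge_of_tendsto hlim ?_
    filter_upwards [eventually_ge_atTop (∑ j ∈ J, 2 ^ (j + 3)), eventually_gt_atTop 0] with n hn hn0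
    have hn0' : (0 : ℝ) < n := by exact_mod_cast hn0
    have h2 := trial_lower hb0 hb μ n J (fun j hj => by
      have : 2 ^ (j + 3) ≤ ∑ j ∈ J, 2 ^ (j + 3) :=
        Finset.single_le_sum (f := fun j => 2 ^ (j + 3)) (fun _ _ => Nat.zero_le _) hj
      omega) (bx (3 * n)) (fun x hx i => by
        have := hx i
        push_cast
        exact this)
    have hfin := G_gk_fin (μ := μ) hb0 hb (measurableSet_bx (3 * n)) (volume_bx_ne_top (3 * n))
    have h3 : (n : ℝ) ^ 3 * (μ + (∑ j ∈ J, b j) / 3456) ≤ FF b μ (3 * n) := by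
      unfold FF
      have hpos : 0 < (G (bx (3 * n)) μ (gk b)).toReal := by
        have := one_le_toReal (one_le_G (A := bx (3 * n)) (μ := μ) (g := gk b)) hfin
        linarith
      rw [Real.le_log_iff_exp_le hpos]
      rw [← ENNReal.toReal_ofReal (Real.exp_pos _).le]
      exact ENNReal.toReal_mono hfin h2
    rw [le_div_iff₀ (by positivity)]
    push_cast
    linarith
  have h2 : Tendsto (fun J : Finset ℕ => (μ + (∑ j ∈ J, b j) / 3456) / 27) atTop
      (𝓝 ((μ + (∑' j, b j) / 3456) / 27)) := by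
    have h3 : Tendsto (fun J : Finset ℕ => ∑ j ∈ J, b j) atTop (𝓝 (∑' j, b j)) := hb.hasSum
    exact ((h3.div_const 3456).const_add μ).div_const 27
  exact le_of_tendsto' h2 h1

/-- the functional -/
noncomputable def EE (x : XX) : ℝ := PP (ab x.2) x.1 - (1 / 3456) * ((x.1 + ‖x.2‖ / 3456) / 27)

lemma lsc_EE : LowerSemicontinuous EE := by
  unfold EE
  simp_rw [sub_eq_add_neg]
  refine lsc_PP.add (Continuous.lowerSemicontinuous ?_)
  fun_prop

lemma EE_nonneg (x : XX) : 0 ≤ EE x := by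
  unfold EE
  have h1 := PP_lower (ab_nonneg x.2) (summable_ab x.2) x.1
  rw [← norm_eq] at h1
  have h2 := PP_nonneg (ab_nonneg x.2) (summable_ab x.2) x.1
  by_cases h : 0 ≤ (x.1 + ‖x.2‖ / 3456) / 27
  · linarith
  · push Not at h
    linarith

/-- the perturbation of `a` in the `j`-th coordinate -/
noncomputable def pert (a : L1) (j : ℕ) (t : ℝ) : L1 :=
  a + lp.single 1 j (if 0 ≤ a j then t else -t)

lemma ab_pert (a : L1) (j : ℕ) {t : ℝ} (ht : 0 ≤ t) : ab (pert a j t) = addj (ab a) j t := by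
  funext i
  unfold ab pert addj
  by_cases hi : i = j
  · subst hi
    simp only [lp.coeFn_add, Pi.add_apply, lp.single_apply_self, if_true]
    split_ifs with h
    · rw [abs_of_nonneg h, abs_of_nonneg (by linarith)]
    · push Not at h
      rw [abs_of_neg h, abs_of_neg (by linarith)]; ring
  · simp only [lp.coeFn_add, Pi.add_apply, if_neg hi, add_zero]
    rw [lp.single_apply_ne _ _ _ hi, add_zero]

lemma dist_pert (a : L1) (j : ℕ) {t : ℝ} (ht : 0 ≤ t) : dist (pert a j t) a = t := by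
  unfold pert
  rw [dist_eq_norm, add_sub_cancel_left, lp.norm_single (by norm_num)]
  split_ifs
  · rw [Real.norm_eq_abs, abs_of_nonneg ht]
  · rw [norm_neg, Real.norm_eq_abs, abs_of_nonneg ht]

lemma norm_pert (a : L1) (j : ℕ) {t : ℝ} (ht : 0 ≤ t) : ‖pert a j t‖ = ‖a‖ + t := by
  rw [norm_eq, ab_pert a j ht, tsum_addj (summable_ab a), ← norm_eq]

/-- **Non-differentiability.** -/
theorem exists_nondiff : ∃ (a : L1) (μ : ℝ), ¬ DifferentiableAt ℝ (PP (ab a)) μ := by
  have hε : (0 : ℝ) < 1 / 10 ^ 12 := by norm_num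
  obtain ⟨⟨μ, a⟩, hx⟩ := ekeland EE lsc_EE ⟨0, by rintro _ ⟨x, rfl⟩; exact EE_nonneg x⟩
    (0 : XX) hε
  refine ⟨a, μ, fun hd => ?_⟩
  obtain ⟨ρ, hρ⟩ : ∃ ρ, HasDerivAt (PP (ab a)) ρ μ := ⟨_, hd.hasDerivAt⟩
  -- the first order condition in `μ`
  have hμ : ∀ h : ℝ, PP (ab a) μ + h * (1 / 93312) ≤ PP (ab a) (μ + h) + 1 / 10 ^ 12 * |h| := by
    intro h
    have h1 := hx (μ + h, a)
    have h2 : dist ((μ + h, a) : XX) (μ, a) = |h| := by
      rw [Prod.dist_eq]
      simp
    rw [h2] at h1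
    unfold EE at h1
    simp only at h1
    linarith
  have hρ1 : ρ ≤ 1 / 93312 + 1 / 10 ^ 12 := by
    by_contra hcon
    push Not at hcon
    set c := (ρ - (1 / 93312 + 1 / 10 ^ 12)) / 2 with hc
    have hc0 : 0 < c := by rw [hc]; linarith
    have h1 := (hasDerivAt_iff_isLittleO_nhds_zero.mp hρ).def hc0
    obtain ⟨e, he0, he⟩ := Metric.eventually_nhds_iff.mp h1
    have h2 := he (show dist (-(e / 2)) 0 < e by
      rw [Real.dist_eq, sub_zero, abs_neg, abs_of_pos (by linarith)]; linarith)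
    have h3 := hμ (-(e / 2))
    rw [Real.norm_eq_abs, Real.norm_eq_abs, abs_neg, abs_of_pos (by linarith : 0 < e / 2)] at h2
    rw [abs_neg, abs_of_pos (by linarith : 0 < e / 2)] at h3
    have h4 := (abs_le.mp h2).2
    simp only [smul_eq_mul] at h4
    have h5 : c = (ρ - (1 / 93312 + 1 / 10 ^ 12)) / 2 := hc
    nlinarith
  have hρ2 : 1 / 93312 - 1 / 10 ^ 12 ≤ ρ := by
    by_contra hcon
    push Not at hcon
    set c := ((1 / 93312 - 1 / 10 ^ 12) - ρ) / 2 with hc
    have hc0 : 0 < c := by rw [hc]; linarith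
    have h1 := (hasDerivAt_iff_isLittleO_nhds_zero.mp hρ).def hc0
    obtain ⟨e, he0, he⟩ := Metric.eventually_nhds_iff.mp h1
    have h2 := he (show dist (e / 2) 0 < e by
      rw [Real.dist_eq, sub_zero, abs_of_pos (by linarith)]; linarith)
    have h3 := hμ (e / 2)
    rw [Real.norm_eq_abs, Real.norm_eq_abs, abs_of_pos (by linarith : 0 < e / 2)] at h2
    rw [abs_of_pos (by linarith : 0 < e / 2)] at h3
    have h4 := (abs_le.mp h2).2
    simp only [smul_eq_mul] at h4
    have h5 : c = ((1 / 93312 - 1 / 10 ^ 12) - ρ) / 2 := hc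
    nlinarith
  -- the long-range condition
  obtain ⟨t, ht0, j, hj⟩ := long_range (ab_nonneg a) (summable_ab a) hρ
    (show (0 : ℝ) < 1 / 10 ^ 12 by norm_num)
  have h1 := hx (μ, pert a j t)
  have h2 : dist ((μ, pert a j t) : XX) (μ, a) = t := by
    rw [Prod.dist_eq]
    simp only [dist_self]
    rw [dist_pert a j ht0.le, max_eq_right ht0.le]
  rw [h2] at h1
  unfold EE at h1
  simp only at h1
  rw [ab_pert a j ht0.le, norm_pert a j ht0.le] at h1
  have h3 : t * (1 / 322486272 - 1 / 10 ^ 12) ≤ t * (27 * ρ ^ 2 / 2 + 1 / 10 ^ 12) := by linarith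
  have h4 := le_of_mul_le_mul_left h3 ht0
  nlinarith

/-- The main theorem. -/
theorem main : ∃ φ : ℝ → ℝ, Measurable φ ∧ LocallyBounded φ ∧ Stable φ ∧ Tempered φ ∧
    HasPhaseTransition φ := by
  obtain ⟨a, μ, hnd⟩ := exists_nondiff
  have hb0 := ab_nonneg a
  have hb := summable_ab a
  refine ⟨phib (ab a), measurable_phib hb0 hb, locallyBounded_phib hb0 hb, stable_phib hb0 hb,
    tempered_phib hb0, 1, one_pos, fun z => PP (ab a) (Real.log z - va (ab a) 0 / 2), ?_,
    Real.exp (μ + va (ab a) 0 / 2), Real.exp_pos _, not_differentiableAt_log hnd⟩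
  intro z hz
  refine ⟨fun L _ => (grandZ_eq hb0 hb hz L).1, ?_⟩
  simp_rw [fun L => (grandZ_eq hb0 hb hz L).2]
  refine tendsto_real hb0 hb _ cube (fun L hL x hx k => ?_) (fun L hL x hx k => ?_)
  · obtain ⟨h1, h2⟩ := hx k
    exact ⟨h1, h2.le.trans (Nat.floor_le hL)⟩
  · obtain ⟨h1, h2⟩ := hx k
    refine ⟨h1, h2.trans_lt ?_⟩
    push_cast
    exact Nat.lt_floor_add_one L

end Vale.Agent.P171
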