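import Vale.Agent.Lib.P171.Defs

/-!
# Sanity checks for the statement definitions of P171
-/

open MeasureTheory Filter Topology

namespace Vale.Agent.P171

/-- the energy of two particles is `φ` of their distance -/
lemma energy_two (φ : ℝ → ℝ) (x : Fin 2 → Space) : energy φ x = φ (dist (x 0) (x 1)) := by
  simp [energy, Fin.sum_univ_two]

/-- the energy of three particles -/
lemma energy_three (φ : ℝ → ℝ) (x : Fin 3 → Space) :
    energy φ x = φ (dist (x 0) (x 1)) + φ (dist (x 0) (x 2)) + φ (dist (x 1) (x 2)) := by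
  simp [energy, Fin.sum_univ_three]

/-- `Z_{L,0} = 1` -/
lemma canonicalZ_zero (φ : ℝ → ℝ) (β L : ℝ) : canonicalZ φ β L 0 = 1 := by
  unfold canonicalZ energy
  have h : {x : Fin 0 → Space | ∀ i, x i ∈ cube L} = Set.univ := by
    ext x; simp
  rw [h]
  simp [volume_pi, Measure.real]

end Vale.Agent.P171
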